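import Vale.Agent.P254Z.Br.GC
import Vale.Agent.P254.SP.H620.DK

/-! P254, Brenier potential: change of variables (`StmtPush`), spectral bounds, entropy (`StmtEnt`). -/

set_option linter.all false

open MeasureTheory Filter Set Matrix
open scoped Topology NNReal

namespace Vale.Agent.P254Z.Br

open Vale.Agent.P227.M Vale.Agent.P254 Vale.Agent.P254.S Vale.Agent.P254.S130 Vale.Agent.P254.SP620

variable {n : ℕ} {φ V : E n → ℝ} {a b M κ : ℝ}

theorem bp_mmc (h : BP φ V a b M κ) :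
    MC.MMc φ (fun x => (∑ i, x i * pd i φ x) - φ x - Real.log (hess φ x).det) a b M :=
  ⟨h.a_pos, h.C2, h.lower, h.upper, h.lip, fun _ => rfl⟩

theorem grad_coord (f : E n → ℝ) (z : E n) (i : Fin n) : gradient f z i = pd i f z := by
  rw [← inner_ei, inner_gradient]
  rfl

theorem bp_c1 (h : BP φ V a b M κ) : ContDiff ℝ 1 (gradient φ) := contDiff_gradient (by norm_num) h.C2

theorem bp_mono (h : BP φ V a b M κ) (x y : E n) :
    a * ‖x - y‖ ^ 2 ≤ inner ℝ (gradient φ x - gradient φ y) (x - y) := by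
  set v := x - y with hv
  obtain ⟨c, -, hc2⟩ := exists_hasDerivAt_eq_slope (fun t : ℝ => (inner ℝ (gradient φ (y + t • v)) v : ℝ))
    (fun t => inner ℝ (hT φ (y + t • v) v) v) (zero_lt_one)
    (fun t _ => (line_deriv2 h.C2 y v v t).continuousAt.continuousWithinAt)
    (fun t _ => line_deriv2 h.C2 y v v t)
  have h3 := h.lower (y + c • v) v
  rw [qf_hT h.C2, hc2] at h3
  simp only [one_smul, zero_smul, add_zero, sub_zero, div_one] at h3
  rw [inner_sub_left]
  have e : y + v = x := by rw [hv]; abel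
  rwa [e] at h3

theorem bp_det_pos (h : BP φ V a b M κ) (z : E n) : 0 < (hess φ z).det := (bp_mmc h).det_pos z

theorem bp_jac (h : BP φ V a b M κ) (z : E n) :
    Real.exp (-V (gradient φ z)) * (fderiv ℝ (gradient φ) z).det = Real.exp (-κ) * Real.exp (-Q z) := by
  have h1 : (fderiv ℝ (gradient φ) z).det = (hess φ z).det := (det_hT h.C2 z).symm
  rw [h1, h.ma z, ← Real.exp_log (bp_det_pos h z), Real.log_exp, ← Real.exp_add, ← Real.exp_add]
  congr 1
  unfold Q
  ring

theorem bp_integral (h : BP φ V a b M κ) (f : E n → ℝ) :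
    ∫ x, f x * Real.exp (-V x) = Real.exp (-κ) * ∫ z, f (gradient φ z) * Real.exp (-Q z) := by
  rw [LIM.integral_comp_mul_det h.a_pos (bp_c1 h) (bp_mono h), ← integral_const_mul]
  congr 1
  funext z
  rw [mul_assoc, bp_jac h]
  ring

theorem bp_Z (h : BP φ V a b M κ) :
    (∫ x, Real.exp (-V x)) = Real.exp (-κ) * ∫ z, Real.exp (-Q (n := n) z) := by
  simpa using bp_integral h (fun _ => 1)

theorem bp_Ex (h : BP φ V a b M κ) (f : E n → ℝ) : Ex V f = Ex Q (fun z => f (gradient φ z)) := by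
  unfold Ex
  rw [bp_integral h, bp_Z h, mul_div_mul_left _ _ (Real.exp_pos _).ne']

theorem bp_push (h : BP φ V a b M κ) (f : E n → ℝ) : Ex V f = ∫ z, f (gradient φ z) ∂(gQ n) := by
  rw [bp_Ex h, Ex_eq]

theorem bp_integrable (h : BP φ V a b M κ) (f : E n → ℝ) :
    Integrable (fun x => f x * Real.exp (-V x)) ↔
      Integrable (fun z => f (gradient φ z) * Real.exp (-Q z)) := by
  have hd : Differentiable ℝ (gradient φ) := (bp_c1 h).differentiable (by norm_num)
  have h1 := integrableOn_image_iff_integrableOn_abs_det_fderiv_smul (volume : Measure (E n))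
    (s := univ) MeasurableSet.univ (f' := fderiv ℝ (gradient φ))
    (fun x _ => (hd x).hasFDerivAt.hasFDerivWithinAt)
    (LIM.injective_of_mono h.a_pos (bp_mono h)).injOn (fun x => f x * Real.exp (-V x))
  rw [image_univ, (LIM.surjective_of_mono h.a_pos (bp_c1 h) (bp_mono h)).range_eq, integrableOn_univ,
    integrableOn_univ] at h1
  rw [h1]
  have e : (fun z => |(fderiv ℝ (gradient φ) z).det| • (f (gradient φ z) * Real.exp (-V (gradient φ z))))
      = fun z => Real.exp (-κ) * (f (gradient φ z) * Real.exp (-Q z)) := by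
    funext z
    rw [abs_of_pos (LIM.det_pos_of_mono h.a_pos hd (bp_mono h) z), smul_eq_mul]
    have := bp_jac h z
    calc _ = f (gradient φ z) * (Real.exp (-V (gradient φ z)) * (fderiv ℝ (gradient φ) z).det) := by ring
      _ = _ := by rw [this]; ring
  rw [e]
  exact integrable_const_mul_iff (isUnit_iff_ne_zero.2 (Real.exp_pos _).ne') _

theorem stmtPush : StmtPush := fun _ _ _ _ _ _ _ h => ⟨bp_Ex h, bp_integrable h, bp_Z h⟩

/-! ### spectrum -/

theorem qf_col {A U : Matrix (Fin n) (Fin n) ℝ} {m : Fin n → ℝ} (h : Dec A U m) (i : Fin n) :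
    qf A (WithLp.toLp 2 fun k => U k i) = m i ∧ ‖(WithLp.toLp 2 fun k => U k i : E n)‖ ^ 2 = 1 := by
  have h1 : Uᵀ * A * U = diagonal m := by
    rw [h.eq]
    calc Uᵀ * (U * diagonal m * Uᵀ) * U = (Uᵀ * U) * diagonal m * (Uᵀ * U) := by simp only [Matrix.mul_assoc]
      _ = _ := by rw [h.orth, Matrix.one_mul, Matrix.mul_one]
  constructor
  · have h2 := congrFun (congrFun h1 i) i
    rw [diagonal_apply_eq, Matrix.mul_apply] at h2
    rw [← h2, qf, Finset.sum_comm]
    refine Finset.sum_congr rfl fun l _ => ?_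
    rw [Matrix.mul_apply, Finset.sum_mul]
    refine Finset.sum_congr rfl fun k _ => ?_
    simp only [transpose_apply]
    ring
  · have h2 := congrFun (congrFun h.orth i) i
    rw [Matrix.mul_apply, one_apply_eq] at h2
    rw [norm_sq_eq_sum, ← h2]
    refine Finset.sum_congr rfl fun k _ => ?_
    simp only [transpose_apply]
    ring

theorem dec_mem {A U : Matrix (Fin n) (Fin n) ℝ} {m : Fin n → ℝ} (h : Dec A U m)
    (h1 : ∀ v : E n, a * ‖v‖ ^ 2 ≤ qf A v) (h2 : ∀ v : E n, qf A v ≤ b * ‖v‖ ^ 2) (i : Fin n) :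
    m i ∈ Icc a b := by
  obtain ⟨e1, e2⟩ := qf_col h i
  have h3 := h1 (WithLp.toLp 2 fun k => U k i)
  have h4 := h2 (WithLp.toLp 2 fun k => U k i)
  rw [e1, e2, mul_one] at h3 h4
  exact ⟨h3, h4⟩

theorem bp_symm (h : BP φ V a b M κ) (z : E n) : (hess φ z)ᵀ = hess φ z := by
  ext i j
  exact hess_symm h.C2 z j i

theorem bp_mem (h : BP φ V a b M κ) {z : E n} {U : Matrix (Fin n) (Fin n) ℝ} {m : Fin n → ℝ}
    (hd : Dec (hess φ z) U m) (i : Fin n) : m i ∈ Icc a b := dec_mem hd (h.lower z) (h.upper z) i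

theorem bp_dec (h : BP φ V a b M κ) (z : E n) :
    ∃ U m, Dec (hess φ z) U m ∧ ∀ i, m i ∈ Icc a b := by
  obtain ⟨U, m, hd⟩ := exists_dec (bp_symm h z)
  exact ⟨U, m, hd, bp_mem h hd⟩

theorem dec_det {A U : Matrix (Fin n) (Fin n) ℝ} {m : Fin n → ℝ} (h : Dec A U m) : A.det = ∏ i, m i := by
  have h1 : U.det * U.det = 1 := by
    have := congrArg det h.orth
    rwa [det_mul, det_transpose, det_one] at this
  rw [h.eq, det_mul, det_mul, det_transpose, det_diagonal]
  calc U.det * (∏ i, m i) * U.det = (U.det * U.det) * ∏ i, m i := by ring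
    _ = _ := by rw [h1, one_mul]

theorem bp_logdet (h : BP φ V a b M κ) {z : E n} {U : Matrix (Fin n) (Fin n) ℝ} {m : Fin n → ℝ}
    (hd : Dec (hess φ z) U m) : Real.log (hess φ z).det = ∑ i, Real.log (m i) := by
  rw [dec_det hd, Real.log_prod fun i _ => (h.a_pos.trans_le (bp_mem h hd i).1).ne']

theorem bp_abs_hess (h : BP φ V a b M κ) (z : E n) (i j : Fin n) : |hess φ z i j| ≤ |b| := by
  obtain ⟨U, m, hd, hm⟩ := bp_dec h z
  rw [← hd.mf_id]
  refine hd.mf_le (F := fun x => x) (fun k => ?_) (abs_nonneg _) i j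
  rw [abs_of_pos (h.a_pos.trans_le (hm k).1)]
  exact (hm k).2.trans (le_abs_self _)

theorem bp_mbl (h : BP φ V a b M κ) : MBL (hess φ) := fun i j =>
  ⟨⟨|b|, fun z => bp_abs_hess h z i j⟩, M, h.lip i j⟩

theorem bp_mbl_tau (h : BP φ V a b M κ) : MBL (tau φ) := fun i j =>
  ⟨⟨a⁻¹, fun z => (bp_mmc h).abs_tau_le z i j⟩, _, (bp_mmc h).tau_lip i j⟩

theorem bp_gr_logdet (h : BP φ V a b M κ) : Gr (fun z => Real.log (hess φ z).det) := by
  have hc : Continuous fun z => (hess φ z).det :=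
    Continuous.matrix_det (continuous_pi fun i => continuous_pi fun j => continuous_hess h.C2 i j)
  refine Gr.of_bound (hc.log fun z => (bp_det_pos h z).ne') (B := n * (|Real.log a| + |Real.log b|)) fun z => ?_
  obtain ⟨U, m, hd, hm⟩ := bp_dec h z
  rw [bp_logdet h hd]
  refine (Finset.abs_sum_le_sum_abs _ _).trans ?_
  have h1 : ∀ i, |Real.log (m i)| ≤ |Real.log a| + |Real.log b| := by
    intro i
    have h2 := Real.log_le_log h.a_pos (hm i).1
    have h3 := Real.log_le_log (h.a_pos.trans_le (hm i).1) (hm i).2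
    rw [abs_le]
    constructor
    · linarith [neg_abs_le (Real.log a), abs_nonneg (Real.log b)]
    · linarith [le_abs_self (Real.log b), abs_nonneg (Real.log a)]
  refine (Finset.sum_le_sum fun i _ => h1 i).trans (le_of_eq ?_)
  simp only [Finset.sum_const, Finset.card_univ, Fintype.card_fin, nsmul_eq_mul]

theorem log_ZQ : Real.log (∫ z : E n, Real.exp (-Q z)) = (n : ℝ) / 2 * Real.log (2 * Real.pi) := by
  rw [Z_eq, Real.log_rpow (by positivity), finrank_euclideanSpace_fin]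
  congr 2
  ring

theorem bp_ent (h : BP φ V a b M κ) :
    entV V = (n : ℝ) / 2 * Real.log (2 * Real.pi * Real.exp 1) + ∫ z, Real.log (hess φ z).det ∂(gQ n) := by
  unfold entV
  rw [bp_push h, bp_Z h, Real.log_mul (Real.exp_pos _).ne' Z_pos.ne', Real.log_exp, log_ZQ]
  simp only [h.ma]
  have i1 : Integrable (fun z : E n => ‖z‖ ^ 2 / 2) (gQ n) := (PG.of_gr (Gr.norm.pow 2)).int.div_const 2
  have i2 := (PG.of_gr (bp_gr_logdet h)).int
  have i3 : Integrable (fun z : E n => ‖z‖ ^ 2 / 2 + Real.log (hess φ z).det) (gQ n) := i1.add i2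
  rw [integral_add i3 (integrable_const κ), integral_add i1 i2, integral_div, mean_norm_sq,
    Real.log_mul (by positivity) (Real.exp_pos _).ne', Real.log_exp]
  simp only [integral_const, probReal_univ, smul_eq_mul, one_mul]
  ring

theorem stmtEnt : StmtEnt := fun _ _ _ _ _ _ _ h => by rw [Ex_eq]; exact bp_ent h

/-! ### functions of the Hessian -/

theorem lip_of_deriv {F F' : ℝ → ℝ} (hF : ∀ x ∈ Icc a b, HasDerivWithinAt F (F' x) (Icc a b) x)
    (hF' : ContinuousOn F' (Icc a b)) :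
    ∃ L B : ℝ, 0 ≤ L ∧ 0 ≤ B ∧ (∀ x ∈ Icc a b, ∀ y ∈ Icc a b, |F x - F y| ≤ L * |x - y|) ∧
      ∀ x ∈ Icc a b, |F x| ≤ B := by
  obtain ⟨L, hL⟩ := isCompact_Icc.exists_bound_of_continuousOn hF'
  have hc : ContinuousOn F (Icc a b) := fun x hx => (hF x hx).continuousWithinAt
  obtain ⟨B, hB⟩ := isCompact_Icc.exists_bound_of_continuousOn hc
  refine ⟨|L|, |B|, abs_nonneg _, abs_nonneg _, fun x hx y hy => ?_, fun x hx => (hB x hx).trans (le_abs_self _)⟩
  have := (convex_Icc a b).norm_image_sub_le_of_norm_hasDerivWithin_le hF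
    (fun t ht => (hL t ht).trans (le_abs_self L)) hy hx
  simpa [Real.norm_eq_abs] using this

/-- a Lipschitz function of a Lipschitz symmetric field with spectrum in `[a, b]` is Lipschitz -/
theorem mbl_mf {A : E n → Matrix (Fin n) (Fin n) ℝ} (hA : MBL A)
    (hs : ∀ z, ∃ U m, Dec (A z) U m ∧ ∀ i, m i ∈ Icc a b) {F : ℝ → ℝ} {L B : ℝ} (hL0 : 0 ≤ L) (hB0 : 0 ≤ B)
    (hL : ∀ x ∈ Icc a b, ∀ y ∈ Icc a b, |F x - F y| ≤ L * |x - y|) (hB : ∀ x ∈ Icc a b, |F x| ≤ B) :
    MBL (fun z => mf F (A z)) := by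
  choose K hK using fun i j => (hA i j).2
  set K0 := ∑ i, ∑ j, |K i j| with hK0
  have hK1 : ∀ i j, |K i j| ≤ K0 := fun i j =>
    (Finset.single_le_sum (f := fun j => |K i j|) (fun _ _ => abs_nonneg _) (Finset.mem_univ j)).trans
      (Finset.single_le_sum (f := fun i => ∑ j, |K i j|)
        (fun _ _ => Finset.sum_nonneg fun _ _ => abs_nonneg _) (Finset.mem_univ i))
  have hK00 : 0 ≤ K0 := Finset.sum_nonneg fun _ _ => Finset.sum_nonneg fun _ _ => abs_nonneg _
  intro i j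
  refine ⟨⟨B, fun z => ?_⟩, L * (n * K0), fun x y => ?_⟩
  · obtain ⟨U, m, hd, hm⟩ := hs z
    exact hd.mf_le (fun k => hB _ (hm k)) hB0 i j
  · obtain ⟨U, m, hd, hm⟩ := hs x
    obtain ⟨U', m', hd', hm'⟩ := hs y
    have h1 := mf_lip hd hd' (F := F) (L := L) fun k l => hL _ (hm k) _ (hm' l)
    have h2 : fr (A x - A y) ≤ (n * (K0 * ‖x - y‖)) ^ 2 := by
      have := fr_le (X := A x - A y) (B := K0 * ‖x - y‖) fun k l => by
        rw [Matrix.sub_apply]
        exact (hK k l x y).trans (mul_le_mul_of_nonneg_right ((le_abs_self _).trans (hK1 k l)) (norm_nonneg _))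
      simpa using this
    have h3 : fr (mf F (A x) - mf F (A y)) ≤ (L * (n * K0) * ‖x - y‖) ^ 2 := by
      refine h1.trans ((mul_le_mul_of_nonneg_left h2 (sq_nonneg _)).trans (le_of_eq ?_))
      ring
    have h4 := entry_le (by positivity) h3 i j
    rwa [Matrix.sub_apply] at h4

theorem mbl_ae_diff {A : E n → Matrix (Fin n) (Fin n) ℝ} (hA : MBL A) :
    ∀ᵐ z, ∀ i j, DifferentiableAt ℝ (fun y => A y i j) z := by
  rw [ae_all_iff]
  intro i
  rw [ae_all_iff]
  intro j
  exact (PL.of_bl (hA i j)).diff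

/-- entrywise derivative of a matrix field -/
noncomputable def dM (A : E n → Matrix (Fin n) (Fin n) ℝ) (k : Fin n) (z : E n) : Matrix (Fin n) (Fin n) ℝ :=
  of fun i j => pd k (fun y => A y i j) z

/-- the chain rule for `F(A)` at a point of differentiability (Daleckii-Krein) -/
theorem dM_mf {A : E n → Matrix (Fin n) (Fin n) ℝ} (hab : a ≤ b)
    (hs : ∀ z, ∃ U m, Dec (A z) U m ∧ ∀ i, m i ∈ Icc a b) {F F' : ℝ → ℝ}
    (hF : ∀ x ∈ Icc a b, HasDerivWithinAt F (F' x) (Icc a b) x) (hF' : ContinuousOn F' (Icc a b))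
    {z : E n} (hz : ∀ i j, DifferentiableAt ℝ (fun y => A y i j) z)
    {U : Matrix (Fin n) (Fin n) ℝ} {m : Fin n → ℝ} (hd : Dec (A z) U m) (hm : ∀ i, m i ∈ Icc a b) (k : Fin n) :
    dM (fun y => mf F (A y)) k z = DK F F' U m (dM A k z) := by
  ext i j
  have h1 := hasFD_mf hab hF hF' (Eventually.of_forall hs) hd hm (fun i j => (hz i j).hasFDerivAt) i j
  change fderiv ℝ (fun y => mf F (A y) i j) z (ei k) = _
  rw [h1.fderiv, DKL_apply]
  rfl

theorem bp_mbl_mf (h : BP φ V a b M κ) {F F' : ℝ → ℝ}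
    (hF : ∀ x ∈ Icc a b, HasDerivWithinAt F (F' x) (Icc a b) x) (hF' : ContinuousOn F' (Icc a b)) :
    MBL (fun z => mf F (hess φ z)) := by
  obtain ⟨L, B, h1, h2, h3, h4⟩ := lip_of_deriv hF hF'
  exact mbl_mf (bp_mbl h) (bp_dec h) h1 h2 h3 h4

end Vale.Agent.P254Z.Br
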