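import Vale.Agent.P254Z.Br.BPa

/-! P254, Brenier potential: differentiated Monge-Ampere equation, Stein identity and the weak energy
identity `E tr W = E tr W (M V'' M + Q) + E M^{ab} tr (d_a W d_b M)` for Lipschitz test fields. -/

set_option linter.all false

open MeasureTheory Filter Set Matrix
open scoped Topology NNReal

namespace Vale.Agent.P254Z.Br

open Vale.Agent.P227.M Vale.Agent.P254 Vale.Agent.P254.S Vale.Agent.P254.S130 Vale.Agent.P254.SP620

variable {n : ℕ} {φ V : E n → ℝ} {a b M κ c C : ℝ}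

theorem norm_le_sum_abs (v : E n) : ‖v‖ ≤ ∑ i, |v i| := by
  conv_lhs => rw [← sum_smul_ei v]
  refine (norm_sum_le _ _).trans (le_of_eq (Finset.sum_congr rfl fun i _ => ?_))
  rw [norm_smul, norm_ei, mul_one, Real.norm_eq_abs]

theorem lip_of_pd {f : E n → ℝ} (hf : Differentiable ℝ f) {B : ℝ} (hB : ∀ i x, |pd i f x| ≤ B) :
    LipschitzWith (Real.toNNReal (n * |B|)) f := by
  refine lipschitzWith_of_nnnorm_fderiv_le (𝕜 := ℝ) hf fun x => ?_
  rw [← NNReal.coe_le_coe, coe_nnnorm, Real.coe_toNNReal _ (by positivity)]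
  refine ContinuousLinearMap.opNorm_le_bound _ (by positivity) fun v => ?_
  rw [fderiv_eq_sum, Real.norm_eq_abs]
  refine (Finset.abs_sum_le_sum_abs _ _).trans ?_
  have h1 : ∀ i, |v i * pd i f x| ≤ |B| * ‖v‖ := fun i => by
    rw [abs_mul, mul_comm]
    exact mul_le_mul ((hB i x).trans (le_abs_self _)) (abs_coord_le v i) (abs_nonneg _) (abs_nonneg _)
  refine (Finset.sum_le_sum fun i _ => h1 i).trans (le_of_eq ?_)
  simp only [Finset.sum_const, Finset.card_univ, Fintype.card_fin, nsmul_eq_mul]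
  ring

theorem bp_lip_T (h : BP φ V a b M κ) (i : Fin n) : LipschitzWith (Real.toNNReal (n * |(|b|)|)) (pd i φ) :=
  lip_of_pd (fun x => rad_pd_diff h.C2 i x) fun j x => bp_abs_hess h x j i

theorem bp_pl_T (h : BP φ V a b M κ) (i : Fin n) : PL (pd i φ) := PL.of_lip (bp_lip_T h i)

theorem bp_gr_comp (h : BP φ V a b M κ) {G : E n → ℝ} (hG : Gr G) : Gr (fun z => G (gradient φ z)) := by
  obtain ⟨hc, B, k, hB, hb⟩ := hG
  have h1 : Gr (fun z => B * (1 + ∑ i, |pd i φ z|) ^ k) :=
    (((Gr.const 1).add (Gr.sum _ fun i _ => (lip_gr (bp_lip_T h i)).abs)).pow k).const_mul B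
  obtain ⟨-, B', k', hB', hb'⟩ := h1
  refine ⟨hc.comp (bp_c1 h).continuous, B', k', hB', fun z => ?_⟩
  refine (hb _).trans (le_trans ?_ ((le_abs_self _).trans (hb' z)))
  have h2 := norm_le_sum_abs (gradient φ z)
  simp only [grad_coord] at h2
  exact mul_le_mul_of_nonneg_left (pow_le_pow_left₀ (by positivity) (by linarith) k) hB

theorem bp_pd_comp (h : BP φ V a b M κ) {G : E n → ℝ} {z : E n} (hG : DifferentiableAt ℝ G (gradient φ z))
    (j : Fin n) : pd j (fun y => G (gradient φ y)) z = ∑ l, hess φ z j l * pd l G (gradient φ z) := by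
  have h1 := hG.hasFDerivAt.comp z (hasFDerivAt_gradient h.C2 z)
  have h2 : fderiv ℝ (fun y => G (gradient φ y)) z = (fderiv ℝ G (gradient φ z)).comp (hT φ z) := h1.fderiv
  unfold pd
  rw [h2, ContinuousLinearMap.comp_apply, fderiv_eq_sum]
  refine Finset.sum_congr rfl fun l _ => ?_
  rw [hess_hT h.C2]
  rfl

theorem bp_pl_comp (h : BP φ V a b M κ) {G : E n → ℝ} (hG : ContDiff ℝ 1 G) (h0 : Gr G)
    (h1 : ∀ i, Gr (pd i G)) : PL (fun z => G (gradient φ z)) := by
  refine PL.of_c1 (hG.comp (bp_c1 h)) (bp_gr_comp h h0) fun j => ?_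
  have e : pd j (fun y => G (gradient φ y)) = fun z => ∑ l, hess φ z j l * pd l G (gradient φ z) :=
    funext fun z => bp_pd_comp h (hG.differentiable (by norm_num) _) j
  rw [e]
  exact Gr.sum _ fun l _ => ((bp_mmc h).gr_hessψ j l).mul (bp_gr_comp h (h1 l))

/-- `V_k (T z)` -/
noncomputable def VT (V φ : E n → ℝ) (k : Fin n) (z : E n) : ℝ := pd k V (gradient φ z)

theorem pl_VT (hV : Reg V c C) (h : BP φ V a b M κ) (k : Fin n) : PL (VT V φ k) :=
  bp_pl_comp h (contDiff_pd (k := 1) hV.C2 (by norm_num) k) (hV.gr_pd k) fun i => hV.gr_hess i k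

theorem pd_VT (hV : Reg V c C) (h : BP φ V a b M κ) (k j : Fin n) (z : E n) :
    pd j (VT V φ k) z = ∑ l, hess φ z j l * hess V (gradient φ z) l k :=
  bp_pd_comp h ((contDiff_pd (k := 1) hV.C2 (by norm_num) k).differentiable (by norm_num) _) j

theorem bp_good (h : BP φ V a b M κ) : ∀ᵐ z, Good φ z := S814.rad_good (bp_mmc h)

theorem pd_logdet (h : BP φ V a b M κ) {x : E n} (hx : Good φ x) (i : Fin n) :
    DifferentiableAt ℝ (fun y => Real.log (hess φ y).det) x ∧
    pd i (fun y => Real.log (hess φ y).det) x = ∑ p, ∑ q, tau φ x q p * D3 φ x i p q := by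
  obtain ⟨hd1, hd2⟩ := rad_det hx.1 i
  have hne : (hess φ x).det ≠ 0 := (bp_det_pos h x).ne'
  refine ⟨hd1.log hne, ?_⟩
  have e2 : pd i (fun y => Real.log (hess φ y).det) x = ((hess φ x).det)⁻¹ * pd i (fun y => (hess φ y).det) x := by
    unfold pd
    rw [fderiv.log hd1 hne]
    simp
  rw [e2, hd2, Finset.mul_sum]
  refine Finset.sum_congr rfl fun p _ => ?_
  rw [Finset.mul_sum]
  refine Finset.sum_congr rfl fun q _ => ?_
  have e3 : tau φ x q p = ((hess φ x).det)⁻¹ * (hess φ x).adjugate q p := by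
    unfold tau
    rw [Matrix.inv_def, Matrix.smul_apply, smul_eq_mul, Ring.inverse_eq_inv']
  rw [e3, mul_assoc]
  rfl

/-- the differentiated Monge-Ampere equation -/
theorem bp_dma (hV : Reg V c C) (h : BP φ V a b M κ) {x : E n} (hx : Good φ x) (i : Fin n) :
    ∑ k, hess φ x i k * VT V φ k x = x i + ∑ p, ∑ q, tau φ x q p * D3 φ x i p q := by
  have h1 := bp_pd_comp h (G := V) (z := x) (hV.C2.differentiable (by norm_num) _) i
  have e : (fun y => V (gradient φ y)) = fun y => (Q y + Real.log (hess φ y).det) + κ := funext h.ma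
  obtain ⟨h2, h3⟩ := pd_logdet h hx i
  have hQ : DifferentiableAt ℝ (Q : E n → ℝ) x := c1_Q.differentiable (by norm_num) x
  rw [e, rpd_add (hQ.fun_add h2) (differentiableAt_const κ), rpd_add hQ h2, rpd_const, pd_Q, h3, add_zero] at h1
  exact h1.symm

/-- the Gaussian divergence of `M⁻¹` is `∇V (T z)` -/
theorem bp_div (hV : Reg V c C) (h : BP φ V a b M κ) {x : E n} (hx : Good φ x) (k : Fin n) :
    ∑ p, (x p * tau φ x p k - pd p (fun y => tau φ y p k) x) = VT V φ k x := by
  have hm := bp_mmc h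
  have h1 : VT V φ k x = ∑ i, tau φ x k i * ∑ l, hess φ x i l * VT V φ l x := by
    simp only [Finset.mul_sum]
    rw [Finset.sum_comm]
    have h6 : ∀ l, ∑ i, tau φ x k i * (hess φ x i l * VT V φ l x) = (if k = l then 1 else 0) * VT V φ l x := by
      intro l
      have := congrFun (congrFun (hm.tau_mul_hess x) k) l
      rw [Matrix.mul_apply, Matrix.one_apply] at this
      rw [← this, Finset.sum_mul]
      exact Finset.sum_congr rfl fun i _ => by ring
    rw [Finset.sum_congr rfl fun l _ => h6 l]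
    simp
  rw [h1]
  simp only [bp_dma hV h hx, S814.rad_dtau hm hx, mul_add, Finset.sum_add_distrib, sub_neg_eq_add]
  congr 1
  · exact Finset.sum_congr rfl fun i _ => by rw [hm.tau_symm x k i]; ring
  · simp only [Finset.mul_sum]
    calc ∑ p, ∑ r, ∑ d, tau φ x p r * D3 φ x p r d * tau φ x d k
        = ∑ p, ∑ d, ∑ r, tau φ x p r * D3 φ x p r d * tau φ x d k :=
          Finset.sum_congr rfl fun p _ => Finset.sum_comm
      _ = ∑ d, ∑ p, ∑ r, tau φ x p r * D3 φ x p r d * tau φ x d k := Finset.sum_comm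
      _ = _ := by
          refine Finset.sum_congr rfl fun d _ => Finset.sum_congr rfl fun p _ =>
            Finset.sum_congr rfl fun r _ => ?_
          rw [S814.D3_symm' hm x p r d, S814.D3_symm hm hx p d r, hm.tau_symm x k d, hm.tau_symm x r p]
          ring

theorem pl_hess (h : BP φ V a b M κ) (i j : Fin n) : PL (fun z => hess φ z i j) := PL.of_bl (bp_mbl h i j)

theorem pl_tau (h : BP φ V a b M κ) (i j : Fin n) : PL (fun z => tau φ z i j) := PL.of_bl (bp_mbl_tau h i j)

theorem pg_D3 (h : BP φ V a b M κ) (k i j : Fin n) : PG (fun z => D3 φ z k i j) := (pl_hess h i j).d k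

/-- Stein identity: `E [f V_k(T)] = E [M^{pk} d_p f]` -/
theorem bp_stein (hV : Reg V c C) (h : BP φ V a b M κ) {f : E n → ℝ} (hf : PL f) (k : Fin n) :
    ∫ z, f z * VT V φ k z ∂(gQ n) = ∫ z, ∑ p, tau φ z p k * pd p f z ∂(gQ n) := by
  rw [integral_finsetSum _ fun p _ => ((pl_tau h p k).g.mul (hf.d p)).int]
  have h1 : ∀ p, ∫ z, tau φ z p k * pd p f z ∂(gQ n)
      = ∫ z, f z * (z p * tau φ z p k - pd p (fun y => tau φ y p k) z) ∂(gQ n) := fun p => by
    rw [← ibp2 hf (pl_tau h p k) p]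
    simp only [mul_comm]
  simp only [h1]
  rw [← integral_finsetSum _ fun p _ =>
    (hf.g.mul (((PG.coord p).mul (pl_tau h p k).g).sub ((pl_tau h p k).d p))).int]
  refine gQ_congr ?_
  filter_upwards [bp_good h] with x hx
  rw [← Finset.mul_sum, bp_div hV h hx]

/-- `Q_{ij} = tr (M⁻¹ d_i M M⁻¹ d_j M)` -/
noncomputable def Qm (φ : E n → ℝ) (z : E n) : Matrix (Fin n) (Fin n) ℝ :=
  of fun i j => (tau φ z * dM (hess φ) i z * (tau φ z * dM (hess φ) j z)).trace

/-- `M V''(T) M` -/
noncomputable def Pm (V φ : E n → ℝ) (z : E n) : Matrix (Fin n) (Fin n) ℝ :=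
  hess φ z * hess V (gradient φ z) * hess φ z

theorem Qm_apply (φ : E n → ℝ) (z : E n) (i j : Fin n) :
    Qm φ z i j = ∑ p, ∑ q, (∑ r, tau φ z p r * D3 φ z i r q) * ∑ s, tau φ z q s * D3 φ z j s p := by
  simp only [Qm, of_apply, Matrix.trace, diag_apply, Matrix.mul_apply, dM]
  rfl

theorem Pm_apply (V φ : E n → ℝ) (z : E n) (i j : Fin n) :
    Pm V φ z i j = ∑ k, (∑ l, hess φ z i l * hess V (gradient φ z) l k) * hess φ z k j := by
  simp only [Pm, Matrix.mul_apply]

theorem pg_Qm (h : BP φ V a b M κ) (i j : Fin n) : PG (fun z => Qm φ z i j) := by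
  simp only [Qm_apply]
  exact PG.sum _ fun p _ => PG.sum _ fun q _ =>
    (PG.sum _ fun r _ => (pl_tau h p r).g.mul (pg_D3 h i r q)).mul
      (PG.sum _ fun s _ => (pl_tau h q s).g.mul (pg_D3 h j s p))

theorem pg_Pm (hV : Reg V c C) (h : BP φ V a b M κ) (i j : Fin n) : PG (fun z => Pm V φ z i j) := by
  simp only [Pm_apply]
  exact PG.sum _ fun k _ => (PG.sum _ fun l _ => (pl_hess h i l).g.mul
    (PG.of_gr (bp_gr_comp h (hV.gr_hess l k)))).mul (pl_hess h k j).g

/-- the energy identity, one entry -/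
theorem bp_energy1 (hV : Reg V c C) (h : BP φ V a b M κ) {w : E n → ℝ} (hw : PL w) (i j : Fin n) :
    (if i = j then 1 else 0) * ∫ z, w z ∂(gQ n) =
      ∫ z, w z * Pm V φ z j i ∂(gQ n) + ∫ z, w z * Qm φ z j i ∂(gQ n)
        + ∫ z, ∑ p, ∑ q, tau φ z p q * (pd p w z * D3 φ z q j i) ∂(gQ n) := by
  have hm := bp_mmc h
  set l : E n → ℝ := fun z => (∑ k, hess φ z i k * VT V φ k z) - z i with hl
  have hlP : PL l := (PL.sum _ fun k _ => (pl_hess h i k).mul (pl_VT hV h k)).sub (PL.coord i)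
  have hR : PG (fun z => ∑ k, D3 φ z j i k * VT V φ k z * w z) :=
    PG.sum _ fun k _ => ((pg_D3 h j i k).mul (pl_VT hV h k).g).mul hw.g
  have hS : PG (fun z => ∑ p, ∑ q, tau φ z p q * (pd p w z * D3 φ z q j i)) :=
    PG.sum _ fun p _ => PG.sum _ fun q _ => (pl_tau h p q).g.mul ((hw.d p).mul (pg_D3 h q j i))
  have hP : PG (fun z => w z * Pm V φ z j i) := hw.g.mul (pg_Pm hV h j i)
  have hQ : PG (fun z => w z * Qm φ z j i) := hw.g.mul (pg_Qm h j i)
  have hL : PG (fun z => l z * (z j * w z - pd j w z)) := hlP.g.mul (((PG.coord j).mul hw.g).sub (hw.d j))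
  -- first step
  have s1 : ∫ z, l z * (z j * w z - pd j w z) ∂(gQ n) = ∫ z, w z * Pm V φ z j i ∂(gQ n)
      + ∫ z, ∑ k, D3 φ z j i k * VT V φ k z * w z ∂(gQ n) - (if i = j then 1 else 0) * ∫ z, w z ∂(gQ n) := by
    have i1 : Integrable (fun z => w z * Pm V φ z j i + ∑ k, D3 φ z j i k * VT V φ k z * w z) (gQ n) :=
      hP.int.add hR.int
    rw [← ibp2 hlP hw j, ← integral_add hP.int hR.int, ← integral_const_mul,
      ← integral_sub i1 (hw.g.int.const_mul _)]
    refine gQ_congr ?_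
    filter_upwards [bp_good h] with x hx
    have hv : ∀ k, DifferentiableAt ℝ (VT V φ k) x := fun k =>
      (((contDiff_pd (k := 1) hV.C2 (by norm_num) k).comp (bp_c1 h)).differentiable (by norm_num)) x
    have hs : ∀ k ∈ (Finset.univ : Finset (Fin n)),
        DifferentiableAt ℝ (fun z => hess φ z i k * VT V φ k z) x := fun k _ => (hx.1 i k).mul (hv k)
    rw [hl, rpd_sub (DifferentiableAt.fun_sum hs) (rad_diff_coord i x), rpd_sum hs, rpd_coord]
    have e : ∀ k, pd j (fun z => hess φ z i k * VT V φ k z) x = D3 φ x j i k * VT V φ k x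
        + (∑ l, hess φ x j l * hess V (gradient φ x) l k) * hess φ x k i := fun k => by
      rw [rpd_mul (hx.1 i k) (hv k), pd_VT hV h, hm.hess_symm x i k]
      unfold D3
      ring
    simp only [e, Finset.sum_add_distrib]
    rw [Pm_apply, ← Finset.sum_mul]
    ring
  -- second step
  have hg : ∀ p q, PL (fun z => tau φ z p q * w z) := fun p q => (pl_tau h p q).mul hw
  have hA : ∀ p q e f, PG (fun z => pd e (fun y => hess φ y q i) z *
      (pd f (fun y => tau φ y p q * w y) z - z f * (tau φ z p q * w z))) := fun p q e f =>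
    ((pl_hess h q i).d e).mul (((hg p q).d f).sub ((PG.coord f).mul (hg p q).g))
  have s2 : ∑ p, ∑ q, ∫ z, pd p (fun y => hess φ y q i) z *
        (pd j (fun y => tau φ y p q * w y) z - z j * (tau φ z p q * w z)) ∂(gQ n)
      = ∑ p, ∑ q, ∫ z, pd j (fun y => hess φ y q i) z *
        (pd p (fun y => tau φ y p q * w y) z - z p * (tau φ z p q * w z)) ∂(gQ n) :=
    Finset.sum_congr rfl fun p _ => Finset.sum_congr rfl fun q _ =>
      swap (rad_lipw (h.lip q i)) (hg p q) p j
  have s3 : ∑ p, ∑ q, ∫ z, pd p (fun y => hess φ y q i) z *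
        (pd j (fun y => tau φ y p q * w y) z - z j * (tau φ z p q * w z)) ∂(gQ n)
      = - ∫ z, w z * Qm φ z j i ∂(gQ n) - ∫ z, l z * (z j * w z - pd j w z) ∂(gQ n) := by
    simp only [← integral_finsetSum _ fun q _ => (hA _ q _ _).int]
    rw [← integral_finsetSum _ fun p _ => (PG.sum _ fun q _ => hA p q p j).int, ← integral_neg,
      ← integral_sub hQ.neg.int hL.int]
    refine gQ_congr ?_
    filter_upwards [bp_good h, hw.diff] with x hx hwx
    have e1 : l x = ∑ p, ∑ q, tau φ x p q * D3 φ x p q i := by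
      rw [hl]
      simp only
      rw [bp_dma hV h hx, add_sub_cancel_left]
      refine Finset.sum_congr rfl fun p _ => Finset.sum_congr rfl fun q _ => ?_
      rw [hm.tau_symm x q p, S814.D3_symm hm hx i p q, S814.D3_symm' hm x p i q]
    have e2 : Qm φ x j i = - ∑ p, ∑ q, D3 φ x p q i * pd j (fun y => tau φ y p q) x := by
      simp only [S814.rad_dtau hm hx, mul_neg, Finset.sum_neg_distrib, neg_neg, Qm_apply, Finset.mul_sum,
        Finset.sum_mul]
      refine Finset.sum_congr rfl fun p _ => ?_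
      calc ∑ q, ∑ s, ∑ r, tau φ x p r * D3 φ x j r q * (tau φ x q s * D3 φ x i s p)
          = ∑ s, ∑ q, ∑ r, tau φ x p r * D3 φ x j r q * (tau φ x q s * D3 φ x i s p) := Finset.sum_comm
        _ = ∑ s, ∑ r, ∑ q, tau φ x p r * D3 φ x j r q * (tau φ x q s * D3 φ x i s p) :=
            Finset.sum_congr rfl fun s _ => Finset.sum_comm
        _ = _ := by
            refine Finset.sum_congr rfl fun s _ => Finset.sum_congr rfl fun r _ =>
              Finset.sum_congr rfl fun q _ => ?_
            rw [S814.D3_symm' hm x i s p, S814.D3_symm hm hx i p s, S814.D3_symm' hm x p i s]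
            ring
    have e3 : ∀ p q, pd p (fun y => hess φ y q i) x *
        (pd j (fun y => tau φ y p q * w y) x - x j * (tau φ x p q * w x))
        = w x * (D3 φ x p q i * pd j (fun y => tau φ y p q) x)
          - tau φ x p q * D3 φ x p q i * (x j * w x - pd j w x) := fun p q => by
      rw [rpd_mul (hx.2 p q) hwx]
      unfold D3
      ring
    simp only [e3, Finset.sum_sub_distrib, ← Finset.mul_sum, ← Finset.sum_mul]
    rw [e1, e2]
    ring
  have s4 : ∑ p, ∑ q, ∫ z, pd j (fun y => hess φ y q i) z *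
        (pd p (fun y => tau φ y p q * w y) z - z p * (tau φ z p q * w z)) ∂(gQ n)
      = ∫ z, ∑ p, ∑ q, tau φ z p q * (pd p w z * D3 φ z q j i) ∂(gQ n)
        - ∫ z, ∑ k, D3 φ z j i k * VT V φ k z * w z ∂(gQ n) := by
    simp only [← integral_finsetSum _ fun q _ => (hA _ q _ _).int]
    rw [← integral_finsetSum _ fun p _ => (PG.sum _ fun q _ => hA p q j p).int, ← integral_sub hS.int hR.int]
    refine gQ_congr ?_
    filter_upwards [bp_good h, hw.diff] with x hx hwx
    have e3 : ∀ p q, pd j (fun y => hess φ y q i) x *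
        (pd p (fun y => tau φ y p q * w y) x - x p * (tau φ x p q * w x))
        = tau φ x p q * (pd p w x * D3 φ x q j i)
          - D3 φ x j i q * (x p * tau φ x p q - pd p (fun y => tau φ y p q) x) * w x := fun p q => by
      rw [rpd_mul (hx.2 p q) hwx, S814.D3_symm hm hx q j i, S814.D3_symm' hm x j i q]
      unfold D3
      ring
    simp only [e3, Finset.sum_sub_distrib]
    congr 1
    rw [Finset.sum_comm]
    refine Finset.sum_congr rfl fun q _ => ?_
    rw [← Finset.sum_mul, ← Finset.mul_sum, bp_div hV h hx]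
  rw [s3, s4, s1] at s2
  linarith

/-- entries are `PL` -/
def MPL (W : E n → Matrix (Fin n) (Fin n) ℝ) : Prop := ∀ i j, PL fun z => W z i j

theorem MPL.of_mbl {W : E n → Matrix (Fin n) (Fin n) ℝ} (hW : MBL W) : MPL W := fun i j => PL.of_bl (hW i j)

/-- **the energy identity** -/
theorem bp_energy (hV : Reg V c C) (h : BP φ V a b M κ) {W : E n → Matrix (Fin n) (Fin n) ℝ} (hW : MPL W) :
    ∫ z, (W z).trace ∂(gQ n) =
      ∫ z, (W z * Pm V φ z).trace ∂(gQ n) + ∫ z, (W z * Qm φ z).trace ∂(gQ n)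
        + ∫ z, ∑ p, ∑ q, tau φ z p q * (dM W p z * dM (hess φ) q z).trace ∂(gQ n) := by
  have h1 := fun i j => bp_energy1 hV h (hW i j) i j
  have h2 : ∑ i, ∑ j, (if i = j then 1 else 0) * ∫ z, W z i j ∂(gQ n) = ∫ z, (W z).trace ∂(gQ n) := by
    simp only [Matrix.trace, diag_apply]
    rw [integral_finsetSum _ fun i _ => (hW i i).g.int]
    simp
  have hP := fun i j => (hW i j).g.mul (pg_Pm hV h j i)
  have hQ := fun i j => (hW i j).g.mul (pg_Qm h j i)
  have hS : ∀ i j, PG (fun z => ∑ p, ∑ q, tau φ z p q * (pd p (fun y => W y i j) z * D3 φ z q j i)) :=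
    fun i j => PG.sum _ fun p _ => PG.sum _ fun q _ => (pl_tau h p q).g.mul (((hW i j).d p).mul (pg_D3 h q j i))
  rw [← h2]
  simp only [h1, Finset.sum_add_distrib]
  congr 1
  congr 1
  · simp only [← integral_finsetSum _ fun j _ => (hP _ j).int]
    rw [← integral_finsetSum _ fun i _ => (PG.sum _ fun j _ => hP i j).int]
    simp only [Matrix.trace, diag_apply, Matrix.mul_apply]
  · simp only [← integral_finsetSum _ fun j _ => (hQ _ j).int]
    rw [← integral_finsetSum _ fun i _ => (PG.sum _ fun j _ => hQ i j).int]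
    simp only [Matrix.trace, diag_apply, Matrix.mul_apply]
  · simp only [← integral_finsetSum _ fun j _ => (hS _ j).int]
    rw [← integral_finsetSum _ fun i _ => (PG.sum _ fun j _ => hS i j).int]
    congr 1
    funext z
    simp only [Matrix.trace, diag_apply, Matrix.mul_apply, dM, of_apply, Finset.mul_sum]
    calc ∑ i, ∑ j, ∑ p, ∑ q, tau φ z p q * (pd p (fun y => W y i j) z * D3 φ z q j i)
        = ∑ i, ∑ p, ∑ j, ∑ q, tau φ z p q * (pd p (fun y => W y i j) z * D3 φ z q j i) :=
          Finset.sum_congr rfl fun i _ => Finset.sum_comm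
      _ = ∑ p, ∑ i, ∑ j, ∑ q, tau φ z p q * (pd p (fun y => W y i j) z * D3 φ z q j i) := Finset.sum_comm
      _ = ∑ p, ∑ i, ∑ q, ∑ j, tau φ z p q * (pd p (fun y => W y i j) z * D3 φ z q j i) :=
          Finset.sum_congr rfl fun p _ => Finset.sum_congr rfl fun i _ => Finset.sum_comm
      _ = ∑ p, ∑ q, ∑ i, ∑ j, tau φ z p q * (pd p (fun y => W y i j) z * D3 φ z q j i) :=
          Finset.sum_congr rfl fun p _ => Finset.sum_comm
      _ = _ := rfl

end Vale.Agent.P254Z.Br
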