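import Mathlib.RingTheory.MvPolynomial.EulerIdentity
import Mathlib.MeasureTheory.Measure.CharacteristicFunction.Basic
import Mathlib.MeasureTheory.Function.L2Space
import Mathlib.Analysis.InnerProductSpace.Projection.Submodule
import Mathlib.Analysis.SpecialFunctions.Exponential
import Mathlib.MeasureTheory.Integral.DominatedConvergence
import Mathlib.Tactic

/-! P254: polynomials are dense in `L²` of a measure with exponential moments; the number operator
on polynomials. -/

set_option linter.all false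

open MeasureTheory Filter Set MvPolynomial
open scoped Topology

namespace Vale.Agent.P254Z.Br

variable {n : ℕ}

/-! ### the number operator -/

theorem pderiv_comm (i j : Fin n) (p : MvPolynomial (Fin n) ℝ) :
    pderiv i (pderiv j p) = pderiv j (pderiv i p) := by
  induction p using MvPolynomial.induction_on with
  | C a => simp
  | add p q hp hq => simp only [map_add, hp, hq]
  | mul_X p k hp =>
    have h0 : ∀ a b : Fin n, pderiv a (pderiv b (X k : MvPolynomial (Fin n) ℝ)) = 0 := fun a b => by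
      by_cases h : k = b
      · rw [h, pderiv_X_self, pderiv_one]
      · rw [pderiv_X_of_ne h, map_zero]
    simp only [pderiv_mul, map_add, hp, h0]
    ring

/-- the number operator `x · ∇ - Δ` -/
noncomputable def Np (p : MvPolynomial (Fin n) ℝ) : MvPolynomial (Fin n) ℝ :=
  ∑ i, (X i * pderiv i p - pderiv i (pderiv i p))

theorem Np_add (p q : MvPolynomial (Fin n) ℝ) : Np (p + q) = Np p + Np q := by
  simp only [Np, map_add, ← Finset.sum_add_distrib]
  exact Finset.sum_congr rfl fun i _ => by ring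

theorem Np_C_mul (c : ℝ) (p : MvPolynomial (Fin n) ℝ) : Np (C c * p) = C c * Np p := by
  simp only [Np, pderiv_C_mul, Finset.mul_sum]
  exact Finset.sum_congr rfl fun i _ => by ring

theorem pderiv_Np (j : Fin n) (p : MvPolynomial (Fin n) ℝ) :
    pderiv j (Np p) = Np (pderiv j p) + pderiv j p := by
  have h : ∑ i, pderiv j (X i : MvPolynomial (Fin n) ℝ) * pderiv i p = pderiv j p := by
    rw [Finset.sum_eq_single j (fun i _ hi => by rw [pderiv_X_of_ne hi, zero_mul]) (by simp),
      pderiv_X_self, one_mul]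
  conv_rhs => rw [← h]
  rw [h, Np, Np, map_sum]
  conv_rhs => enter [2]; rw [← h]
  rw [← Finset.sum_add_distrib]
  refine Finset.sum_congr rfl fun i _ => ?_
  rw [map_sub, pderiv_mul, pderiv_comm j i, pderiv_comm j i (pderiv i p), pderiv_comm j i p]
  ring

theorem Np_surj_hom (k : ℕ) : ∀ q : MvPolynomial (Fin n) ℝ, q.IsHomogeneous k →
    ∃ (p : MvPolynomial (Fin n) ℝ) (c : ℝ), Np p = q - C c := by
  induction k using Nat.strong_induction_on with
  | _ k ih =>
    intro q hq
    rcases Nat.eq_zero_or_pos k with rfl | hk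
    · rw [← totalDegree_zero_iff_isHomogeneous, totalDegree_eq_zero_iff_eq_C] at hq
      exact ⟨0, coeff 0 q, by rw [← hq, sub_self]; simp [Np]⟩
    · obtain ⟨p, c, hp⟩ := ih (k - 1 - 1) (by omega) (∑ i, pderiv i (pderiv i q))
        (IsHomogeneous.sum _ _ _ fun i _ => hq.pderiv.pderiv)
      have hk' : (k : ℝ) ≠ 0 := by positivity
      refine ⟨C (k : ℝ)⁻¹ * (q + p), (k : ℝ)⁻¹ * c, ?_⟩
      rw [Np_C_mul, Np_add, hp, Np, Finset.sum_sub_distrib, hq.sum_X_mul_pderiv, nsmul_eq_mul,
        map_mul]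
      have h1 : (C (k : ℝ)⁻¹ : MvPolynomial (Fin n) ℝ) * (k : MvPolynomial (Fin n) ℝ) = 1 := by
        rw [← map_natCast (C : ℝ →+* MvPolynomial (Fin n) ℝ), ← map_mul, inv_mul_cancel₀ hk', map_one]
      linear_combination q * h1

theorem Np_surj (q : MvPolynomial (Fin n) ℝ) :
    ∃ (p : MvPolynomial (Fin n) ℝ) (c : ℝ), Np p = q - C c := by
  induction q using MvPolynomial.induction_on' with
  | monomial u a => exact Np_surj_hom _ _ (isHomogeneous_monomial a rfl)
  | add p q hp hq =>
    obtain ⟨p', c, h⟩ := hp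
    obtain ⟨q', d, h'⟩ := hq
    exact ⟨p' + q', c + d, by rw [Np_add, h, h', map_add]; ring⟩

/-! ### density -/

/-- the function of a polynomial -/
noncomputable def pf (p : MvPolynomial (Fin n) ℝ) (x : EuclideanSpace ℝ (Fin n)) : ℝ :=
  eval (fun i => x i) p

theorem pf_C (c : ℝ) : pf (C c : MvPolynomial (Fin n) ℝ) = fun _ => c := funext fun _ => eval_C _

theorem pf_X (i : Fin n) : pf (X i : MvPolynomial (Fin n) ℝ) = fun x => x i :=
  funext fun _ => eval_X _

theorem pf_add (p q : MvPolynomial (Fin n) ℝ) : pf (p + q) = fun x => pf p x + pf q x :=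
  funext fun _ => map_add _ _ _

theorem pf_sub (p q : MvPolynomial (Fin n) ℝ) : pf (p - q) = fun x => pf p x - pf q x :=
  funext fun _ => map_sub _ _ _

theorem pf_mul (p q : MvPolynomial (Fin n) ℝ) : pf (p * q) = fun x => pf p x * pf q x :=
  funext fun _ => map_mul _ _ _

theorem pf_sum {ι : Type*} (s : Finset ι) (p : ι → MvPolynomial (Fin n) ℝ) :
    pf (∑ i ∈ s, p i) = fun x => ∑ i ∈ s, pf (p i) x := funext fun _ => map_sum _ _ _

theorem pf_pow (p : MvPolynomial (Fin n) ℝ) (k : ℕ) : pf (p ^ k) = fun x => pf p x ^ k :=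
  funext fun _ => map_pow _ _ _

variable {μ : Measure (EuclideanSpace ℝ (Fin n))}

theorem fourier_zero {g : EuclideanSpace ℝ (Fin n) → ℝ} (hg : MemLp g 2 μ)
    (he : ∀ c : ℝ, Integrable (fun x => Real.exp (c * ‖x‖)) μ)
    (h0 : ∀ p, ∫ x, g x * pf p x ∂μ = 0) (t : EuclideanSpace ℝ (Fin n)) :
    ∫ x, (g x : ℂ) * Complex.exp ((inner ℝ x t : ℝ) * Complex.I) ∂μ = 0 := by
  have hc : Continuous fun x : EuclideanSpace ℝ (Fin n) => (inner ℝ x t : ℝ) := by fun_prop
  have hs : ∀ x : EuclideanSpace ℝ (Fin n), HasSum (fun k : ℕ => |g x| * ((‖t‖ * ‖x‖) ^ k / k.factorial))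
      (|g x| * Real.exp (‖t‖ * ‖x‖)) := fun x => by
    rw [congrFun Real.exp_eq_exp_ℝ (‖t‖ * ‖x‖)]
    exact (NormedSpace.expSeries_div_hasSum_exp (‖t‖ * ‖x‖ : ℝ)).mul_left (|g x|)
  have hm := hg.aestronglyMeasurable
  have h1 := hasSum_integral_of_dominated_convergence (μ := μ)
    (F := fun (k : ℕ) x => (g x : ℂ) * ((((inner ℝ x t : ℝ) : ℂ) * Complex.I) ^ k / k.factorial))
    (f := fun x => (g x : ℂ) * Complex.exp ((inner ℝ x t : ℝ) * Complex.I))
    (fun k x => |g x| * ((‖t‖ * ‖x‖) ^ k / k.factorial))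
    (fun k => (Complex.continuous_ofReal.comp_aestronglyMeasurable hm).mul
      (Continuous.aestronglyMeasurable (by fun_prop)))
    (fun k => Eventually.of_forall fun x => by
      rw [norm_mul, norm_div, norm_pow, norm_mul, Complex.norm_I, mul_one, Complex.norm_real,
        Complex.norm_real, Complex.norm_natCast, Real.norm_eq_abs]
      gcongr
      rw [mul_comm]
      exact norm_inner_le_norm x t)
    (Eventually.of_forall fun x => (hs x).summable) (by
      simp only [fun x => (hs x).tsum_eq]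
      refine (hg.integrable_sq.add (he (2 * ‖t‖))).mono' (hm.norm.mul
        (Continuous.aestronglyMeasurable (by fun_prop))) (Eventually.of_forall fun x => ?_)
      rw [Real.norm_of_nonneg (by positivity), Pi.add_apply, mul_assoc, two_mul, Real.exp_add,
        ← sq_abs (g x)]
      nlinarith [sq_nonneg (|g x| - Real.exp (‖t‖ * ‖x‖)), abs_nonneg (g x),
        Real.exp_pos (‖t‖ * ‖x‖)])
    (Eventually.of_forall fun x => by
      rw [congrFun Complex.exp_eq_exp_ℂ]
      exact (NormedSpace.expSeries_div_hasSum_exp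
        (((inner ℝ x t : ℝ) : ℂ) * Complex.I)).mul_left (g x : ℂ))
  have h2 : ∀ k : ℕ, ∫ x, (g x : ℂ) * ((((inner ℝ x t : ℝ) : ℂ) * Complex.I) ^ k / k.factorial) ∂μ
      = 0 := fun k => by
    have h3 := h0 ((∑ i, C (t i) * X i) ^ k)
    have e : ∀ x : EuclideanSpace ℝ (Fin n),
        (g x : ℂ) * ((((inner ℝ x t : ℝ) : ℂ) * Complex.I) ^ k / k.factorial) =
          ((g x * pf ((∑ i, C (t i) * X i) ^ k) x : ℝ) : ℂ) * (Complex.I ^ k / k.factorial) := by
      intro x
      have e1 : pf (∑ i, C (t i) * X i) x = inner ℝ x t := by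
        simp only [pf_sum, pf_mul, pf_C, pf_X, PiLp.inner_apply]
        simp
      rw [pf_pow]
      simp only [e1]
      push_cast
      ring
    simp only [e]
    rw [integral_mul_const, integral_complex_ofReal, h3]
    simp
  simp only [h2] at h1
  exact h1.unique hasSum_zero

theorem zero_of_fourier [IsFiniteMeasure μ] {g : EuclideanSpace ℝ (Fin n) → ℝ} (hg : Integrable g μ)
    (h0 : ∀ t, ∫ x, (g x : ℂ) * Complex.exp ((inner ℝ x t : ℝ) * Complex.I) ∂μ = 0) :
    g =ᵐ[μ] 0 := by
  have hm : ∀ {g : EuclideanSpace ℝ (Fin n) → ℝ}, Integrable g μ →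
      AEMeasurable (fun x => ENNReal.ofReal (g x)) μ := fun h => h.aemeasurable.ennreal_ofReal
  have hb : ∀ (t : EuclideanSpace ℝ (Fin n)) {g : EuclideanSpace ℝ (Fin n) → ℝ}, Integrable g μ →
      Integrable (fun x => ((max (g x) 0 : ℝ) : ℂ) * Complex.exp ((inner ℝ x t : ℝ) * Complex.I)) μ :=
    fun t g h => (h.pos_part.ofReal (𝕜 := ℂ)).mul_bdd (c := 1)
      (Continuous.aestronglyMeasurable (by fun_prop))
      (Eventually.of_forall fun x => (Complex.norm_exp_ofReal_mul_I _).le)
  have hc : ∀ (t : EuclideanSpace ℝ (Fin n)) {g : EuclideanSpace ℝ (Fin n) → ℝ}, Integrable g μ →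
      charFun (μ.withDensity fun x => ENNReal.ofReal (g x)) t =
        ∫ x, ((max (g x) 0 : ℝ) : ℂ) * Complex.exp ((inner ℝ x t : ℝ) * Complex.I) ∂μ := by
    intro t g h
    rw [charFun_apply, integral_withDensity_eq_integral_toReal_smul₀ (hm h)
      (Eventually.of_forall fun x => ENNReal.ofReal_lt_top)]
    simp only [ENNReal.toReal_ofReal', Complex.real_smul]
  have := isFiniteMeasure_withDensity_ofReal hg.2
  have := isFiniteMeasure_withDensity_ofReal hg.neg.2
  have h1 : (μ.withDensity fun x => ENNReal.ofReal (g x)) =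
      μ.withDensity fun x => ENNReal.ofReal ((-g) x) := by
    refine Measure.ext_of_charFun (funext fun t => ?_)
    rw [hc t hg, hc t hg.neg, ← sub_eq_zero, ← integral_sub (hb t hg) (hb t hg.neg), ← h0 t]
    refine integral_congr_ae (Eventually.of_forall fun x => ?_)
    simp only [Pi.neg_apply]
    rw [← sub_mul, ← Complex.ofReal_sub, max_zero_sub_max_neg_zero_eq_self]
  filter_upwards [(withDensity_eq_iff_of_sigmaFinite (hm hg) (hm hg.neg)).1 h1] with x hx
  have h2 := congrArg ENNReal.toReal hx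
  rw [ENNReal.toReal_ofReal', ENNReal.toReal_ofReal', Pi.neg_apply, ← sub_eq_zero,
    max_zero_sub_max_neg_zero_eq_self] at h2
  exact h2

/-- polynomials are dense in `L²` -/
theorem poly_dense [IsFiniteMeasure μ] (he : ∀ c : ℝ, Integrable (fun x => Real.exp (c * ‖x‖)) μ)
    (hp : ∀ p, MemLp (pf p) 2 μ) {f : EuclideanSpace ℝ (Fin n) → ℝ} (hf : MemLp f 2 μ) {δ : ℝ}
    (hδ : 0 < δ) : ∃ q, ∫ x, (f x - pf q x) ^ 2 ∂μ ≤ δ := by
  let K : Submodule ℝ (Lp ℝ 2 μ) :=
    { carrier := range fun p => (hp p).toLp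
      add_mem' := by
        rintro _ _ ⟨p, rfl⟩ ⟨q, rfl⟩
        exact ⟨p + q, (MemLp.toLp_congr (hp (p + q)) ((hp p).add (hp q))
          (Eventually.of_forall fun x => congrFun (pf_add p q) x)).trans
          (MemLp.toLp_add (hp p) (hp q))⟩
      zero_mem' := ⟨C 0, (MemLp.toLp_congr (hp (C 0)) MemLp.zero
          (Eventually.of_forall fun x => congrFun (pf_C 0) x)).trans (MemLp.toLp_zero MemLp.zero)⟩
      smul_mem' := by
        rintro c _ ⟨p, rfl⟩
        exact ⟨C c * p, (MemLp.toLp_congr (hp (C c * p)) ((hp p).const_smul c)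
          (Eventually.of_forall fun x => by rw [pf_mul, pf_C]; rfl)).trans
          (MemLp.toLp_const_smul c (hp p))⟩ }
  have hK : K.topologicalClosure = ⊤ := by
    rw [Submodule.topologicalClosure_eq_top_iff, Submodule.eq_bot_iff]
    intro g hg
    refine Lp.eq_zero_iff_ae_eq_zero.2 (zero_of_fourier ((Lp.memLp g).integrable one_le_two)
      (fourier_zero (Lp.memLp g) he fun p => ?_))
    rw [← hg _ ⟨p, rfl⟩, L2.inner_def]
    refine integral_congr_ae ?_
    filter_upwards [(hp p).coeFn_toLp] with x hx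
    rw [hx]
    simp
  have h1 : hf.toLp ∈ closure (K : Set (Lp ℝ 2 μ)) := by
    rw [← Submodule.topologicalClosure_coe, hK]
    trivial
  obtain ⟨_, ⟨q, rfl⟩, hq⟩ := Metric.mem_closure_iff.1 h1 _ (Real.sqrt_pos.2 hδ)
  refine ⟨q, ?_⟩
  rw [dist_eq_norm, Real.lt_sqrt (norm_nonneg _), ← real_inner_self_eq_norm_sq, L2.inner_def] at hq
  refine le_trans (le_of_eq (integral_congr_ae ?_)) hq.le
  filter_upwards [Lp.coeFn_sub hf.toLp (hp q).toLp, hf.coeFn_toLp, (hp q).coeFn_toLp] with x h1 h2 h3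
  rw [h1, Pi.sub_apply, h2, h3]
  simp [sq]

end Vale.Agent.P254Z.Br
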