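import Vale.Agent.P254Z.Br.GC
import Vale.Agent.P254Z.Br.Dens

/-! P254: the variance of the standard Gaussian in dual form, the Poincare inequalities of the first
and of the second order, the Bessel inequality. -/

set_option linter.all false

open MeasureTheory Filter Set MvPolynomial
open scoped Topology

namespace Vale.Agent.P254Z.Br

open Vale.Agent.P227.M Vale.Agent.P254 Vale.Agent.P254.S Vale.Agent.P254.S130

variable {n : ℕ} {f g : E n → ℝ}

theorem diff_pf (p : MvPolynomial (Fin n) ℝ) : Differentiable ℝ (pf p) := by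
  induction p using MvPolynomial.induction_on with
  | C a => rw [pf_C]; exact differentiable_const a
  | add p q hp hq => rw [pf_add]; exact hp.add hq
  | mul_X p k hp => rw [pf_mul, pf_X]; exact hp.mul (EuclideanSpace.proj k : E n →L[ℝ] ℝ).differentiable

theorem pd_pf (i : Fin n) (p : MvPolynomial (Fin n) ℝ) : pd i (pf p) = pf (pderiv i p) := by
  funext x
  induction p using MvPolynomial.induction_on with
  | C a => rw [pf_C, pderiv_C, rpd_const, ← C_0, pf_C]
  | add p q hp hq => rw [pf_add, rpd_add (diff_pf p x) (diff_pf q x), map_add, pf_add, hp, hq]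
  | mul_X p k hp =>
    rw [pf_mul, rpd_mul (diff_pf p x) (diff_pf _ x), hp, pderiv_mul, pf_add, pf_mul, pf_mul, pf_X,
      rpd_coord]
    by_cases h : k = i
    · rw [if_pos h, h, pderiv_X_self, ← C_1, pf_C]
    · rw [if_neg h, pderiv_X_of_ne h, ← C_0, pf_C]

theorem pl_pf (p : MvPolynomial (Fin n) ℝ) : PL (pf p) := by
  induction p using MvPolynomial.induction_on with
  | C a => rw [pf_C]; exact PL.const a
  | add p q hp hq => rw [pf_add]; exact hp.add hq
  | mul_X p k hp => rw [pf_mul, pf_X]; exact hp.mul (PL.coord k)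

theorem PG.memLp (hf : PG f) : MemLp f 2 (gQ n) :=
  (memLp_two_iff_integrable_sq hf.int.aestronglyMeasurable).2 (hf.pow 2).int

theorem int_exp_norm (c : ℝ) : Integrable (fun x : E n => Real.exp (c * ‖x‖)) (gQ n) := by
  rw [int_gQ_iff]
  have h1 := ((MM.Start102.nice_quad (n := n) (a := 1 / 2) (by norm_num) le_rfl).toReg.integrable_exp
    ).const_mul (Real.exp (c ^ 2))
  refine h1.mono' (Continuous.aestronglyMeasurable
    ((continuous_const.mul continuous_norm).rexp.mul cont_Q.neg.rexp)) (ae_of_all _ fun x => ?_)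
  rw [← Real.exp_add, ← Real.exp_add, Real.norm_of_nonneg (Real.exp_pos _).le]
  refine Real.exp_le_exp.2 ?_
  unfold Q
  nlinarith [sq_nonneg (c - ‖x‖ / 2)]

theorem ibp_N (hf : PL f) (p : MvPolynomial (Fin n) ℝ) :
    ∑ i, ∫ z, pd i f z * pf (pderiv i p) z ∂(gQ n) = ∫ z, f z * pf (Np p) z ∂(gQ n) := by
  simp only [ibp2 hf (pl_pf _), pd_pf]
  rw [← integral_finsetSum _ fun i _ =>
    (hf.g.mul (((PG.coord i).mul (pl_pf _).g).sub (pl_pf _).g)).int]
  simp only [Np, pf_sum, pf_sub, pf_mul, pf_X, Finset.mul_sum]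

theorem bochner (p : MvPolynomial (Fin n) ℝ) :
    ∫ z, pf (Np p) z ^ 2 ∂(gQ n) = ∑ i, ∫ z, pf (pderiv i p) z ^ 2 ∂(gQ n) +
      ∑ i, ∑ j, ∫ z, pf (pderiv j (pderiv i p)) z ^ 2 ∂(gQ n) := by
  simp only [sq]
  rw [← ibp_N (pl_pf _), ← Finset.sum_add_distrib]
  refine Finset.sum_congr rfl fun i _ => ?_
  have h := ibp_N (pl_pf (pderiv i p)) (pderiv i p)
  simp only [pd_pf] at h
  rw [h, ← integral_add ((pl_pf _).g.mul (pl_pf _).g).int ((pl_pf _).g.mul (pl_pf _).g).int, pd_pf,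
    pderiv_Np, pf_add]
  congr 1
  funext z
  ring

/-- **the variance in dual form**: `Var f ≤ 2 ⟨∇f, η⟩ - |η|² - |dη|² + δ` for the gradient `η` of a
polynomial -/
theorem dual_poly (hf : PL f) {δ : ℝ} (hδ : 0 < δ) : ∃ p : MvPolynomial (Fin n) ℝ,
    ∫ z, f z ^ 2 ∂(gQ n) - (∫ z, f z ∂(gQ n)) ^ 2 ≤
      2 * ∑ i, ∫ z, pd i f z * pf (pderiv i p) z ∂(gQ n) - ∑ i, ∫ z, pf (pderiv i p) z ^ 2 ∂(gQ n)
        - ∑ i, ∑ j, ∫ z, pf (pderiv j (pderiv i p)) z ^ 2 ∂(gQ n) + δ := by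
  obtain ⟨q, hq⟩ := poly_dense int_exp_norm (fun p => (pl_pf p).g.memLp) hf.g.memLp hδ
  obtain ⟨p, c, hp⟩ := Np_surj q
  refine ⟨p, ?_⟩
  have h0 := ibp_N (PL.const (n := n) 1) p
  simp only [rpd_const, zero_mul, integral_zero, Finset.sum_const_zero, one_mul] at h0
  have hN := (pl_pf (Np p)).g
  have e : ∀ z, (f z - pf q z) ^ 2 = (f z ^ 2 - 2 * (f z * pf (Np p) z) + pf (Np p) z ^ 2) +
      (c ^ 2 - 2 * c * f z + 2 * c * pf (Np p) z) := fun z => by
    rw [hp, pf_sub, pf_C]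
    ring
  have i1 := (hf.g.pow 2).sub ((hf.g.mul hN).const_mul 2)
  have i2 := (PG.const (c ^ 2)).sub (hf.g.const_mul (2 * c))
  simp only [e] at hq
  rw [integral_add (i1.add (hN.pow 2)).int (i2.add (hN.const_mul _)).int,
    integral_add i1.int (hN.pow 2).int, integral_add i2.int (hN.const_mul _).int,
    integral_sub (hf.g.pow 2).int ((hf.g.mul hN).const_mul 2).int,
    integral_sub (integrable_const _) (hf.g.const_mul _).int, integral_const_mul, integral_const_mul,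
    integral_const_mul, ← h0, bochner, ← ibp_N hf] at hq
  simp only [integral_const, probReal_univ, smul_eq_mul, one_mul] at hq
  nlinarith [sq_nonneg (c - ∫ z, f z ∂(gQ n))]

/-- the same, for an abstract field: `η i` and its derivatives are `PL`, `dη` is symmetric -/
theorem dual (hf : PL f) {δ : ℝ} (hδ : 0 < δ) : ∃ η : Fin n → E n → ℝ, (∀ i, PL (η i)) ∧
    (∀ i j, PL (pd j (η i))) ∧ (∀ i, Differentiable ℝ (η i)) ∧ (∀ i j, pd j (η i) = pd i (η j)) ∧
    ∫ z, f z ^ 2 ∂(gQ n) - (∫ z, f z ∂(gQ n)) ^ 2 ≤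
      ∫ z, (2 * ∑ i, pd i f z * η i z - ∑ i, η i z ^ 2 - ∑ j, ∑ i, pd j (η i) z ^ 2) ∂(gQ n) + δ := by
  obtain ⟨p, hp⟩ := dual_poly hf hδ
  refine ⟨fun i => pf (pderiv i p), fun i => pl_pf _, fun i j => by rw [pd_pf]; exact pl_pf _,
    fun i => diff_pf _, fun i j => by rw [pd_pf, pd_pf, pderiv_comm], hp.trans (le_of_eq ?_)⟩
  simp only [pd_pf]
  have i1 := fun i => ((hf.d i).mul (pl_pf (pderiv i p)).g)
  have i2 := fun i => (pl_pf (pderiv i p)).g.pow 2
  have i3 := fun i j => (pl_pf (pderiv j (pderiv i p))).g.pow 2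
  have j1 := (PG.sum Finset.univ fun i _ => i1 i).const_mul 2
  have j2 := PG.sum Finset.univ fun i _ => i2 i
  rw [integral_sub (j1.sub j2).int (PG.sum _ fun j _ => PG.sum _ fun i _ => i3 i j).int,
    integral_sub j1.int j2.int, integral_const_mul, integral_finsetSum _ fun i _ => (i1 i).int,
    integral_finsetSum _ fun i _ => (i2 i).int,
    integral_finsetSum _ fun j _ => (PG.sum _ fun i _ => i3 i j).int, Finset.sum_comm]
  simp only [integral_finsetSum _ fun i _ => (i3 i _).int]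

theorem two_mul_le (hf : PG f) (hg : PG g) :
    2 * ∫ z, f z * g z ∂(gQ n) ≤ ∫ z, f z ^ 2 ∂(gQ n) + ∫ z, g z ^ 2 ∂(gQ n) := by
  rw [← integral_const_mul, ← integral_add (hf.pow 2).int (hg.pow 2).int]
  exact integral_mono ((hf.mul hg).const_mul 2).int ((hf.pow 2).add (hg.pow 2)).int fun z => by
    have := sq_nonneg (f z - g z)
    simp only
    linarith

/-- **Poincare inequality** -/
theorem poincare (hf : PL f) :
    ∫ z, f z ^ 2 ∂(gQ n) - (∫ z, f z ∂(gQ n)) ^ 2 ≤ ∑ i, ∫ z, pd i f z ^ 2 ∂(gQ n) := by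
  refine le_of_forall_pos_le_add fun δ hδ => ?_
  obtain ⟨p, hp⟩ := dual_poly hf hδ
  have h1 := Finset.sum_le_sum fun i (_ : i ∈ Finset.univ) =>
    two_mul_le (hf.d i) (pl_pf (pderiv i p)).g
  have h2 : 0 ≤ ∑ i, ∑ j, ∫ z, pf (pderiv j (pderiv i p)) z ^ 2 ∂(gQ n) :=
    Finset.sum_nonneg fun i _ => Finset.sum_nonneg fun j _ => integral_nonneg fun z => sq_nonneg _
  rw [← Finset.mul_sum, Finset.sum_add_distrib] at h1
  linarith

/-- **Poincare inequality of the second order** -/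
theorem poincare2 (hf : PL f) :
    2 * ∫ z, f z ^ 2 ∂(gQ n) - 2 * (∫ z, f z ∂(gQ n)) ^ 2 - ∑ i, (∫ z, z i * f z ∂(gQ n)) ^ 2 ≤
      ∑ i, ∫ z, pd i f z ^ 2 ∂(gQ n) := by
  refine le_of_forall_pos_le_add fun δ hδ => ?_
  obtain ⟨p, hp⟩ := dual_poly hf (half_pos hδ)
  have h1 : ∀ i, 4 * ∫ z, pd i f z * pf (pderiv i p) z ∂(gQ n) -
      2 * ∫ z, pf (pderiv i p) z ^ 2 ∂(gQ n) -
      2 * ∑ j, ∫ z, pf (pderiv j (pderiv i p)) z ^ 2 ∂(gQ n) ≤
      ∫ z, pd i f z ^ 2 ∂(gQ n) + (∫ z, z i * f z ∂(gQ n)) ^ 2 := fun i => by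
    have h2 := poincare (pl_pf (pderiv i p))
    simp only [pd_pf] at h2
    rw [← ibp hf]
    have hu := hf.d i
    have hv := (pl_pf (pderiv i p)).g
    generalize pd i f = u at hu
    generalize pf (pderiv i p) = v at hv h2
    set a := ∫ z, u z ∂(gQ n)
    set b := ∫ z, v z ∂(gQ n)
    have h3 : 0 ≤ ∫ z, (u z - 2 * v z - (a - 2 * b)) ^ 2 ∂(gQ n) := integral_nonneg fun z => sq_nonneg _
    have e : ∀ z, (u z - 2 * v z - (a - 2 * b)) ^ 2 = (u z ^ 2 - 4 * (u z * v z) + 4 * v z ^ 2) +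
        ((a - 2 * b) ^ 2 - 2 * (a - 2 * b) * u z + 4 * (a - 2 * b) * v z) := fun z => by ring
    have i1 := (hu.pow 2).sub ((hu.mul hv).const_mul 4)
    have i2 := (PG.const ((a - 2 * b) ^ 2)).sub (hu.const_mul (2 * (a - 2 * b)))
    simp only [e] at h3
    rw [integral_add (i1.add ((hv.pow 2).const_mul 4)).int (i2.add (hv.const_mul _)).int,
      integral_add i1.int ((hv.pow 2).const_mul 4).int, integral_add i2.int (hv.const_mul _).int,
      integral_sub (hu.pow 2).int ((hu.mul hv).const_mul 4).int,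
      integral_sub (integrable_const _) (hu.const_mul _).int, integral_const_mul, integral_const_mul,
      integral_const_mul, integral_const_mul] at h3
    simp only [integral_const, probReal_univ, smul_eq_mul, one_mul] at h3
    nlinarith [sq_nonneg (a - b)]
  have h2 := Finset.sum_le_sum fun i (_ : i ∈ Finset.univ) => h1 i
  rw [Finset.sum_sub_distrib, Finset.sum_sub_distrib, ← Finset.mul_sum, ← Finset.mul_sum,
    ← Finset.mul_sum, Finset.sum_add_distrib] at h2
  linarith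

/-- **Bessel inequality** for the chaos of order at most one -/
theorem bessel (hf : PG f) :
    (∫ z, f z ∂(gQ n)) ^ 2 + ∑ i, (∫ z, z i * f z ∂(gQ n)) ^ 2 ≤ ∫ z, f z ^ 2 ∂(gQ n) := by
  set a := ∫ z, f z ∂(gQ n) with ha
  set b := fun i => ∫ z, z i * f z ∂(gQ n) with hb
  have hl : PG fun z : E n => ∑ i, b i * z i := PG.sum _ fun i _ => (PG.coord i).const_mul _
  have h1 := two_mul_le hf ((PG.const a).add hl)
  have h2 : ∫ z, f z * (a + ∑ i, b i * z i) ∂(gQ n) = a ^ 2 + ∑ i, b i ^ 2 := by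
    have e : ∀ z : E n, f z * (a + ∑ i, b i * z i) = a * f z + ∑ i, b i * (z i * f z) := fun z => by
      rw [mul_add, Finset.mul_sum, mul_comm]
      congr 1
      exact Finset.sum_congr rfl fun i _ => by ring
    have i1 := fun i => ((PG.coord i).mul hf).const_mul (b i)
    simp only [e]
    rw [integral_add (hf.const_mul a).int (PG.sum _ fun i _ => i1 i).int, integral_const_mul,
      integral_finsetSum _ fun i _ => (i1 i).int]
    simp only [integral_const_mul, sq]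
    rfl
  have h3 : ∫ z : E n, (a + ∑ i, b i * z i) ^ 2 ∂(gQ n) = a ^ 2 + ∑ i, b i ^ 2 := by
    have e : ∀ z : E n, (a + ∑ i, b i * z i) ^ 2 =
        a ^ 2 + ∑ i, 2 * a * b i * z i + ∑ i, ∑ j, b i * b j * (z i * z j) := fun z => by
      rw [add_sq, sq (∑ i, b i * z i), Finset.sum_mul_sum, Finset.mul_sum]
      congr 2
      · exact Finset.sum_congr rfl fun i _ => by ring
      · exact _root_.funext fun i => Finset.sum_congr rfl fun j _ => by ring
    have i1 := fun i => (PG.coord (n := n) i).const_mul (2 * a * b i)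
    have i2 := fun i j => ((PG.coord (n := n) i).mul (PG.coord j)).const_mul (b i * b j)
    simp only [e]
    rw [integral_add ((PG.const _).add (PG.sum _ fun i _ => i1 i)).int
      (PG.sum _ fun i _ => PG.sum _ fun j _ => i2 i j).int,
      integral_add (integrable_const _) (PG.sum _ fun i _ => i1 i).int,
      integral_finsetSum _ fun i _ => (i1 i).int,
      integral_finsetSum _ fun i _ => (PG.sum _ fun j _ => i2 i j).int]
    simp only [integral_finsetSum _ fun j _ => (i2 _ j).int, integral_const_mul, mean_coord,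
      cov_coord]
    simp [sq]
  rw [h2, h3] at h1
  linarith

/-- the form used with a multiplier: `f` has no component in the chaos of order at most one -/
theorem poincare2_shift (hf : PL f) (hg : PL g) (h0 : ∫ z, f z ∂(gQ n) = 0)
    (h1 : ∀ i, ∫ z, z i * f z ∂(gQ n) = 0) (t : ℝ) :
    2 * ∫ z, f z ^ 2 ∂(gQ n) + 4 * t * ∫ z, f z * g z ∂(gQ n) ≤
      ∑ i, ∫ z, (pd i f z + t * pd i g z) ^ 2 ∂(gQ n) := by
  have h2 := poincare2 (hf.add (hg.const_mul t))
  have h3 := bessel (hg.g.const_mul t)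
  have e1 : ∀ i, ∫ z, pd i (fun x => f x + t * g x) z ^ 2 ∂(gQ n) =
      ∫ z, (pd i f z + t * pd i g z) ^ 2 ∂(gQ n) := fun i => gQ_congr (by
    filter_upwards [hf.diff, hg.diff] with x hx hy
    rw [rpd_add hx (hy.const_mul t), rpd_mul (differentiableAt_const t) hy, rpd_const, zero_mul,
      zero_add])
  have e2 : ∀ i, ∫ z, z i * (f z + t * g z) ∂(gQ n) = ∫ z, z i * (t * g z) ∂(gQ n) := fun i => by
    simp only [mul_add]
    rw [integral_add ((PG.coord i).mul hf.g).int ((PG.coord i).mul (hg.g.const_mul t)).int, h1,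
      zero_add]
  have e3 : ∀ z, (f z + t * g z) ^ 2 = f z ^ 2 + 2 * t * (f z * g z) + (t * g z) ^ 2 :=
    fun z => by ring
  simp only [e1, e2, e3] at h2
  rw [integral_add ((hf.g.pow 2).add ((hf.g.mul hg.g).const_mul _)).int ((hg.g.const_mul t).pow 2).int,
    integral_add (hf.g.pow 2).int ((hf.g.mul hg.g).const_mul _).int, integral_const_mul,
    integral_add hf.g.int (hg.g.const_mul t).int, h0, zero_add] at h2
  have h4 : 0 ≤ ∑ i, (∫ z, z i * (t * g z) ∂(gQ n)) ^ 2 := Finset.sum_nonneg fun i _ => sq_nonneg _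
  linarith

theorem int_sum_sq {ι : Type*} (s : Finset ι) {u : ι → E n → ℝ} (hu : ∀ i, PG (u i)) :
    ∫ z, ∑ i ∈ s, u i z ^ 2 ∂(gQ n) = ∑ i ∈ s, ∫ z, u i z ^ 2 ∂(gQ n) :=
  integral_finsetSum _ fun i _ => ((hu i).pow 2).int

theorem poincare' (hf : PL f) :
    ∫ z, f z ^ 2 ∂(gQ n) - (∫ z, f z ∂(gQ n)) ^ 2 ≤ ∫ z, ∑ i, pd i f z ^ 2 ∂(gQ n) := by
  rw [int_sum_sq _ hf.d]
  exact poincare hf

theorem poincare2' (hf : PL f) :
    2 * ∫ z, f z ^ 2 ∂(gQ n) - 2 * (∫ z, f z ∂(gQ n)) ^ 2 - ∑ i, (∫ z, z i * f z ∂(gQ n)) ^ 2 ≤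
      ∫ z, ∑ i, pd i f z ^ 2 ∂(gQ n) := by
  rw [int_sum_sq _ hf.d]
  exact poincare2 hf

end Vale.Agent.P254Z.Br
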