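import Vale.Agent.P254Z.Br.GaC
import Vale.Agent.P254Z.Br.Poin

/-! P254: the covariance matrix in a direction `u` (dual form, Poincare bound), the
bound for `log det`, and the second order Poincare inequality with a free parameter. -/

set_option linter.all false

open MeasureTheory Filter Set Matrix
open scoped Topology

namespace Vale.Agent.P254Z.Br

open Vale.Agent.P227.M Vale.Agent.P254 Vale.Agent.P254.S Vale.Agent.P254.S130 Vale.Agent.P254.SP620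

variable {n : ℕ} {φ V f g : E n → ℝ} {a b M κ : ℝ}

/-- `f` has no component in the chaos of order at most one -/
theorem poincare2_om (hf : PL f) (hg : PL g) (h0 : ∫ z, f z ∂(gQ n) = 0)
    (h1 : ∀ i, ∫ z, z i * f z ∂(gQ n) = 0) (w : ℝ) :
    2 * (1 - w ^ 2) * ∫ z, f z ^ 2 ∂(gQ n) + 4 * (1 + w) * ∫ z, f z * g z ∂(gQ n) ≤
      ∑ i, ∫ z, (pd i f z + pd i g z) ^ 2 ∂(gQ n) := by
  have h2 := poincare2 (hf.add hg)
  have h3 := bessel (hg.g.sub (hf.g.const_mul w))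
  have e1 : ∀ i, ∫ z, pd i (fun x => f x + g x) z ^ 2 ∂(gQ n) =
      ∫ z, (pd i f z + pd i g z) ^ 2 ∂(gQ n) := fun i => gQ_congr (by
    filter_upwards [hf.diff, hg.diff] with x hx hy
    rw [rpd_add hx hy])
  have e2 : ∀ i, ∫ z, z i * (f z + g z) ∂(gQ n) = ∫ z, z i * g z ∂(gQ n) := fun i => by
    simp only [mul_add]
    rw [integral_add ((PG.coord i).mul hf.g).int ((PG.coord i).mul hg.g).int, h1, zero_add]
  have e3 : ∀ i, ∫ z, z i * (g z - w * f z) ∂(gQ n) = ∫ z, z i * g z ∂(gQ n) := fun i => by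
    simp only [mul_sub, mul_left_comm _ w]
    rw [integral_sub ((PG.coord i).mul hg.g).int (((PG.coord i).mul hf.g).const_mul w).int,
      integral_const_mul, h1, mul_zero, sub_zero]
  have e4 : ∀ z, (f z + g z) ^ 2 = f z ^ 2 + 2 * (f z * g z) + g z ^ 2 := fun z => by ring
  have e5 : ∀ z, (g z - w * f z) ^ 2 = w ^ 2 * f z ^ 2 - 2 * w * (f z * g z) + g z ^ 2 :=
    fun z => by ring
  simp only [e1, e2, e4] at h2
  simp only [e3, e5] at h3
  rw [integral_add ((hf.g.pow 2).add ((hf.g.mul hg.g).const_mul _)).int (hg.g.pow 2).int,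
    integral_add (hf.g.pow 2).int ((hf.g.mul hg.g).const_mul _).int, integral_const_mul,
    integral_add hf.g.int hg.g.int, h0, zero_add] at h2
  rw [integral_add (((hf.g.pow 2).const_mul _).sub ((hf.g.mul hg.g).const_mul _)).int
    (hg.g.pow 2).int, integral_sub ((hf.g.pow 2).const_mul _).int ((hf.g.mul hg.g).const_mul _).int,
    integral_const_mul, integral_const_mul, integral_sub hg.g.int (hf.g.const_mul _).int,
    integral_const_mul, h0, mul_zero, sub_zero] at h3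
  have h4 : 0 ≤ ∑ i, (∫ z, z i * g z ∂(gQ n)) ^ 2 := Finset.sum_nonneg fun i _ => sq_nonneg _
  linarith

theorem pd_Tu' (h : BP φ V a b M κ) (u : Fin n → ℝ) (k : Fin n) (z : E n) :
    pd k (Tu φ (WithLp.toLp 2 u)) z = (hess φ z *ᵥ u) k := pd_Tu h _ z k

theorem cov_eq (h : BP φ V a b M κ) (u : Fin n → ℝ) :
    u ⬝ᵥ covV V *ᵥ u = ∫ z, Tu φ (WithLp.toLp 2 u) z ^ 2 ∂(gQ n) -
      (∫ z, Tu φ (WithLp.toLp 2 u) z ∂(gQ n)) ^ 2 := by
  rw [← qf_cov h, Loc.qf_eq]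

/-- `C_uu ≤ E |M u|²` -/
theorem cov_poin (h : BP φ V a b M κ) (u : Fin n → ℝ) :
    u ⬝ᵥ covV V *ᵥ u ≤ ∫ z, (hess φ z *ᵥ u) ⬝ᵥ (hess φ z *ᵥ u) ∂(gQ n) := by
  have h1 := poincare' (pl_Tu h (WithLp.toLp 2 u))
  simp only [pd_Tu' h] at h1
  rw [cov_eq h]
  simp only [dotProduct, ← sq]
  exact h1

/-- `C_uu ≤ E (2 ⟨M u, η⟩ - |η|² - |dη|²) + δ` -/
theorem cov_dual (h : BP φ V a b M κ) (u : Fin n → ℝ) {δ : ℝ} (hδ : 0 < δ) :
    ∃ η : E n → Fin n → ℝ, (∀ i, PL fun z => η z i) ∧ (∀ i j, PL (pd j fun z => η z i)) ∧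
    (∀ i, Differentiable ℝ fun z => η z i) ∧
    (∀ i j, pd j (fun z => η z i) = pd i fun z => η z j) ∧
    u ⬝ᵥ covV V *ᵥ u ≤ ∫ z, (2 * ((hess φ z *ᵥ u) ⬝ᵥ η z) - η z ⬝ᵥ η z -
      ∑ k, ∑ i, pd k (fun y => η y i) z ^ 2) ∂(gQ n) + δ := by
  obtain ⟨η, h1, h2, h3, h4, h5⟩ := dual (pl_Tu h (WithLp.toLp 2 u)) hδ
  refine ⟨fun z i => η i z, h1, h2, h3, h4, ?_⟩
  simp only [pd_Tu' h] at h5
  rw [cov_eq h]
  simp only [dotProduct, ← sq]
  exact h5

theorem cov_logdet (h : BP φ V a b M κ) {U : Matrix (Fin n) (Fin n) ℝ} (hU : Uᵀ * U = 1)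
    {y : Fin n → ℝ} (hy : ∀ i, 0 < y i) :
    ∑ i, (Real.log (y i) + 1 - y i * ((fun k => U k i) ⬝ᵥ covV V *ᵥ fun k => U k i)) ≤
      -Real.log (covV V).det := by
  obtain ⟨W, m, hd, hm⟩ := cov_dec h
  have h1 := neg_logdet_ge hd hm hU hy
  simp only [Loc.qf_eq] at h1
  exact h1

end Vale.Agent.P254Z.Br
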