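import Vale.Agent.P254.Bdl.B8

/-! P254, Brenier map: the level-`k` descent of the Sinkhorn iteration between two densities
`e^{-U}` (source, variable `y`) and `e^{-V}` (target, variable `x`). -/

set_option linter.all false

open MeasureTheory Set Filter Topology

namespace Vale.Agent.P254Z.Br.Ds

open Vale.Agent.P227.M.LK.Dsc Vale.Agent.P227.M.LK Vale.Agent.P254.MC.DscC

variable {E : Type*} [NormedAddCommGroup E] [InnerProductSpace ℝ E] [FiniteDimensional ℝ E]
  [MeasurableSpace E] [BorelSpace E]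

/-- `P x = log ∫ exp (k ⟪x,y⟫ - k phi y - U y) dy` -/
noncomputable def P (k : ℝ) (U c : E → ℝ) (x : E) : ℝ :=
  Real.log (∫ y : E, Real.exp (k * inner ℝ x y - k * phi k c y - U y))

noncomputable def TT (k : ℝ) (V U c : E → ℝ) (x : E) : ℝ := (V x + P k U c x) / k

noncomputable def WW (k : ℝ) (U c : E → ℝ) (x : E) : ℝ := k * c x - P k U c x

noncomputable def KK (k : ℝ) (V U c : E → ℝ) : ℝ := ∫ x : E, (WW k U c x - V x) * Real.exp (-V x)

noncomputable def JJ (k : ℝ) (V U c : E → ℝ) : ℝ :=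
  (∫ x : E, c x * Real.exp (-V x)) + ∫ y : E, phi k c y * Real.exp (-U y)

variable {V U : E → ℝ} {k a b s : ℝ} {c f : E → ℝ}

theorem sq_half (y g : E) : ‖y‖ ^ 2 / 2 - ‖g‖ ^ 2 ≤ ‖y - g‖ ^ 2 := by
  have h1 : ‖y‖ ≤ ‖y - g‖ + ‖g‖ := by
    have := norm_add_le (y - g) g
    rwa [sub_add_cancel] at this
  have h2 : ‖y‖ ^ 2 ≤ (‖y - g‖ + ‖g‖) ^ 2 := pow_le_pow_left₀ (norm_nonneg _) h1 2
  nlinarith [sq_nonneg (‖y - g‖ - ‖g‖)]

theorem phi_lo (hk : 0 < k) (ha : 0 < a) (hb : 0 < b) (h : Tl a b c) :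
    ∃ A : ℝ, ∀ y, A + (1 / b / 2) / 2 * ‖y‖ ^ 2 ≤ phi k c y := by
  obtain ⟨g, f', h1, rfl⟩ := h.eq
  refine ⟨(-f' 0 + gc E k b) - 1 / b / 2 * ‖g‖ ^ 2, fun y => ?_⟩
  rw [phi_tilt]
  have h2 := h1.phi_lo hk ha hb (y - g)
  have h3 := mul_le_mul_of_nonneg_left (sq_half y g) (by positivity : 0 ≤ 1 / b / 2)
  linarith

theorem int2 (hk : 0 < k) (ha : 0 < a) (hb : 0 < b) (h : Tl a b c) (hUm : Measurable U)
    (hU : ∀ y, s ≤ U y) (x : E) :
    Integrable fun y : E => Real.exp (k * inner ℝ x y - k * phi k c y - U y) := by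
  obtain ⟨A, hA⟩ := phi_lo hk ha hb h
  have hm : Measurable fun y => k * phi k c y + U y := ((measurable_phi h.meas).const_mul k).add hUm
  have := integrable_exp_of_quad (a := k * (1 / b / 2)) (k := 1) (A := k * A + s) (by positivity) one_pos hm
    (fun y => by
      have h1 := mul_le_mul_of_nonneg_left (hA y) hk.le
      have h2 := hU y
      nlinarith) k x
  refine this.congr (Eventually.of_forall fun y => ?_)
  simp only [real_inner_comm]
  congr 1
  ring

theorem exp_P (hk : 0 < k) (ha : 0 < a) (hb : 0 < b) (h : Tl a b c) (hUm : Measurable U)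
    (hU : ∀ y, s ≤ U y) (x : E) :
    Real.exp (P k U c x) = ∫ y : E, Real.exp (k * inner ℝ x y - k * phi k c y - U y) := by
  unfold P
  rw [Real.exp_log]
  exact integral_exp_pos (int2 hk ha hb h hUm hU x)

theorem meas_joint (hf : Measurable f) (hc : Measurable c) (hUm : Measurable U) :
    Measurable fun p : E × E => Real.exp (k * inner ℝ p.1 p.2 - k * f p.1 - k * phi k c p.2 - U p.2) := by
  have : Measurable fun p : E × E => (inner ℝ p.1 p.2 : ℝ) := (continuous_fst.inner continuous_snd).measurable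
  exact Real.measurable_exp.comp ((((this.const_mul k).sub ((hf.comp measurable_fst).const_mul k)).sub
    (((measurable_phi hc).comp measurable_snd).const_mul k)).sub (hUm.comp measurable_snd))

theorem marg_y (hk : 0 < k) (ha : 0 < a) (hf : Tl a b f) (y : E) :
    ∫ x : E, Real.exp (k * inner ℝ x y - k * f x - k * phi k c y - U y)
      = Real.exp (k * (phi k f y - phi k c y)) * Real.exp (-U y) := by
  have h1 : (fun x : E => Real.exp (k * inner ℝ x y - k * f x - k * phi k c y - U y))
      = fun x : E => Real.exp (k * inner ℝ x y - k * f x) * Real.exp (-(k * phi k c y) - U y) := by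
    ext x
    rw [← Real.exp_add]
    congr 1
    ring
  rw [h1, integral_mul_const, ← exp_phi hk (hf.int1 hk ha y), ← Real.exp_add, ← Real.exp_add]
  congr 1
  ring

theorem marg_x (hk : 0 < k) (ha : 0 < a) (hb : 0 < b) (h : Tl a b c) (hUm : Measurable U)
    (hU : ∀ y, s ≤ U y) (x : E) :
    ∫ y : E, Real.exp (k * inner ℝ x y - k * f x - k * phi k c y - U y)
      = Real.exp (-(k * f x - P k U c x)) := by
  have h1 : (fun y : E => Real.exp (k * inner ℝ x y - k * f x - k * phi k c y - U y))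
      = fun y : E => Real.exp (k * inner ℝ x y - k * phi k c y - U y) * Real.exp (-(k * f x)) := by
    ext y
    rw [← Real.exp_add]
    congr 1
    ring
  rw [h1, integral_mul_const, ← exp_P hk ha hb h hUm hU x, ← Real.exp_add]
  congr 1
  ring

theorem int_joint (hk : 0 < k) (ha : 0 < a) (h : Tl a b c) (hU : Pot U) :
    Integrable (fun p : E × E => Real.exp (k * inner ℝ p.1 p.2 - k * c p.1 - k * phi k c p.2 - U p.2))
      ((volume : Measure E).prod volume) := by
  rw [integrable_prod_iff' (meas_joint h.meas h.meas hU.meas).aestronglyMeasurable]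
  refine ⟨Eventually.of_forall fun y => ?_, ?_⟩
  · have := (h.int1 hk ha y).mul_const (Real.exp (-(k * phi k c y) - U y))
    refine this.congr (Eventually.of_forall fun x => ?_)
    simp only
    rw [← Real.exp_add]
    congr 1
    ring
  · refine hU.int0.congr (Eventually.of_forall fun y => ?_)
    simp only [Real.norm_eq_abs, abs_of_pos (Real.exp_pos _)]
    rw [marg_y hk ha h y]
    simp

theorem int_W (hk : 0 < k) (ha : 0 < a) (hb : 0 < b) (h : Tl a b c) (hU : Pot U) (hs : ∀ y, s ≤ U y) :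
    Integrable (fun x : E => Real.exp (-WW k U c x)) := by
  have h1 := (int_joint hk ha h hU).integral_prod_left
  refine h1.congr (Eventually.of_forall fun x => ?_)
  exact marg_x hk ha hb h hU.meas hs x

theorem integral_W (hk : 0 < k) (ha : 0 < a) (hb : 0 < b) (h : Tl a b c) (hU : Pot U) (hs : ∀ y, s ≤ U y) :
    ∫ x : E, Real.exp (-WW k U c x) = 1 := by
  have h1 := integral_integral_swap
    (f := fun (x y : E) => Real.exp (k * inner ℝ x y - k * c x - k * phi k c y - U y)) (int_joint hk ha h hU)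
  simp only [marg_x hk ha hb h hU.meas hs] at h1
  unfold WW
  rw [h1, ← hU.one]
  congr 1
  ext y
  rw [marg_y hk ha h y]
  simp

/-- the Jensen step -/
theorem jensen (hk : 0 < k) (ha : 0 < a) (hb : 0 < b) (hV : Pot V) (hU : Pot U) (hs : ∀ y, s ≤ U y)
    (h : Tl a b c) (hT : Tl a b (TT k V U c))
    (i1 : Integrable fun y => phi k c y * Real.exp (-U y))
    (i2 : Integrable fun y => phi k (TT k V U c) y * Real.exp (-U y)) :
    ∫ y, phi k (TT k V U c) y * Real.exp (-U y) ≤ ∫ y, phi k c y * Real.exp (-U y) := by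
  have hkT : ∀ x, k * TT k V U c x = V x + P k U c x := fun x => by
    unfold TT
    field_simp
  have hFm := meas_joint (k := k) hT.meas h.meas hU.meas
  have hinner : ∀ x : E, ∫ y : E, Real.exp (k * inner ℝ x y - k * TT k V U c x - k * phi k c y - U y)
      = Real.exp (-V x) := by
    intro x
    rw [marg_x hk ha hb h hU.meas hs x, hkT]
    congr 1
    ring
  have hFi : Integrable (fun p : E × E =>
      Real.exp (k * inner ℝ p.1 p.2 - k * TT k V U c p.1 - k * phi k c p.2 - U p.2))
      ((volume : Measure E).prod volume) := by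
    rw [integrable_prod_iff hFm.aestronglyMeasurable]
    refine ⟨Eventually.of_forall fun x => ?_, ?_⟩
    · have := (int2 hk ha hb h hU.meas hs x).mul_const (Real.exp (-(k * TT k V U c x)))
      refine this.congr (Eventually.of_forall fun y => ?_)
      simp only
      rw [← Real.exp_add]
      congr 1
      ring
    · refine hV.int0.congr (Eventually.of_forall fun x => ?_)
      simp only [Real.norm_eq_abs, abs_of_pos (Real.exp_pos _)]
      exact (hinner x).symm
  have hswap := integral_integral_swap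
    (f := fun (x y : E) => Real.exp (k * inner ℝ x y - k * TT k V U c x - k * phi k c y - U y)) hFi
  simp only [hinner] at hswap
  rw [hV.one] at hswap
  have hti : Integrable fun y : E => Real.exp (k * (phi k (TT k V U c) y - phi k c y)) * Real.exp (-U y) := by
    refine hFi.integral_prod_right.congr (Eventually.of_forall fun y => ?_)
    exact marg_y hk ha hT y
  have ht1 : ∫ y : E, Real.exp (k * (phi k (TT k V U c) y - phi k c y)) * Real.exp (-U y) = 1 := by
    rw [hswap]
    congr 1
    ext y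
    exact (marg_y hk ha hT y).symm
  have hpt : ∀ y : E, k * (phi k (TT k V U c) y * Real.exp (-U y) - phi k c y * Real.exp (-U y))
      ≤ Real.exp (k * (phi k (TT k V U c) y - phi k c y)) * Real.exp (-U y) - Real.exp (-U y) := by
    intro y
    have h1 := Real.add_one_le_exp (k * (phi k (TT k V U c) y - phi k c y))
    have h2 := mul_le_mul_of_nonneg_right h1 (Real.exp_pos (-U y)).le
    nlinarith
  have hint := integral_mono ((i2.sub i1).const_mul k) (hti.sub hU.int0) hpt
  have e1 : ∫ y, k * (phi k (TT k V U c) y * Real.exp (-U y) - phi k c y * Real.exp (-U y))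
      = k * ((∫ y, phi k (TT k V U c) y * Real.exp (-U y)) - ∫ y, phi k c y * Real.exp (-U y)) := by
    rw [integral_const_mul, integral_sub i2 i1]
  have e2 : ∫ y, (Real.exp (k * (phi k (TT k V U c) y - phi k c y)) * Real.exp (-U y) - Real.exp (-U y)) = 0 := by
    rw [integral_sub hti hU.int0, ht1, hU.one, sub_self]
  have h3 : k * ((∫ y, phi k (TT k V U c) y * Real.exp (-U y)) - ∫ y, phi k c y * Real.exp (-U y)) ≤ 0 := by
    rw [← e1, ← e2]
    exact hint
  by_contra hcon
  push Not at hcon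
  have : 0 < k * ((∫ y, phi k (TT k V U c) y * Real.exp (-U y)) - ∫ y, phi k c y * Real.exp (-U y)) :=
    mul_pos hk (by linarith)
  linarith

theorem WV_eq (hk : 0 < k) (x : E) : WW k U c x - V x = k * c x - k * TT k V U c x := by
  unfold WW TT
  field_simp
  ring

theorem int_K (hk : 0 < k) (ha : 0 < a) (hb : 0 < b) (hV : Pot V) (h : Tl a b c) (hT : Tl a b (TT k V U c)) :
    Integrable fun x : E => (WW k U c x - V x) * Real.exp (-V x) := by
  have h2 := ((h.integrable ha hb hV).const_mul k).sub ((hT.integrable ha hb hV).const_mul k)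
  refine h2.congr (Eventually.of_forall fun x => ?_)
  simp only [Pi.sub_apply]
  rw [WV_eq hk]
  ring

/-- descent -/
theorem descent (hk : 0 < k) (ha : 0 < a) (hb : 0 < b) (hV : Pot V) (hU : Pot U) (hs : ∀ y, s ≤ U y)
    (h : Tl a b c) (hT : Tl a b (TT k V U c))
    (i1 : Integrable fun y => phi k c y * Real.exp (-U y))
    (i2 : Integrable fun y => phi k (TT k V U c) y * Real.exp (-U y)) :
    JJ k V U (TT k V U c) ≤ JJ k V U c - KK k V U c / k := by
  have hci := h.integrable ha hb hV
  have hTi := hT.integrable ha hb hV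
  have e2 : KK k V U c = k * (∫ x : E, c x * Real.exp (-V x)) - k * ∫ x : E, TT k V U c x * Real.exp (-V x) := by
    unfold KK
    rw [← integral_const_mul, ← integral_const_mul, ← integral_sub (hci.const_mul k) (hTi.const_mul k)]
    congr 1
    ext x
    rw [WV_eq hk]
    ring
  have h3 := jensen hk ha hb hV hU hs h hT i1 i2
  unfold JJ
  rw [e2]
  have e3 : (k * (∫ x : E, c x * Real.exp (-V x)) - k * ∫ x : E, TT k V U c x * Real.exp (-V x)) / k
      = (∫ x : E, c x * Real.exp (-V x)) - ∫ x : E, TT k V U c x * Real.exp (-V x) := by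
    field_simp
  rw [e3]
  linarith

theorem phi_const (hk : 0 < k) (ha : 0 < a) (h : Tl a b c) (r : ℝ) (y : E) :
    phi k (fun x => c x + r) y = phi k c y - r := by
  rw [phi_eq, phi_eq]
  have h1 : (fun x : E => Real.exp (k * inner ℝ x y - k * (c x + r)))
      = fun x => Real.exp (k * inner ℝ x y - k * c x) * Real.exp (-(k * r)) := by
    ext x
    rw [← Real.exp_add]
    congr 1
    ring
  rw [h1, integral_mul_const, Real.log_mul (integral_exp_pos (h.int1 hk ha y)).ne' (Real.exp_pos _).ne',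
    Real.log_exp]
  field_simp
  ring

theorem tl_const (h : Tl a b c) (r : ℝ) : Tl a b (fun x => c x + r) := by
  obtain ⟨g, f', h1, h2⟩ := h
  exact ⟨g, fun x => f' x + r, h1.add_const r, fun x => by simp only [h2]; ring⟩

theorem int_phi_const (hk : 0 < k) (ha : 0 < a) (hU : Pot U) (h : Tl a b c)
    (i1 : Integrable fun y => phi k c y * Real.exp (-U y)) (r : ℝ) :
    Integrable fun y => phi k (fun x => c x + r) y * Real.exp (-U y) := by
  refine (i1.sub (hU.int0.const_mul r)).congr (Eventually.of_forall fun y => ?_)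
  simp only [Pi.sub_apply]
  rw [phi_const hk ha h]
  ring

theorem J_const (hk : 0 < k) (ha : 0 < a) (hb : 0 < b) (hV : Pot V) (hU : Pot U) (h : Tl a b c)
    (i1 : Integrable fun y => phi k c y * Real.exp (-U y)) (r : ℝ) :
    JJ k V U (fun x => c x + r) = JJ k V U c := by
  unfold JJ
  have h1 : (fun x : E => (c x + r) * Real.exp (-V x)) = fun x => c x * Real.exp (-V x) + r * Real.exp (-V x) := by
    ext x
    ring
  have h2 : (fun y : E => phi k (fun x => c x + r) y * Real.exp (-U y))
      = fun y => phi k c y * Real.exp (-U y) - r * Real.exp (-U y) := by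
    ext y
    rw [phi_const hk ha h]
    ring
  rw [h1, h2, integral_add (h.integrable ha hb hV) (hV.int0.const_mul r), integral_sub i1 (hU.int0.const_mul r),
    integral_const_mul, integral_const_mul, hV.one, hU.one]
  ring

theorem J_ge (hk : 0 < k) (ha : 0 < a) (hb : 0 < b) (hV : Pot V) (hU : Pot U) (h : Tl a b c)
    (i1 : Integrable fun y => phi k c y * Real.exp (-U y)) :
    gc E k b - b * (∫ x, ‖x‖ ^ 2 * Real.exp (-V x)) - 1 / b / 2 * (∫ y, ‖y‖ ^ 2 * Real.exp (-U y))
      ≤ JJ k V U c := by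
  have hci := h.integrable ha hb hV
  obtain ⟨g, f', h1, rfl⟩ := h.eq
  have e1 : (f' 0 - 1 / b / 4 * ‖g‖ ^ 2) - b * (∫ x, ‖x‖ ^ 2 * Real.exp (-V x))
      ≤ ∫ x, (f' x + inner ℝ x g) * Real.exp (-V x) := by
    have h2 : ∫ x, ((f' 0 - 1 / b / 4 * ‖g‖ ^ 2) * Real.exp (-V x) - b * (‖x‖ ^ 2 * Real.exp (-V x)))
        = (f' 0 - 1 / b / 4 * ‖g‖ ^ 2) - b * (∫ x, ‖x‖ ^ 2 * Real.exp (-V x)) := by
      rw [integral_sub (hV.int0.const_mul _) (hV.int2.const_mul _), integral_const_mul, integral_const_mul,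
        hV.one, mul_one]
    rw [← h2]
    refine integral_mono ((hV.int0.const_mul _).sub (hV.int2.const_mul _)) hci fun x => ?_
    simp only
    have h3 := h1.lo x
    have h4 : 0 ≤ a / 2 * ‖x‖ ^ 2 := by positivity
    have h5 := (abs_le.1 (abs_real_inner_le_norm x g)).1
    have h6 : ‖x‖ * ‖g‖ ≤ b * ‖x‖ ^ 2 + 1 / b / 4 * ‖g‖ ^ 2 := by
      have h7 : 0 ≤ (b * ‖x‖ - ‖g‖ / 2) ^ 2 / b := by positivity
      have h8 : (b * ‖x‖ - ‖g‖ / 2) ^ 2 / b = b * ‖x‖ ^ 2 + 1 / b / 4 * ‖g‖ ^ 2 - ‖x‖ * ‖g‖ := by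
        field_simp
        ring
      linarith
    have h9 : (f' 0 - 1 / b / 4 * ‖g‖ ^ 2) - b * ‖x‖ ^ 2 ≤ f' x + inner ℝ x g := by linarith
    have h10 := mul_le_mul_of_nonneg_right h9 (Real.exp_pos (-V x)).le
    linarith
  have e2 : (-f' 0 + gc E k b + 1 / b / 4 * ‖g‖ ^ 2) - 1 / b / 2 * (∫ y, ‖y‖ ^ 2 * Real.exp (-U y))
      ≤ ∫ y, phi k (fun x => f' x + inner ℝ x g) y * Real.exp (-U y) := by
    have h2 : ∫ y, ((-f' 0 + gc E k b + 1 / b / 4 * ‖g‖ ^ 2) * Real.exp (-U y)
        - 1 / b / 2 * (‖y‖ ^ 2 * Real.exp (-U y)))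
        = (-f' 0 + gc E k b + 1 / b / 4 * ‖g‖ ^ 2) - 1 / b / 2 * (∫ y, ‖y‖ ^ 2 * Real.exp (-U y)) := by
      rw [integral_sub (hU.int0.const_mul _) (hU.int2.const_mul _), integral_const_mul, integral_const_mul,
        hU.one, mul_one]
    rw [← h2]
    refine integral_mono ((hU.int0.const_mul _).sub (hU.int2.const_mul _)) i1 fun y => ?_
    simp only
    rw [phi_tilt]
    have h3 := h1.phi_lo hk ha hb (y - g)
    have h4 := sq_half g y
    rw [norm_sub_rev] at h4
    have h5 := mul_le_mul_of_nonneg_left h4 (by positivity : 0 ≤ 1 / b / 2)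
    have h9 : (-f' 0 + gc E k b + 1 / b / 4 * ‖g‖ ^ 2) - 1 / b / 2 * ‖y‖ ^ 2 ≤ phi k f' (y - g) := by
      linarith
    have h10 := mul_le_mul_of_nonneg_right h9 (Real.exp_pos (-U y)).le
    linarith
  unfold JJ
  linarith

/-- small relative entropy along the iteration -/
theorem exists_K_le (hk : 0 < k) (ha : 0 < a) (hb : 0 < b) (hV : Pot V) (hU : Pot U) (hs : ∀ y, s ≤ U y)
    (u : ℕ → E → ℝ) (hu : ∀ i, Tl a b (u i))
    (hi : ∀ i, Integrable fun y => phi k (u i) y * Real.exp (-U y))
    (hS : ∀ i, ∃ r : ℝ, TT k V U (u i) = fun x => u (i + 1) x + r) {ε : ℝ} (hε : 0 < ε) :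
    ∃ i, KK k V U (u i) ≤ ε := by
  by_contra hcon
  simp only [not_exists, not_le] at hcon
  have hJi : ∀ i : ℕ, JJ k V U (u i) ≤ JJ k V U (u 0) - i * (ε / k) := by
    intro i
    induction i with
    | zero => simp
    | succ i ih =>
      obtain ⟨r, hr⟩ := hS i
      have hT : Tl a b (TT k V U (u i)) := by
        rw [hr]
        exact tl_const (hu _) r
      have i2 : Integrable fun y => phi k (TT k V U (u i)) y * Real.exp (-U y) := by
        rw [hr]
        exact int_phi_const hk ha hU (hu _) (hi _) r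
      have h1 := descent hk ha hb hV hU hs (hu i) hT (hi i) i2
      rw [hr, J_const hk ha hb hV hU (hu _) (hi _) r] at h1
      have h2 := (hcon i).le
      have h3 : ε / k ≤ KK k V U (u i) / k := by gcongr
      push_cast
      linarith
  set m := gc E k b - b * (∫ x, ‖x‖ ^ 2 * Real.exp (-V x))
    - 1 / b / 2 * (∫ y, ‖y‖ ^ 2 * Real.exp (-U y)) with hm
  obtain ⟨i, hi'⟩ := exists_nat_gt ((JJ k V U (u 0) - m) / (ε / k))
  have h1 := J_ge hk ha hb hV hU (hu i) (hi i)
  rw [← hm] at h1
  have h2 := hJi i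
  rw [div_lt_iff₀ (by positivity)] at hi'
  linarith

theorem cd_tilt (k : ℝ) (f' : E → ℝ) (g y x : E) :
    cd k (fun x => f' x + inner ℝ x g) y x = cd k f' (y - g) x := by
  unfold cd
  rw [phi_tilt, inner_sub_right]
  congr 1
  ring

/-- the law at level `k` -/
theorem law_error {A : ℝ} (hk : 0 < k) (ha : 0 < a) (hb : 0 < b) (hU : Pot U) (hs : ∀ y, s ≤ U y)
    (h : Tl a b c) (hA : 0 ≤ A) {g : E → E} (hg : Measurable g)
    (hsc : ∀ y z, phi k c (y + z) ≤ phi k c y + inner ℝ (g y) z + A / 2 * ‖z‖ ^ 2) {σ : ℝ} (hσ : 0 < σ)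
    (hAσ : Module.finrank ℝ E * (A / k) ≤ σ ^ 2) {F : E → ℝ} {L M : ℝ}
    (hF : Continuous F) (hL0 : 0 ≤ L) (hL : ∀ x y, |F x - F y| ≤ L * ‖x - y‖) (hM : ∀ x, |F x| ≤ M) :
    |(∫ y, F (g y) * Real.exp (-U y)) - ∫ x, F x * Real.exp (-WW k U c x)| ≤ L * σ := by
  have hM0 : 0 ≤ M := (abs_nonneg _).trans (hM 0)
  set j : E → E → ℝ := fun x y => Real.exp (k * inner ℝ x y - k * c x - k * phi k c y - U y) with hj
  have hjc : ∀ x y, j x y = cd k c y x * Real.exp (-U y) := by
    intro x y
    rw [hj]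
    simp only [cd]
    rw [← Real.exp_add]
    congr 1
  have hji : Integrable (fun p : E × E => j p.1 p.2) ((volume : Measure E).prod volume) := int_joint hk ha h hU
  have hFj : Integrable (fun p : E × E => F p.1 * j p.1 p.2) ((volume : Measure E).prod volume) := by
    refine (hji.const_mul M).mono' ((hF.comp continuous_fst).aestronglyMeasurable.mul hji.aestronglyMeasurable)
      (Eventually.of_forall fun p => ?_)
    rw [Real.norm_eq_abs, abs_mul, abs_of_pos (Real.exp_pos _)]
    exact mul_le_mul_of_nonneg_right (hM _) (Real.exp_pos _).le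
  have hswap := integral_integral_swap (f := fun x y => F x * j x y) hFj
  have hx : ∀ x : E, ∫ y : E, F x * j x y = F x * Real.exp (-WW k U c x) := by
    intro x
    rw [integral_const_mul, hj, marg_x hk ha hb h hU.meas hs]
    rfl
  simp only [hx] at hswap
  rw [hswap]
  have hFg : Integrable fun y => F (g y) * Real.exp (-U y) := by
    refine (hU.int0.const_mul M).mono' ((hF.measurable.comp hg).aestronglyMeasurable.mul hU.int0.aestronglyMeasurable)
      (Eventually.of_forall fun p => ?_)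
    rw [Real.norm_eq_abs, abs_mul, abs_of_pos (Real.exp_pos _)]
    exact mul_le_mul_of_nonneg_right (hM _) (Real.exp_pos _).le
  have hyi : Integrable fun y => ∫ x, F x * j x y := hFj.integral_prod_right
  rw [← integral_sub hFg hyi, ← Real.norm_eq_abs]
  obtain ⟨g0, f', h1, hc⟩ := h.eq
  have hcd0 : ∀ y, cd k c y = cd k f' (y - g0) := fun y => by
    funext x
    rw [hc, cd_tilt]
  have hpt : ∀ y : E, ‖F (g y) * Real.exp (-U y) - ∫ x, F x * j x y‖ ≤ L * σ * Real.exp (-U y) := by
    intro y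
    have hcd : Integrable (cd k c y) := by rw [hcd0]; exact integrable_cd hk ha h1 _
    have hcd1 : ∫ x, cd k c y x = 1 := by rw [hcd0]; exact integral_cd hk ha h1 _
    have h1' : ∫ x, F x * j x y = (∫ x, F x * cd k c y x) * Real.exp (-U y) := by
      rw [← integral_mul_const]
      congr 1
      ext x
      rw [hjc]
      ring
    have hFi : Integrable fun x => F x * cd k c y x := by
      refine (hcd.const_mul M).mono' (hF.aestronglyMeasurable.mul hcd.aestronglyMeasurable)
        (Eventually.of_forall fun p => ?_)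
      rw [Real.norm_eq_abs, abs_mul, abs_of_pos (cd_pos _ _)]
      exact mul_le_mul_of_nonneg_right (hM _) (cd_pos _ _).le
    have h2 : F (g y) * Real.exp (-U y) - ∫ x, F x * j x y
        = (∫ x, (F (g y) - F x) * cd k c y x) * Real.exp (-U y) := by
      have h3 : (fun x => (F (g y) - F x) * cd k c y x) = fun x => F (g y) * cd k c y x - F x * cd k c y x := by
        ext x
        ring
      rw [h1', h3, integral_sub (hcd.const_mul _) hFi, integral_const_mul, hcd1]
      ring
    rw [h2, norm_mul, Real.norm_eq_abs (Real.exp _), abs_of_pos (Real.exp_pos _)]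
    refine mul_le_mul_of_nonneg_right ?_ (Real.exp_pos _).le
    have hsc' : ∀ z, phi k f' (y - g0 + z) ≤ phi k f' (y - g0) + inner ℝ (g y) z + A / 2 * ‖z‖ ^ 2 := by
      intro z
      have h5 := hsc y z
      rw [hc, phi_tilt, phi_tilt] at h5
      rw [show y - g0 + z = y + z - g0 by abel]
      exact h5
    obtain ⟨f1, f2⟩ := first_moment hk ha h1 hA hsc' hσ hAσ
    rw [← hcd0] at f1 f2
    have h4 := norm_integral_le_of_norm_le (f1.const_mul L) (f := fun x => (F (g y) - F x) * cd k c y x)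
      (Eventually.of_forall fun x => by
        rw [norm_mul, Real.norm_eq_abs, Real.norm_eq_abs, abs_of_pos (cd_pos _ _), ← mul_assoc]
        refine mul_le_mul_of_nonneg_right ?_ (cd_pos _ _).le
        rw [abs_sub_comm]
        exact hL x (g y))
    refine h4.trans ?_
    rw [integral_const_mul]
    exact mul_le_mul_of_nonneg_left f2 hL0
  have h7 := norm_integral_le_of_norm_le (hU.int0.const_mul (L * σ)) (Eventually.of_forall hpt)
  refine h7.trans (le_of_eq ?_)
  rw [integral_const_mul, hU.one, mul_one]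

/-- push-forward error at level `k` -/
theorem push_error {A : ℝ} (hk : 0 < k) (ha : 0 < a) (hb : 0 < b) (hV : Pot V) (hU : Pot U)
    (hs : ∀ y, s ≤ U y) (h : Tl a b c) (hT : Tl a b (TT k V U c))
    (hA : 0 ≤ A) {g : E → E} (hg : Measurable g)
    (hsc : ∀ y z, phi k c (y + z) ≤ phi k c y + inner ℝ (g y) z + A / 2 * ‖z‖ ^ 2) {σ η : ℝ} (hσ : 0 < σ)
    (hAσ : Module.finrank ℝ E * (A / k) ≤ σ ^ 2) (hη : 0 < η) (hKL : KK k V U c ≤ η ^ 2) {F : E → ℝ} {L M : ℝ}
    (hF : Continuous F) (hL0 : 0 ≤ L) (hL : ∀ x y, |F x - F y| ≤ L * ‖x - y‖) (hM : ∀ x, |F x| ≤ M) :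
    |(∫ y, F (g y) * Real.exp (-U y)) - ∫ x, F x * Real.exp (-V x)| ≤ L * σ + 2 * M * η := by
  have h1 := law_error hk ha hb hU hs h hA hg hsc hσ hAσ hF hL0 hL hM
  have hM0 : 0 ≤ M := (abs_nonneg _).trans (hM 0)
  have h2 := abs_sub_le_of_KL hη hV.int0 (int_W hk ha hb h hU hs) hV.one (integral_W hk ha hb h hU hs)
    (int_K hk ha hb hV h hT) hKL hF.aestronglyMeasurable hM0 hM
  calc |(∫ y, F (g y) * Real.exp (-U y)) - ∫ x, F x * Real.exp (-V x)|
      = |((∫ y, F (g y) * Real.exp (-U y)) - ∫ x, F x * Real.exp (-WW k U c x))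
        + ((∫ x, F x * Real.exp (-WW k U c x)) - ∫ x, F x * Real.exp (-V x))| := by ring_nf
    _ ≤ _ := abs_add_le _ _
    _ ≤ L * σ + 2 * M * η := add_le_add h1 h2

end Vale.Agent.P254Z.Br.Ds
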