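import Vale.Agent.P254Z.Br.Inv
import Vale.Agent.P254Z.Br.Desc

/-! P254, Brenier map of the Gaussian: existence (`StmtDescG`, `StmtLKG`, `StmtEX`). -/

set_option linter.all false

open MeasureTheory Filter Set
open scoped Topology

namespace Vale.Agent.P254Z.Br

open Vale.Agent.P227.M Vale.Agent.P254 Vale.Agent.P254.S

variable {n : ℕ}

theorem reg_tl {c : E n → ℝ} {a b : ℝ} (h : Reg c a b) : MC.DscC.Tl a b c := by
  refine ⟨gradient c 0, fun x => c x - inner ℝ x (gradient c 0), ⟨?_, fun x => ?_, fun x => ?_⟩,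
    fun x => by ring⟩
  · exact h.smooth.continuous.measurable.sub (MC.DscC.inner_meas _)
  · have h1 := LL.taylor_lower h 0 x
    rw [zero_add, ← inner_gradient, real_inner_comm] at h1
    simp only [inner_zero_left, sub_zero]
    linarith
  · have h1 := LL.taylor_upper h 0 x
    rw [zero_add, ← inner_gradient, real_inner_comm] at h1
    simp only [inner_zero_left, sub_zero]
    linarith

theorem Q_nonneg (z : E n) : 0 ≤ Q z := by unfold Q; positivity

theorem Ex_norm {V : E n → ℝ} (hZ : 0 < ∫ x, Real.exp (-V x)) (f : E n → ℝ) :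
    ∫ x, f x * Real.exp (-(V x + Real.log (∫ x, Real.exp (-V x)))) = Ex V f := by
  unfold Ex
  rw [← integral_div]
  congr 1
  ext x
  rw [neg_add, Real.exp_add, Real.exp_neg (Real.log _), Real.exp_log hZ, div_eq_mul_inv]
  ring

theorem stmtDescG : StmtDescG := by
  intro n hn V c₀ C₀ a b m k hV ha _ hk hcls hphi ε hε
  have hab : a ≤ b := MM.nice_le hn (hcls 0).reg
  have hb : 0 < b := ha.trans_le hab
  have hk0 : 0 < k := by linarith
  have hn' : (0 : ℝ) < n := by exact_mod_cast hn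
  have hpot := MC.reg_pot hV
  have hpotQ := MC.reg_pot (reg_Q (n := n))
  have hZ := hV.Z_pos
  have hZQ := (reg_Q (n := n)).Z_pos
  set ZV := ∫ x, Real.exp (-V x) with hZV
  set ZQ := ∫ x : E n, Real.exp (-Q x) with hZQd
  set V' : E n → ℝ := fun x => V x + Real.log ZV with hV'
  set U : E n → ℝ := fun x => Q x + Real.log ZQ with hU
  have hs : ∀ y, Real.log ZQ ≤ U y := fun y => by
    have := Q_nonneg y
    simp only [hU]
    linarith
  have hQm : Measurable (Q : E n → ℝ) := reg_Q.smooth.continuous.measurable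
  have hT : ∀ c : E n → ℝ, Reg c a b → Ds.TT k V' U c = fun x => TG k V c x +
      ((Real.log ZV - Real.log ZQ) / k + (psiG k (MM.phiK k c) 0 + V 0 / k)) := by
    intro c hc
    funext x
    have hi := Ds.int2 hk0 ha hb (reg_tl hc) hQm (s := 0) Q_nonneg x
    have h1 : Ds.P k U c x = logLap (fun z => k * MM.phiK k c z + Q z) (k • x) - Real.log ZQ := by
      unfold Ds.P logLap
      have h2 : (fun y : E n => Real.exp (k * inner ℝ x y - k * LK.Dsc.phi k c y - U y))
          = fun y => Real.exp (k * inner ℝ x y - k * LK.Dsc.phi k c y - Q y) * Real.exp (-Real.log ZQ) := by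
        funext y
        rw [← Real.exp_add]
        congr 1
        simp only [hU]
        ring
      have h3 : (fun y : E n => Real.exp (inner ℝ y (k • x) - (k * MM.phiK k c y + Q y)))
          = fun y => Real.exp (k * inner ℝ x y - k * LK.Dsc.phi k c y - Q y) := by
        funext y
        congr 1
        rw [inner_smul_right, real_inner_comm]
        change _ = k * inner ℝ x y - k * MM.phiK k c y - Q y
        ring
      rw [h2, h3, integral_mul_const, Real.log_mul (integral_exp_pos hi).ne' (Real.exp_pos _).ne', Real.log_exp]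
      ring
    unfold Ds.TT TG
    rw [h1]
    simp only [hV', psiG]
    ring
  have hint : ∀ i, Integrable fun y => LK.Dsc.phi k (itG k a V i) y * Real.exp (-U y) := fun i =>
    (reg_tl (hphi i)).integrable (by positivity) (by positivity) hpotQ
  obtain ⟨i, hKL⟩ := Ds.exists_K_le (k := k) (a := a) (b := b) hk0 ha hb hpot hpotQ hs (itG k a V)
    (fun i => reg_tl (hcls i).reg) hint (fun i => ⟨_, hT _ (hcls i).reg⟩) (ε := (ε / 2) ^ 2) (by positivity)
  refine ⟨i, fun F hF hF1 => ?_⟩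
  set c := itG k a V i with hc
  have hφ : LK.Dsc.phi k c = MM.phiK k c := rfl
  have hN := hphi i
  rw [← hc] at hN
  have hA : 0 ≤ a⁻¹ := by positivity
  have hg : Measurable (gradient (MM.phiK k c)) :=
    (contDiff_gradient (m := 0) (k := 1) (by norm_num) ((LL.reg_two hN).of_le (by norm_num))).continuous.measurable
  have hsc : ∀ y z, LK.Dsc.phi k c (y + z) ≤ LK.Dsc.phi k c y + inner ℝ (gradient (MM.phiK k c) y) z
      + a⁻¹ / 2 * ‖z‖ ^ 2 := by
    intro y z
    rw [hφ, inner_gradient]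
    exact LL.taylor_upper hN y z
  have hTc : MC.DscC.Tl a b (Ds.TT k V' U c) := by
    rw [hT c (hcls i).reg]
    exact Ds.tl_const (reg_tl (hcls (i + 1)).reg) _
  have hσ : 0 < Real.sqrt (n / (a * k)) := Real.sqrt_pos.2 (by positivity)
  have hAσ : (Module.finrank ℝ (E n) : ℝ) * (a⁻¹ / k) ≤ Real.sqrt (n / (a * k)) ^ 2 := by
    rw [Real.sq_sqrt (by positivity), finrank_euclideanSpace_fin]
    refine le_of_eq ?_
    field_simp
  have key := Ds.push_error (V := V') (U := U) hk0 ha hb hpot hpotQ hs (reg_tl (hcls i).reg) hTc hA hg hsc hσ hAσ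
    (η := ε / 2) (by positivity) hKL (F := F) (L := 1) (M := 1) hF.continuous zero_le_one
    (fun x y => by
      have := hF.dist_le_mul x y
      rw [Real.dist_eq, dist_eq_norm] at this
      simpa using this) hF1
  have e1 : ∫ x, F x * Real.exp (-V' x) = Ex V F := Ex_norm hZ F
  have e3 : ∫ y, F (gradient (MM.phiK k c) y) * Real.exp (-U y)
      = Ex Q (fun z => F (gradient (MM.phiK k c) z)) := Ex_norm hZQ _
  rw [e1, e3] at key
  have e2 : 1 * Real.sqrt (n / (a * k)) + 2 * 1 * (ε / 2) = Real.sqrt (n / (a * k)) + ε := by ring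
  rw [e2] at key
  exact key

theorem itG_cls {k a b m : ℝ} {V : E n → ℝ} (h0 : ClsG k a b m (fun x : E n => a / 2 * ‖x‖ ^ 2))
    (hT : ∀ c : E n → ℝ, ClsG k a b m c → ClsG k a b m (TG k V c)) : ∀ i, ClsG k a b m (itG k a V i)
  | 0 => h0
  | i + 1 => hT _ (itG_cls h0 hT i)

theorem Ex_mono {V f g : E n → ℝ} (hZ : 0 < ∫ x, Real.exp (-V x))
    (hf : Integrable fun x => f x * Real.exp (-V x)) (hg : Integrable fun x => g x * Real.exp (-V x))
    (h : ∀ x, f x ≤ g x) : Ex V f ≤ Ex V g := by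
  unfold Ex
  exact div_le_div_of_nonneg_right (integral_mono hf hg fun x =>
    mul_le_mul_of_nonneg_right (h x) (Real.exp_pos _).le) hZ.le

theorem Ex_lin {V f : E n → ℝ} {c C : ℝ} (hV : Reg V c C) (hf : Gr f) (r s : ℝ) :
    Ex V (fun x => r + s * f x) = r + s * Ex V f := by
  have hZ := hV.Z_pos
  unfold Ex
  have h1 : (fun x => (r + s * f x) * Real.exp (-V x))
      = fun x => r * Real.exp (-V x) + s * (f x * Real.exp (-V x)) := by
    funext x; ring
  rw [h1, integral_add (hV.integrable_exp.const_mul r) ((hV.integrable_gr hf).const_mul s),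
    integral_const_mul, integral_const_mul]
  field_simp

/-- the image of the origin stays bounded -/
theorem shift_bound {V : E n → ℝ} {c C b : ℝ} (hV : Reg V c C) (hb : 0 ≤ b) :
    ∃ R : ℝ, ∀ (G : E n → E n) (w : E n), Continuous G → (∀ z, ‖G z‖ ≤ b * ‖z‖) →
      (∀ F : E n → ℝ, LipschitzWith 1 F → (∀ x, |F x| ≤ 1) →
        |Ex Q (fun z => F (G z + w)) - Ex V F| ≤ 1 / 4) → ‖w‖ ≤ R := by
  have hQ := reg_Q (n := n)
  set R := 4 * |Ex V (fun x => ‖x‖)| + 1 with hR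
  set S := 4 * b * |Ex Q (fun x : E n => ‖x‖)| + 1 with hS
  have hR1 : 1 ≤ R := by have := abs_nonneg (Ex V (fun x => ‖x‖)); linarith
  have hS1 : 1 ≤ S := by
    have : 0 ≤ 4 * b * |Ex Q (fun x : E n => ‖x‖)| := by positivity
    linarith
  refine ⟨R + S, fun G w hG hGb h => ?_⟩
  by_contra hw
  push Not at hw
  set F : E n → ℝ := fun x => max 0 (1 - ‖x‖ / R) with hF
  have hF0 : ∀ x, 0 ≤ F x := fun x => le_max_left _ _
  have hF1 : ∀ x, F x ≤ 1 := fun x => max_le zero_le_one (by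
    have : 0 ≤ ‖x‖ / R := by positivity
    linarith)
  have hFa : ∀ x, |F x| ≤ 1 := fun x => by rw [abs_of_nonneg (hF0 x)]; exact hF1 x
  have hFl : LipschitzWith 1 F := by
    refine LipschitzWith.of_dist_le_mul fun x y => ?_
    rw [Real.dist_eq, dist_eq_norm, NNReal.coe_one, one_mul]
    refine (abs_max_sub_max_le_max _ _ _ _).trans (max_le (by simp) ?_)
    have e : 1 - ‖x‖ / R - (1 - ‖y‖ / R) = (‖y‖ - ‖x‖) / R := by ring
    rw [e, abs_div, abs_of_pos (by linarith : 0 < R), div_le_iff₀ (by linarith)]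
    have h1 := abs_norm_sub_norm_le y x
    rw [norm_sub_rev] at h1
    nlinarith [norm_nonneg (x - y)]
  have h1 := h F hFl hFa
  have hFg : Gr F := Gr.of_bound hFl.continuous hFa
  have h2 : 1 + (-1 / R) * Ex V (fun x => ‖x‖) ≤ Ex V F := by
    rw [← Ex_lin hV Gr.norm]
    refine Ex_mono hV.Z_pos (hV.integrable_gr ((Gr.const 1).add (Gr.norm.const_mul _))) (hV.integrable_gr hFg)
      fun x => ?_
    refine le_trans (le_of_eq ?_) (le_max_right _ _)
    ring
  have hFG : Gr (fun z => F (G z + w)) :=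
    Gr.of_bound (hFl.continuous.comp (hG.add continuous_const)) fun z => hFa _
  have h3 : Ex Q (fun z => F (G z + w)) ≤ 0 + (b / S) * Ex Q (fun x : E n => ‖x‖) := by
    rw [← Ex_lin hQ Gr.norm]
    refine Ex_mono hQ.Z_pos (hQ.integrable_gr hFG)
      (hQ.integrable_gr ((Gr.const 0).add (Gr.norm.const_mul _))) fun z => ?_
    rw [zero_add]
    by_cases hz : S ≤ b * ‖z‖
    · refine (hF1 _).trans ?_
      rw [div_mul_eq_mul_div, le_div_iff₀ (by linarith), one_mul]
      exact hz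
    · push Not at hz
      have h4 : ‖w‖ ≤ ‖G z + w‖ + ‖G z‖ := by
        have := norm_sub_le (G z + w) (G z)
        rwa [add_sub_cancel_left] at this
      have h5 : R ≤ ‖G z + w‖ := by linarith [hGb z]
      refine max_le (by positivity) ?_
      have h6 : 1 ≤ ‖G z + w‖ / R := by rw [le_div_iff₀ (by linarith)]; linarith
      have h7 : 0 ≤ b / S * ‖z‖ := by positivity
      linarith
  have h4 : Ex V (fun x => ‖x‖) / R < 1 / 4 := by
    rw [div_lt_iff₀ (by linarith)]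
    have := le_abs_self (Ex V (fun x => ‖x‖))
    linarith
  have h5 : (b / S) * Ex Q (fun x : E n => ‖x‖) < 1 / 4 := by
    rw [div_mul_eq_mul_div, div_lt_iff₀ (by linarith)]
    have := mul_le_mul_of_nonneg_left (le_abs_self (Ex Q (fun x : E n => ‖x‖))) hb
    linarith
  have h6 := (abs_le.1 h1).1
  have h7 : (-1 / R) * Ex V (fun x => ‖x‖) = -(Ex V (fun x => ‖x‖) / R) := by ring
  linarith

/-- explicit self-concordance constant of the level-`k` class -/
noncomputable def mQ (c₀ C₀ MV : ℝ) : ℝ := 2 / 3 * MV * √(C₀ / (√c₀ / 2))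

/-- explicit Lipschitz constant of the Hessian -/
noncomputable def MQ (c₀ C₀ MV : ℝ) : ℝ := 18 * mQ c₀ C₀ MV * ((√c₀)⁻¹) ^ ((3 : ℝ) / 2)

theorem invQ (hn : 0 < n) {V : E n → ℝ} {c₀ C₀ MV : ℝ} (hV : Reg V c₀ C₀) (hMV : 0 ≤ MV) (hVs : SelfConc MV V)
    {k : ℝ} (hk : max 1 (max (2 * √C₀) (mQ c₀ C₀ MV ^ 2)) ≤ k) :
    (ClsG k (√c₀) (2 * √C₀) (mQ c₀ C₀ MV) (fun x : E n => √c₀ / 2 * ‖x‖ ^ 2)) ∧
    (∀ c : E n → ℝ, ClsG k (√c₀) (2 * √C₀) (mQ c₀ C₀ MV) c → ClsG k (√c₀) (2 * √C₀) (mQ c₀ C₀ MV) (TG k V c)) ∧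
    (∀ c : E n → ℝ, ClsG k (√c₀) (2 * √C₀) (mQ c₀ C₀ MV) c →
      Reg (MM.phiK k c) (2 * √C₀)⁻¹ (√c₀)⁻¹ ∧ SelfConc (mQ c₀ C₀ MV) (MM.phiK k c)) := by
  have hc0 : 0 < c₀ := hV.c_pos
  have hcC := MM.nice_le hn hV
  have hC0 : 0 < C₀ := hc0.trans_le hcC
  have ha : 0 < √c₀ := Real.sqrt_pos.2 hc0
  have hb : 0 < √C₀ := Real.sqrt_pos.2 hC0
  have hab : √c₀ ≤ 2 * √C₀ := by
    have := Real.sqrt_le_sqrt hcC
    linarith
  have hm0 : 0 ≤ mQ c₀ C₀ MV := by unfold mQ; positivity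
  have hk0 : 0 < k := lt_of_lt_of_le one_pos ((le_max_left _ _).trans hk)
  have hbk : 2 * √C₀ ≤ k := ((le_max_left _ _).trans (le_max_right _ _)).trans hk
  have hmk : mQ c₀ C₀ MV ^ 2 ≤ k := ((le_max_right _ _).trans (le_max_right _ _)).trans hk
  refine ⟨⟨(MM.Start102.nice_quad ha hab).toReg, MM.Start102.selfConc_quad ha.le hm0, by simp⟩,
    fun c hc => ?_, fun c hc => ⟨?_, ?_⟩⟩
  · refine TG_mem hV hC0 hMV hVs ?_ (by positivity) ?_ le_rfl hk0 (hab.trans hbk) hbk hmk hc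
    · rw [Real.sq_sqrt hc0.le]
    · rw [mul_pow, Real.sq_sqrt hC0.le]; linarith
  · exact reg_phi hk0 (by positivity) hc.reg
  · exact sc_phi hk0 (by positivity) hm0 hmk hc.reg hc.sc

theorem lk_of (hn : 0 < n) {V : E n → ℝ} {c₀ C₀ a b m K₀ : ℝ} (hV : Reg V c₀ C₀) (ha : 0 < a) (hab : a ≤ b)
    (hm : 0 ≤ m) (hK₀ : 1 ≤ K₀) (hinv : ∀ k : ℝ, K₀ ≤ k →
      (ClsG k a b m (fun x : E n => a / 2 * ‖x‖ ^ 2)) ∧
      (∀ c : E n → ℝ, ClsG k a b m c → ClsG k a b m (TG k V c)) ∧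
      (∀ c : E n → ℝ, ClsG k a b m c → Reg (MM.phiK k c) b⁻¹ a⁻¹ ∧ SelfConc m (MM.phiK k c))) :
    ∃ R : ℝ, ∀ ε > 0, ∃ (φ : E n → ℝ) (G : E n → E n) (H : E n → E n →L[ℝ] E n) (w : E n),
      MC.C21c b⁻¹ a⁻¹ (18 * m * (a⁻¹) ^ ((3 : ℝ) / 2)) φ G H ∧ ‖w‖ ≤ R ∧
      ∀ F : E n → ℝ, LipschitzWith 1 F → (∀ x, |F x| ≤ 1) →
        |Ex Q (fun z => F (G z + w)) - Ex V F| ≤ ε := by
  have hb : 0 < b := ha.trans_le hab
  obtain ⟨R, hR⟩ := shift_bound hV (b := a⁻¹) (by positivity)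
  refine ⟨R, fun ε hε => ?_⟩
  set δ := min ε (1 / 4) / 2 with hδ
  have hδ0 : 0 < δ := by
    have : 0 < min ε (1 / 4) := lt_min hε (by norm_num)
    positivity
  obtain ⟨k, hk1, hk3⟩ : ∃ k : ℝ, K₀ ≤ k ∧ (n : ℝ) / (a * δ ^ 2) ≤ k :=
    ⟨max K₀ ((n : ℝ) / (a * δ ^ 2)), le_max_left _ _, le_max_right _ _⟩
  have hk0 : 1 ≤ k := hK₀.trans hk1
  have hkpos : 0 < k := by linarith
  obtain ⟨h0, hT, hphi⟩ := hinv k hk1
  have hcls : ∀ i, ClsG k a b m (itG k a V i) := itG_cls h0 hT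
  obtain ⟨i, hi⟩ := stmtDescG n hn V c₀ C₀ a b m k hV ha hm hk0 hcls (fun i => (hphi _ (hcls i)).1) δ hδ0
  obtain ⟨hN, hS⟩ := hphi _ (hcls i)
  set φ₀ := MM.phiK k (itG k a V i) with hφ₀
  obtain ⟨H, hg1, hg2, hg3, hg4, hg5⟩ := MC.toC21_fields hn φ₀ _ _ m hN hm hS
  set w := gradient φ₀ 0 with hw
  have hC : MC.C21c b⁻¹ a⁻¹ (18 * m * (a⁻¹) ^ ((3 : ℝ) / 2)) (fun y => φ₀ y - inner ℝ w y)
      (fun y => gradient φ₀ y - w) H := by
    refine ⟨fun y => ?_, fun y => (hg2 y).sub_const w, hg3, hg4, hg5, by simp [hw]⟩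
    rw [hasGradientAt_iff_hasFDerivAt]
    have h7 := (hg1 y).hasFDerivAt.sub (innerSL ℝ w).hasFDerivAt
    refine h7.congr_fderiv ?_
    ext v
    simp [inner_sub_left]
  have hs : Real.sqrt ((n : ℝ) / (a * k)) ≤ δ := by
    apply Real.sqrt_le_iff.2
    refine ⟨hδ0.le, ?_⟩
    rw [div_le_iff₀ (by positivity)]
    rw [div_le_iff₀ (by positivity)] at hk3
    nlinarith
  have hmain : ∀ F : E n → ℝ, LipschitzWith 1 F → (∀ x, |F x| ≤ 1) →
      |Ex Q (fun z => F (gradient φ₀ z - w + w)) - Ex V F| ≤ min ε (1 / 4) := by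
    intro F hF hF1
    have h6 := hi F hF hF1
    simp only [sub_add_cancel]
    linarith
  refine ⟨_, _, H, w, hC, ?_, fun F hF hF1 => (hmain F hF hF1).trans (min_le_left _ _)⟩
  exact hR (fun y => gradient φ₀ y - w) w hC.continuous_G
    (hC.G_norm_le (by positivity) (by positivity)) fun F hF hF1 => (hmain F hF hF1).trans (min_le_right _ _)

theorem stmtLKG : StmtLKG := by
  intro n hn V c₀ C₀ hV
  obtain ⟨a, b, m, K₀, ha, hab, hm, hK₀, hinv⟩ := stmtInvG n hn V c₀ C₀ hV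
  obtain ⟨R, hR⟩ := lk_of hn hV ha hab hm hK₀ hinv
  exact ⟨_, _, _, R, inv_pos.2 (ha.trans_le hab), hR⟩

theorem bp_zero {V : E 0 → ℝ} : BP (fun _ : E 0 => (0 : ℝ)) V 1 1 0 (V 0) := by
  have hz : ∀ v : E 0, ‖v‖ = 0 := fun v => by rw [Subsingleton.elim v 0, norm_zero]
  refine ⟨one_pos, contDiff_const, fun x v => ?_, fun x v => ?_, fun i => i.elim0, fun z => ?_⟩
  · simp [qf, hz]
  · simp [qf, hz]
  · rw [Subsingleton.elim (gradient _ z) 0, hz]
    simp

theorem lim_of (hn : 0 < n) {V : E n → ℝ} {c₀ C₀ a b M R : ℝ} (hV : Reg V c₀ C₀) (ha : 0 < a)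
    (hM : ∀ ε > 0, ∃ (φ : E n → ℝ) (G : E n → E n) (H : E n → E n →L[ℝ] E n) (w : E n),
      MC.C21c a b M φ G H ∧ ‖w‖ ≤ R ∧ ∀ F : E n → ℝ, LipschitzWith 1 F → (∀ x, |F x| ≤ 1) →
        |Ex Q (fun z => F (G z + w)) - Ex V F| ≤ ε) : ∃ (φ : E n → ℝ) (κ : ℝ), BP φ V a b M κ := by
  have hQ := reg_Q (n := n)
  have he : ∀ j : ℕ, (0 : ℝ) < 1 / ((j : ℝ) + 1) := fun j => by positivity
  choose φ G H w hC hw hF using fun j : ℕ => hM (1 / ((j : ℝ) + 1)) (he j)
  have he0 : Tendsto (fun j : ℕ => 1 / ((j : ℝ) + 1)) atTop (𝓝 0) := tendsto_one_div_add_atTop_nhds_zero_nat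
  have hb : 0 ≤ b := by
    have h1 := (hC 0).lower 0 (ei ⟨0, hn⟩)
    have h2 := (hC 0).upper 0 (ei ⟨0, hn⟩)
    have h3 : ‖(ei ⟨0, hn⟩ : E n)‖ = 1 := by simp [ei]
    rw [h3] at h1 h2
    linarith
  have hM0 : 0 ≤ M := by
    have h2 := MC.M_nonneg_of (hC 0) 0 (ei ⟨0, hn⟩)
    have h3 : ‖(ei ⟨0, hn⟩ : E n)‖ = 1 := by simp [ei]
    rwa [h3, mul_one] at h2
  -- normalise the values at the origin
  have hC' : ∀ j, MC.C21c a b M (fun y => φ j y - φ j 0) (G j) (H j) := fun j =>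
    ⟨fun y => by
      rw [hasGradientAt_iff_hasFDerivAt]
      exact ((hC j).grad y).hasFDerivAt.sub_const _, (hC j).hess, (hC j).lower, (hC j).upper, (hC j).lip,
      (hC j).zero⟩
  obtain ⟨w', -, ψ₁, hψ₁, hw'⟩ := (isCompact_closedBall (0 : E n) R).tendsto_subseq
    (x := w) fun j => by simpa using hw j
  obtain ⟨ψ₂, hψ₂, φ', G', H', hC2, -, hG, -⟩ := MC.exists_limit (B := 0) ha.le hb
    (fun j => hC' (ψ₁ j)) (fun j => by simp)
  have hfd : ∀ z, HasFDerivAt (fun y => G' y + w') (H' z) z := fun z => (hC2.hess z).add_const w'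
  have hfd' : fderiv ℝ (fun y => G' y + w') = H' := funext fun z => (hfd z).fderiv
  have hG1 : ContDiff ℝ 1 (fun y => G' y + w') := by
    rw [contDiff_one_iff_fderiv]
    refine ⟨fun z => (hfd z).differentiableAt, ?_⟩
    rw [hfd']
    exact hC2.continuous_H
  have hm : ∀ x y, a * ‖x - y‖ ^ 2 ≤ inner ℝ ((G' x + w') - (G' y + w')) (x - y) := by
    intro x y
    have := hC2.mono y (x - y)
    rw [add_sub_cancel] at this
    rwa [add_sub_add_right_eq_sub]
  have hZ := hV.Z_pos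
  have hZQ := hQ.Z_pos
  set ZV := ∫ x, Real.exp (-V x) with hZV
  set ZQ := ∫ x : E n, Real.exp (-Q x) with hZQd
  have hma : ∀ y, Real.exp (-Q y) / ZQ = Real.exp (-V (G' y + w')) / ZV * (H' y).det := by
    intro y
    have key := Vale.Agent.P227.M.LIM.eq_mul_det_of_integral ha hG1 hm
      (f := fun y => Real.exp (-Q y) / ZQ) (h := fun x => Real.exp (-V x) / ZV)
      (hQ.cont.neg.rexp.div_const _) (hV.cont.neg.rexp.div_const _) ?_ y
    · rw [hfd'] at key
      exact key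
    intro F hFl hFc
    obtain ⟨K, hK⟩ := hFl
    obtain ⟨B, hBF⟩ := hFc.exists_bound_of_continuous hK.continuous
    have hB : ∀ x, |F x| ≤ B := fun x => by simpa using hBF x
    have hB0 : 0 ≤ B := (abs_nonneg _).trans (hB 0)
    set l : ℝ := K + B + 1 with hl
    have hl0 : 0 < l := by positivity
    have h1 : LipschitzWith 1 (fun x => 0 + l⁻¹ * F x) := by
      refine LipschitzWith.of_dist_le_mul fun x y => ?_
      rw [zero_add, zero_add, Real.dist_eq, ← mul_sub, abs_mul, abs_of_pos (by positivity : 0 < l⁻¹)]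
      have h2 := hK.dist_le_mul x y
      rw [Real.dist_eq] at h2
      have h3 : (K : ℝ) * dist x y ≤ l * dist x y := mul_le_mul_of_nonneg_right (by linarith) dist_nonneg
      rw [inv_mul_le_iff₀ hl0]
      simpa using h2.trans h3
    have h2 : ∀ x, |0 + l⁻¹ * F x| ≤ 1 := by
      intro x
      rw [zero_add, abs_mul, abs_of_pos (by positivity : 0 < l⁻¹), inv_mul_le_iff₀ hl0, mul_one]
      have := hB x
      have hK0 : (0 : ℝ) ≤ K := K.2
      linarith
    have hFg : Gr F := Gr.of_bound hK.continuous hB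
    have hFj : ∀ j, Gr (fun z => F (G j z + w j)) := fun j =>
      Gr.of_bound (hK.continuous.comp ((hC j).continuous_G.add continuous_const)) fun z => hB _
    have hlim1 : Tendsto (fun j => Ex Q (fun z => F (G j z + w j))) atTop (𝓝 (Ex V F)) := by
      rw [tendsto_iff_dist_tendsto_zero]
      refine squeeze_zero (fun _ => dist_nonneg) (g := fun j : ℕ => l * (1 / ((j : ℝ) + 1))) (fun j => ?_) ?_
      · have h3 := hF j (fun x => 0 + l⁻¹ * F x) h1 h2
        rw [Ex_lin hQ (hFj j), Ex_lin hV hFg, zero_add, zero_add, ← mul_sub, abs_mul,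
          abs_of_pos (by positivity : 0 < l⁻¹), inv_mul_le_iff₀ hl0] at h3
        rw [Real.dist_eq]
        exact h3
      · simpa using he0.const_mul l
    have hlim1' := (hlim1.comp hψ₁.tendsto_atTop).comp hψ₂.tendsto_atTop
    have hlim2 : Tendsto (fun j => ∫ y, F (G (ψ₁ (ψ₂ j)) y + w (ψ₁ (ψ₂ j))) * Real.exp (-Q y)) atTop
        (𝓝 (∫ y, F (G' y + w') * Real.exp (-Q y))) := by
      refine tendsto_integral_of_dominated_convergence
        (fun y => B * Real.exp (-Q y)) (fun j => ?_) (hQ.integrable_exp.const_mul B) (fun j => ?_) ?_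
      · exact ((hFj _).cont.mul hQ.cont.neg.rexp).aestronglyMeasurable
      · refine Eventually.of_forall fun y => ?_
        rw [norm_mul, Real.norm_eq_abs, Real.norm_eq_abs, abs_of_pos (Real.exp_pos _)]
        exact mul_le_mul_of_nonneg_right (hB _) (Real.exp_pos _).le
      · refine Eventually.of_forall fun y => ?_
        exact ((hK.continuous.tendsto _).comp ((hG y).add (hw'.comp hψ₂.tendsto_atTop))).mul_const _
    have h5 : (∫ y, F (G' y + w') * Real.exp (-Q y)) / ZQ = Ex V F :=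
      tendsto_nhds_unique (hlim2.div_const ZQ) hlim1'
    simp only [← mul_div_assoc]
    rw [integral_div, integral_div, h5]
    rfl
  have hgr : ∀ y, HasGradientAt (fun y => φ' y + inner ℝ w' y) (G' y + w') y := by
    intro y
    rw [hasGradientAt_iff_hasFDerivAt]
    have h7 := (hC2.grad y).hasFDerivAt.add (innerSL ℝ w').hasFDerivAt
    refine h7.congr_fderiv ?_
    ext v
    simp [inner_add_left]
  have hgrad : gradient (fun y => φ' y + inner ℝ w' y) = fun y => G' y + w' := funext fun y => (hgr y).gradient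
  refine ⟨fun y => φ' y + inner ℝ w' y, Real.log ZQ - Real.log ZV, ha, ?_, fun z v => ?_,
    fun z v => ?_, fun i j x y => ?_, fun z => ?_⟩
  · have h1 : fderiv ℝ (fun y => φ' y + inner ℝ w' y)
        = fun y => InnerProductSpace.toDual ℝ (E n) (G' y + w') := funext fun y => (hgr y).hasFDerivAt.fderiv
    rw [show (2 : WithTop ℕ∞) = 1 + 1 by norm_num, contDiff_succ_iff_fderiv]
    refine ⟨fun y => (hgr y).differentiableAt, by simp, ?_⟩
    rw [h1]
    exact (InnerProductSpace.toDual ℝ (E n)).toContinuousLinearEquiv.contDiff.comp hG1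
  · rw [qf_of hgr hfd]
    exact hC2.lower z v
  · rw [qf_of hgr hfd]
    exact hC2.upper z v
  · rw [hess_of hgr hfd, hess_of hgr hfd]
    have h1 : (H' x (ei i)) j - (H' y (ei i)) j = ((H' x - H' y) (ei i)) j := by simp
    rw [h1]
    refine (abs_coord_le _ _).trans ?_
    refine ((H' x - H' y).le_opNorm _).trans ?_
    have h3 : ‖(ei i : E n)‖ = 1 := by simp [ei]
    rw [h3, mul_one]
    exact hC2.lip x y
  · rw [hgrad, det_of hgr hfd]
    have h1 : 0 < (H' z).det := Vale.Agent.P227.M.LIM.det_pos_of_coercive ha (H' z) (fun v => hC2.lower z v)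
    have h2 := congrArg Real.log (hma z)
    rw [Real.log_mul (by positivity) h1.ne', Real.log_div (Real.exp_pos _).ne' hZQ.ne',
      Real.log_div (Real.exp_pos _).ne' hZ.ne', Real.log_exp, Real.log_exp] at h2
    change V (G' z + w') = Q z + _ + _
    linarith

theorem stmtLIMG : StmtLIMG := by
  intro h n V c₀ C₀ hV
  rcases Nat.eq_zero_or_pos n with rfl | hn
  · exact ⟨_, _, _, _, _, bp_zero⟩
  obtain ⟨a, b, M, R, ha, hM⟩ := h n hn V c₀ C₀ hV
  obtain ⟨φ, κ, h1⟩ := lim_of hn hV ha hM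
  exact ⟨φ, a, b, M, κ, h1⟩

/-- existence with explicit constants -/
theorem exQ (hn : 0 < n) {V : E n → ℝ} {c₀ C₀ MV : ℝ} (hV : Reg V c₀ C₀) (hMV : 0 ≤ MV) (hVs : SelfConc MV V) :
    ∃ (φ : E n → ℝ) (κ : ℝ), BP φ V (2 * √C₀)⁻¹ (√c₀)⁻¹ (MQ c₀ C₀ MV) κ := by
  have hc0 : 0 < c₀ := hV.c_pos
  have hcC := MM.nice_le hn hV
  have ha : 0 < √c₀ := Real.sqrt_pos.2 hc0
  have hb : 0 < √C₀ := Real.sqrt_pos.2 (hc0.trans_le hcC)
  have hab : √c₀ ≤ 2 * √C₀ := by
    have := Real.sqrt_le_sqrt hcC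
    linarith
  obtain ⟨R, hR⟩ := lk_of hn hV ha hab (m := mQ c₀ C₀ MV) (by unfold mQ; positivity) (le_max_left _ _)
    fun k hk => invQ hn hV hMV hVs hk
  exact lim_of hn hV (by positivity) hR

/-- existence of the `C^{2,1}` Brenier potential of the Gaussian onto `e^{-V}` -/
theorem stmtEX : StmtEX := stmtLIMG stmtLKG

end Vale.Agent.P254Z.Br
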