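import Vale.Agent.P254.Bdl.B19
import Vale.Agent.P254.S.H130.Gauss

/-! P254: calculus for the standard Gaussian `gQ n` and locally Lipschitz functions of polynomial
growth (`PL`): integration by parts and exchange of mixed derivatives. -/

set_option linter.all false

open MeasureTheory Filter Set Metric
open scoped Topology NNReal

namespace Vale.Agent.P254Z.Br

open Vale.Agent.P227.M Vale.Agent.P227.M.K814 Vale.Agent.P254 Vale.Agent.P254.S Vale.Agent.P254.S130

variable {n : ℕ} {f g : E n → ℝ}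

instance : IsProbabilityMeasure (gQ n) := gQ_prob

/-- measurable, polynomial growth (almost everywhere) -/
def PG (f : E n → ℝ) : Prop :=
  AEStronglyMeasurable f volume ∧ ∃ (B : ℝ) (k : ℕ), 0 ≤ B ∧ ∀ᵐ x, |f x| ≤ B * (1 + ‖x‖) ^ k

theorem PG.of_gr (hf : Gr f) : PG f := by
  obtain ⟨h1, B, k, hB, h2⟩ := hf
  exact ⟨h1.aestronglyMeasurable, B, k, hB, ae_of_all _ h2⟩

theorem PG.of_bound (hf : AEStronglyMeasurable f volume) {B : ℝ} (hB : ∀ᵐ x, |f x| ≤ B) : PG f :=
  ⟨hf, |B|, 0, abs_nonneg _, hB.mono fun x hx => by simpa using hx.trans (le_abs_self B)⟩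

theorem PG.const (c : ℝ) : PG (fun _ : E n => c) := PG.of_gr (Gr.const c)

theorem PG.coord (i : Fin n) : PG (fun x : E n => x i) := PG.of_gr (Gr.coord i)

theorem PG.congr (hf : PG f) (h : ∀ᵐ x, f x = g x) : PG g := by
  obtain ⟨h1, B, k, hB, h2⟩ := hf
  refine ⟨h1.congr h, B, k, hB, ?_⟩
  filter_upwards [h, h2] with x hx hx2
  rwa [← hx]

theorem PG.add (hf : PG f) (hg : PG g) : PG (fun x => f x + g x) := by
  obtain ⟨hfc, B, k, hB, hb⟩ := hf
  obtain ⟨hgc, D, l, hD, hd⟩ := hg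
  refine ⟨hfc.add hgc, B + D, k + l, add_nonneg hB hD, ?_⟩
  filter_upwards [hb, hd] with x hb hd
  have h1 := one_le_one_add_norm x
  have hk : (1 + ‖x‖) ^ k ≤ (1 + ‖x‖) ^ (k + l) := pow_le_pow_right₀ h1 (Nat.le_add_right _ _)
  have hl : (1 + ‖x‖) ^ l ≤ (1 + ‖x‖) ^ (k + l) := pow_le_pow_right₀ h1 (Nat.le_add_left _ _)
  calc |f x + g x| ≤ |f x| + |g x| := abs_add_le _ _
    _ ≤ B * (1 + ‖x‖) ^ k + D * (1 + ‖x‖) ^ l := add_le_add hb hd
    _ ≤ B * (1 + ‖x‖) ^ (k + l) + D * (1 + ‖x‖) ^ (k + l) := by gcongr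
    _ = _ := by ring

theorem PG.mul (hf : PG f) (hg : PG g) : PG (fun x => f x * g x) := by
  obtain ⟨hfc, B, k, hB, hb⟩ := hf
  obtain ⟨hgc, D, l, hD, hd⟩ := hg
  refine ⟨hfc.mul hgc, B * D, k + l, mul_nonneg hB hD, ?_⟩
  filter_upwards [hb, hd] with x hb hd
  rw [abs_mul, pow_add]
  calc |f x| * |g x| ≤ (B * (1 + ‖x‖) ^ k) * (D * (1 + ‖x‖) ^ l) :=
        mul_le_mul hb hd (abs_nonneg _) (mul_nonneg hB (pow_nonneg (by positivity) _))
    _ = _ := by ring

theorem PG.neg (hf : PG f) : PG (fun x => -f x) := by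
  obtain ⟨hfc, B, k, hB, hb⟩ := hf
  exact ⟨hfc.neg, B, k, hB, hb.mono fun x hx => by rwa [abs_neg]⟩

theorem PG.sub (hf : PG f) (hg : PG g) : PG (fun x => f x - g x) := by
  simpa [sub_eq_add_neg] using hf.add hg.neg

theorem PG.const_mul (hf : PG f) (c : ℝ) : PG (fun x => c * f x) := (PG.const c).mul hf

theorem PG.pow (hf : PG f) (k : ℕ) : PG (fun x => f x ^ k) := by
  induction k with
  | zero => simpa using PG.const (n := n) 1
  | succ k ih => simpa [pow_succ] using ih.mul hf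

theorem PG.abs (hf : PG f) : PG (fun x => |f x|) := by
  obtain ⟨hfc, B, k, hB, hb⟩ := hf
  exact ⟨hfc.norm, B, k, hB, hb.mono fun x hx => by rwa [abs_abs]⟩

theorem PG.sum {ι : Type*} (s : Finset ι) {f : ι → E n → ℝ} (hf : ∀ i ∈ s, PG (f i)) :
    PG (fun x => ∑ i ∈ s, f i x) := by
  classical
  induction s using Finset.induction_on with
  | empty => simpa using PG.const (n := n) 0
  | insert a s ha ih =>
    simpa [Finset.sum_insert ha] using (hf a (Finset.mem_insert_self a s)).add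
      (ih fun i hi => hf i (Finset.mem_insert_of_mem hi))

theorem regQ : Reg (Q : E n → ℝ) 1 1 := by
  have : (Q : E n → ℝ) = fun x => (1 : ℝ) / 2 * ‖x‖ ^ 2 := by
    funext x; unfold Q; ring
  rw [this]
  exact (MM.Start102.nice_quad one_pos le_rfl).toReg

theorem PG.intV (hf : PG f) : Integrable fun x => f x * Real.exp (-Q x) := by
  obtain ⟨hfc, B, k, hB, hb⟩ := hf
  have h1 : Gr (fun x : E n => B * (1 + ‖x‖) ^ k) := (((Gr.const 1).add Gr.norm).pow k).const_mul B
  refine (regQ.integrable_gr h1).mono' (hfc.mul (cont_Q.neg.rexp).aestronglyMeasurable) ?_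
  filter_upwards [hb] with x hx
  rw [norm_mul, Real.norm_eq_abs, Real.norm_eq_abs, Real.abs_exp]
  exact mul_le_mul_of_nonneg_right hx (Real.exp_pos _).le

theorem int_gQ_iff (f : E n → ℝ) : Integrable f (gQ n) ↔ Integrable fun x => f x * Real.exp (-Q x) := by
  have hm : Measurable fun z : E n => ENNReal.ofReal (dens z) :=
    ENNReal.measurable_ofReal.comp dens_cont.measurable
  rw [gQ, integrable_withDensity_iff_integrable_smul' hm (ae_of_all _ fun z => ENNReal.ofReal_lt_top)]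
  have e : (fun x : E n => (ENNReal.ofReal (dens x)).toReal • f x)
      = fun x => (f x * Real.exp (-Q x)) * (∫ z : E n, Real.exp (-Q z))⁻¹ := by
    funext x
    rw [ENNReal.toReal_ofReal (dens_pos x).le, smul_eq_mul, dens]
    ring
  rw [e]
  exact integrable_mul_const_iff (isUnit_iff_ne_zero.2 (inv_ne_zero Z_pos.ne')) _

theorem PG.int (hf : PG f) : Integrable f (gQ n) := (int_gQ_iff f).2 hf.intV

theorem gQ_eq (f : E n → ℝ) : ∫ z, f z ∂(gQ n) = I Q f / ∫ z : E n, Real.exp (-Q z) := by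
  rw [← Ex_eq]
  rfl

theorem gQ_congr (h : ∀ᵐ x, f x = g x) : ∫ z, f z ∂(gQ n) = ∫ z, g z ∂(gQ n) :=
  integral_congr_ae (gQ_ac.ae_le h)

theorem gQ_mono (hf : PG f) (hg : PG g) (h : ∀ᵐ x, f x ≤ g x) : ∫ z, f z ∂(gQ n) ≤ ∫ z, g z ∂(gQ n) :=
  integral_mono_ae hf.int hg.int (gQ_ac.ae_le h)

/-- locally Lipschitz, polynomial growth together with the first derivatives -/
structure PL (f : E n → ℝ) : Prop where
  ll : LocallyLipschitz f
  g : PG f
  d : ∀ i, PG (pd i f)

theorem ll_ae_diff (hf : LocallyLipschitz f) : ∀ᵐ x, DifferentiableAt ℝ f x := by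
  have h1 : ∀ k : ℕ, ∀ᵐ x, x ∈ ball (0 : E n) k → DifferentiableAt ℝ f x := by
    intro k
    obtain ⟨K, hK⟩ := ll_ball hf k
    have h2 := (hK.mono ball_subset_closedBall).ae_differentiableWithinAt_of_mem (μ := (volume : Measure (E n)))
    filter_upwards [h2] with x hx hxk
    exact (hx hxk).differentiableAt (isOpen_ball.mem_nhds hxk)
  rw [← ae_all_iff] at h1
  filter_upwards [h1] with x hx
  obtain ⟨k, hk⟩ := exists_nat_gt ‖x‖
  exact hx k (by simpa using hk)

theorem PL.diff (hf : PL f) : ∀ᵐ x, DifferentiableAt ℝ f x := ll_ae_diff hf.ll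

theorem pd_meas (f : E n → ℝ) (i : Fin n) : AEStronglyMeasurable (pd i f) volume :=
  (measurable_fderiv_apply_const ℝ f _).aestronglyMeasurable

theorem lip_gr {K : ℝ≥0} (hf : LipschitzWith K f) : Gr f := by
  refine ⟨hf.continuous, |f 0| + K, 1, by positivity, fun x => ?_⟩
  have h1 := hf.dist_le_mul x 0
  rw [Real.dist_eq, dist_zero_right] at h1
  have h2 : |f x| ≤ |f x - f 0| + |f 0| := by
    calc |f x| = |(f x - f 0) + f 0| := by ring_nf
      _ ≤ _ := abs_add_le _ _
  have h3 := norm_nonneg x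
  have h4 := abs_nonneg (f 0)
  have h5 : (0 : ℝ) ≤ K := K.2
  rw [pow_one]
  nlinarith

theorem lip_pd_le {K : ℝ≥0} (hf : LipschitzWith K f) (i : Fin n) (x : E n) : |pd i f x| ≤ K :=
  (abs_pd_le_norm f x i).trans (norm_fderiv_le_of_lipschitz ℝ hf)

theorem PL.of_lip {K : ℝ≥0} (hf : LipschitzWith K f) : PL f :=
  ⟨hf.locallyLipschitz, PG.of_gr (lip_gr hf),
    fun i => PG.of_bound (pd_meas f i) (ae_of_all _ (lip_pd_le hf i))⟩

theorem PL.of_bl (hf : BL f) : PL f := by
  obtain ⟨K, hK⟩ := hf.lipschitz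
  exact PL.of_lip hK

theorem PL.of_c1 (hf : ContDiff ℝ 1 f) (h0 : Gr f) (h1 : ∀ i, Gr (pd i f)) : PL f :=
  ⟨ll_of_contDiff hf, PG.of_gr h0, fun i => PG.of_gr (h1 i)⟩

theorem PL.const (c : ℝ) : PL (fun _ : E n => c) := PL.of_lip (LipschitzWith.const c)

theorem PL.coord (i : Fin n) : PL (fun x : E n => x i) :=
  PL.of_lip (EuclideanSpace.proj i : E n →L[ℝ] ℝ).lipschitz

theorem PL.add (hf : PL f) (hg : PL g) : PL (fun x => f x + g x) := by
  refine ⟨ll_add hf.ll hg.ll, hf.g.add hg.g, fun i => ((hf.d i).add (hg.d i)).congr ?_⟩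
  filter_upwards [hf.diff, hg.diff] with x h1 h2
  rw [rpd_add h1 h2]

theorem PL.sub (hf : PL f) (hg : PL g) : PL (fun x => f x - g x) := by
  refine ⟨ll_sub hf.ll hg.ll, hf.g.sub hg.g, fun i => ((hf.d i).sub (hg.d i)).congr ?_⟩
  filter_upwards [hf.diff, hg.diff] with x h1 h2
  rw [rpd_sub h1 h2]

theorem PL.mul (hf : PL f) (hg : PL g) : PL (fun x => f x * g x) := by
  refine ⟨ll_mul hf.ll hg.ll, hf.g.mul hg.g, fun i => (((hf.d i).mul hg.g).add (hf.g.mul (hg.d i))).congr ?_⟩
  filter_upwards [hf.diff, hg.diff] with x h1 h2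
  rw [rpd_mul h1 h2]

theorem PL.const_mul (hf : PL f) (c : ℝ) : PL (fun x => c * f x) := (PL.const c).mul hf

theorem PL.neg (hf : PL f) : PL (fun x => -f x) := by
  simpa using hf.const_mul (-1)

theorem PL.sum {ι : Type*} (s : Finset ι) {f : ι → E n → ℝ} (hf : ∀ i ∈ s, PL (f i)) :
    PL (fun x => ∑ i ∈ s, f i x) := by
  classical
  induction s using Finset.induction_on with
  | empty => simpa using PL.const (n := n) 0
  | insert a s ha ih =>
    simpa [Finset.sum_insert ha] using (hf a (Finset.mem_insert_self a s)).add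
      (ih fun i hi => hf i (Finset.mem_insert_of_mem hi))

theorem pd_Q (a : Fin n) (x : E n) : pd a Q x = x a := by
  have : (Q : E n → ℝ) = fun x => (1 : ℝ) / 2 * ‖x‖ ^ 2 := by
    funext x; unfold Q; ring
  rw [this, MM.Start102.pd_quad]
  simp

theorem c1_Q : ContDiff ℝ 1 (Q : E n → ℝ) := regQ.C2.of_le (by norm_num)

/-- removing a cut-off -/
theorem cut_lim {F : E n → ℝ} (hF : PG F) {G : Fin n → E n → ℝ} (hG : ∀ b, PG (G b))
    (h0 : ∀ χ : E n → ℝ, LC χ → I Q (fun x => F x * χ x + ∑ b, G b x * pd b χ x) = 0) :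
    ∫ z, F z ∂(gQ n) = 0 := by
  obtain ⟨K, χ, hLC, h01, hlim, hpd⟩ := SN.cutoffs n
  have hχ : ∀ k, PG (χ k) := fun k => PG.of_bound (hLC k).1.continuous.aestronglyMeasurable
    (B := 1) (ae_of_all _ fun x => by rw [abs_of_nonneg (h01 k x).1]; exact (h01 k x).2)
  have hχp : ∀ k b, PG (pd b (χ k)) := fun k b => PG.of_bound (pd_meas _ b) (ae_of_all _ (hpd k b))
  have hH : ∀ k, PG (fun x => F x * χ k x + ∑ b, G b x * pd b (χ k) x) := fun k =>
    (hF.mul (hχ k)).add (PG.sum _ fun b _ => (hG b).mul (hχp k b))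
  have hB : PG (fun x => |F x| + ∑ b, |G b x| * K) :=
    hF.abs.add (PG.sum _ fun b _ => (hG b).abs.mul (PG.const _))
  have l1 : Tendsto (fun k : ℕ => ∫ x, (F x * χ k x + ∑ b, G b x * pd b (χ k) x) ∂(gQ n)) atTop
      (𝓝 (∫ x, F x ∂(gQ n))) := by
    refine tendsto_integral_of_dominated_convergence (fun x => |F x| + ∑ b, |G b x| * K)
      (fun k => (hH k).int.aestronglyMeasurable) hB.int
      (fun k => Eventually.of_forall fun x => ?_) (Eventually.of_forall fun x => ?_)
    · rw [Real.norm_eq_abs]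
      refine (abs_add_le _ _).trans (add_le_add ?_ ?_)
      · rw [abs_mul, abs_of_nonneg (h01 k x).1]
        exact mul_le_of_le_one_right (abs_nonneg _) (h01 k x).2
      · refine (Finset.abs_sum_le_sum_abs _ _).trans (Finset.sum_le_sum fun b _ => ?_)
        rw [abs_mul]
        refine mul_le_mul_of_nonneg_left ((hpd k b x).trans ?_) (abs_nonneg _)
        refine mul_le_of_le_one_right K.2 ?_
        rw [div_le_one (by positivity)]
        have : (0 : ℝ) ≤ k := Nat.cast_nonneg k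
        linarith
    · have h1 := (hlim x).const_mul (F x)
      have h2 : Tendsto (fun k : ℕ => ∑ b, G b x * pd b (χ k) x) atTop (𝓝 (∑ b : Fin n, G b x * 0)) := by
        refine tendsto_finsetSum _ fun b _ => Tendsto.const_mul _ ?_
        have h3 := (tendsto_one_div_add_atTop_nhds_zero_nat (𝕜 := ℝ)).const_mul (K : ℝ)
        rw [mul_zero] at h3
        exact squeeze_zero_norm (fun k => hpd k b x) h3
      simpa using h1.add h2
  have l2 : ∀ k : ℕ, ∫ x, (F x * χ k x + ∑ b, G b x * pd b (χ k) x) ∂(gQ n) = 0 := fun k => by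
    rw [gQ_eq, h0 _ (hLC k), zero_div]
  simp only [l2] at l1
  exact (tendsto_nhds_unique tendsto_const_nhds l1).symm

theorem sum_ite_pd (c : ℝ) (a : Fin n) (χ : E n → ℝ) (x : E n) :
    ∑ b, (if b = a then c else 0) * pd b χ x = c * pd a χ x := by
  simp

/-- Gaussian integration by parts -/
theorem ibp (hf : PL f) (a : Fin n) : ∫ z, pd a f z ∂(gQ n) = ∫ z, z a * f z ∂(gQ n) := by
  have h := cut_lim (F := fun x => pd a f x - x a * f x) ((hf.d a).sub ((PG.coord a).mul hf.g))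
    (G := fun b x => if b = a then f x else 0) (fun b => by
      by_cases hb : b = a
      · simpa [hb] using hf.g
      · simpa [hb] using PG.const (n := n) 0) (fun χ hχ => by
      refine div1 c1_Q (g := fun x => f x * χ x) (LC.mul_left hf.ll hχ) a ?_
      filter_upwards [hf.diff, hχ.ae_diff] with x h1 h2
      rw [sum_ite_pd, rpd_mul h1 h2, pd_Q]
      ring)
  rw [integral_sub (hf.d a).int ((PG.coord a).mul hf.g).int] at h
  linarith

/-- `E[∂_a f g] = E[f (z_a g - ∂_a g)]` -/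
theorem ibp2 (hf : PL f) (hg : PL g) (a : Fin n) :
    ∫ z, pd a f z * g z ∂(gQ n) = ∫ z, f z * (z a * g z - pd a g z) ∂(gQ n) := by
  have h := ibp (hf.mul hg) a
  have h1 : ∫ z, pd a (fun x => f x * g x) z ∂(gQ n)
      = ∫ z, pd a f z * g z ∂(gQ n) + ∫ z, f z * pd a g z ∂(gQ n) := by
    rw [← integral_add ((hf.d a).mul hg.g).int (hf.g.mul (hg.d a)).int]
    refine gQ_congr ?_
    filter_upwards [hf.diff, hg.diff] with x h1 h2
    rw [rpd_mul h1 h2]
  have h2 : ∫ z, f z * (z a * g z - pd a g z) ∂(gQ n)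
      = ∫ z, z a * (f z * g z) ∂(gQ n) - ∫ z, f z * pd a g z ∂(gQ n) := by
    rw [← integral_sub ((PG.coord a).mul (hf.g.mul hg.g)).int (hf.g.mul (hg.d a)).int]
    congr 1
    funext z
    ring
  rw [h2, ← h, h1]
  ring

/-- exchange of mixed derivatives -/
theorem swap {K : ℝ≥0} (hf : LipschitzWith K f) (hg : PL g) (a e : Fin n) :
    ∫ z, pd a f z * (pd e g z - z e * g z) ∂(gQ n) = ∫ z, pd e f z * (pd a g z - z a * g z) ∂(gQ n) := by
  have hf' := PL.of_lip hf
  have p1 : ∀ a e, PG (fun z => pd a f z * (pd e g z - z e * g z)) := fun a e =>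
    (hf'.d a).mul ((hg.d e).sub ((PG.coord e).mul hg.g))
  have h := cut_lim (F := fun z => pd a f z * (pd e g z - z e * g z) - pd e f z * (pd a g z - z a * g z))
    ((p1 a e).sub (p1 e a))
    (G := fun b x => (if b = e then pd a f x * g x else 0) - (if b = a then pd e f x * g x else 0))
    (fun b => by
      refine PG.sub ?_ ?_
      · by_cases hb : b = e
        · simpa [hb] using (hf'.d a).mul hg.g
        · simpa [hb] using PG.const (n := n) 0
      · by_cases hb : b = a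
        · simpa [hb] using (hf'.d e).mul hg.g
        · simpa [hb] using PG.const (n := n) 0) (fun χ hχ => by
      have hc : LC (fun x => g x * χ x) := LC.mul_left hg.ll hχ
      have key := SN.swapL c1_Q hf hc a e
      have ci : ∀ a e, CI (fun x => pd a f x * (pd e (fun x => g x * χ x) x - pd e Q x * (g x * χ x))) :=
        fun a e => CI.mul_left (Bd.pd hf'.ll a) ((CI.pd hc e).sub
          (CI.mul_left (Bd.pd (ll_of_contDiff c1_Q) e) (CI.of_lc hc)))
      rw [← sub_eq_zero, ← I_sub cont_Q (ci a e) (ci e a)] at key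
      refine Eq.trans (I_congr ?_) key
      filter_upwards [hg.diff, hχ.ae_diff] with x h1 h2
      simp only [sub_mul, Finset.sum_sub_distrib, sum_ite_pd]
      rw [rpd_mul h1 h2, rpd_mul h1 h2, pd_Q, pd_Q]
      ring)
  rw [integral_sub (p1 a e).int (p1 e a).int] at h
  linarith

theorem mean_coord (a : Fin n) : ∫ z, z a ∂(gQ n) = 0 := by
  have h := ibp (PL.const (n := n) 1) a
  simp only [rpd_const, mul_one, integral_zero] at h
  exact h.symm

theorem cov_coord (a b : Fin n) : ∫ z, z a * z b ∂(gQ n) = if b = a then 1 else 0 := by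
  rw [← ibp (PL.coord b) a]
  simp only [rpd_coord]
  simp

theorem mean_norm_sq : ∫ z, ‖z‖ ^ 2 ∂(gQ n) = n := by
  simp only [norm_sq_eq_sum]
  simp only [sq]
  rw [integral_finsetSum _ fun i _ => ((PG.coord i).mul (PG.coord i)).int]
  simp [cov_coord]

end Vale.Agent.P254Z.Br
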