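import Vale.Agent.P254Z.Br.BPb

/-! P254, Brenier potential: stability under a linear change of the target. -/

set_option linter.all false

open MeasureTheory Filter Set Matrix
open scoped Topology NNReal

namespace Vale.Agent.P254Z.Br

open Vale.Agent.P227.M Vale.Agent.P254 Vale.Agent.P254.S Vale.Agent.P254.S130 Vale.Agent.P254.SP620

variable {n : ℕ} {φ V : E n → ℝ} {a b M κ c C : ℝ}

/-- Cauchy-Schwarz -/
theorem cs_gQ {f g : E n → ℝ} (hf : PG f) (hg : PG g) :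
    (∫ z, f z * g z ∂(gQ n)) ^ 2 ≤ (∫ z, f z ^ 2 ∂(gQ n)) * ∫ z, g z ^ 2 ∂(gQ n) := by
  have h := discrim_le_zero (a := ∫ z, f z ^ 2 ∂(gQ n)) (b := 2 * ∫ z, f z * g z ∂(gQ n))
    (c := ∫ z, g z ^ 2 ∂(gQ n)) fun t => by
      have h1 : 0 ≤ ∫ z, (t * f z + g z) ^ 2 ∂(gQ n) := integral_nonneg fun z => sq_nonneg _
      have i1 := ((hf.pow 2).const_mul (t * t)).int
      have i2 := ((hf.mul hg).const_mul (2 * t)).int
      have i3 : Integrable (fun z => t * t * f z ^ 2 + 2 * t * (f z * g z)) (gQ n) := i1.add i2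
      have e : (fun z => (t * f z + g z) ^ 2)
          = fun z => (t * t * f z ^ 2 + 2 * t * (f z * g z)) + g z ^ 2 := by
        funext z; ring
      rw [e, integral_add i3 (hg.pow 2).int, integral_add i1 i2, integral_const_mul, integral_const_mul] at h1
      linarith
  unfold discrim at h
  nlinarith

theorem sq_int_le {f : E n → ℝ} (hf : PG f) : (∫ z, f z ∂(gQ n)) ^ 2 ≤ ∫ z, f z ^ 2 ∂(gQ n) := by
  simpa using cs_gQ hf (PG.const 1)

theorem gr_comp {f : E n → ℝ} (hf : Gr f) {g : E n → E n} (hg : Continuous g) {A : ℝ}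
    (hA : ∀ z, ‖g z‖ ≤ A * (1 + ‖z‖)) : Gr (fun z => f (g z)) := by
  obtain ⟨hc, B, k, hB, hb⟩ := hf
  have hA0 : 0 ≤ A := by simpa using (norm_nonneg _).trans (hA 0)
  refine ⟨hc.comp hg, B * (1 + A) ^ k, k, by positivity, fun z => (hb _).trans ?_⟩
  rw [mul_assoc, ← mul_pow]
  refine mul_le_mul_of_nonneg_left (pow_le_pow_left₀ (by positivity) ?_ k) hB
  nlinarith [hA z, norm_nonneg z]

theorem lip_growth {g : E n → E n} {L : ℝ} (hg : ∀ x y, ‖g x - g y‖ ≤ L * ‖x - y‖) (z : E n) :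
    ‖g z‖ ≤ (‖g 0‖ + |L|) * (1 + ‖z‖) := by
  have h1 := hg z 0
  rw [sub_zero] at h1
  have h2 : ‖g z‖ ≤ ‖g z - g 0‖ + ‖g 0‖ := by simpa using norm_add_le (g z - g 0) (g 0)
  have h3 : L * ‖z‖ ≤ |L| * ‖z‖ := mul_le_mul_of_nonneg_right (le_abs_self L) (norm_nonneg _)
  nlinarith [norm_nonneg (g 0), norm_nonneg z, abs_nonneg L, mul_nonneg (norm_nonneg (g 0)) (norm_nonneg z)]

theorem lip_cont {g : E n → E n} {L : ℝ} (hg : ∀ x y, ‖g x - g y‖ ≤ L * ‖x - y‖) : Continuous g :=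
  (LipschitzWith.of_dist_le_mul (K := Real.toNNReal L) fun x y => by
    rw [dist_eq_norm, dist_eq_norm]
    exact (hg x y).trans (mul_le_mul_of_nonneg_right (Real.le_coe_toNNReal L) (norm_nonneg _))).continuous

theorem gr_lip {f : E n → ℝ} (hf : Gr f) {g : E n → E n} {L : ℝ} (hg : ∀ x y, ‖g x - g y‖ ≤ L * ‖x - y‖) :
    Gr (fun z => f (g z)) := gr_comp hf (lip_cont hg) (lip_growth hg)

theorem bp_lo (h : BP φ V a b M κ) (x z : E n) :
    φ x + inner ℝ (gradient φ x) z + a / 2 * ‖z‖ ^ 2 ≤ φ (x + z) := by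
  have := LL.taylor_real (f := fun t : ℝ => φ (x + t • z)) (LL.line_one h.C2 x z) (LL.line_two h.C2 x z)
    (a := a * ‖z‖ ^ 2) fun t => h.lower _ _
  simp only [zero_smul, add_zero, one_smul] at this
  rw [inner_gradient]
  linarith

theorem bp_up (h : BP φ V a b M κ) (x z : E n) :
    φ (x + z) ≤ φ x + inner ℝ (gradient φ x) z + b / 2 * ‖z‖ ^ 2 := by
  have := LL.taylor_real (f := fun t : ℝ => -φ (x + t • z)) (fun t => (LL.line_one h.C2 x z t).neg)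
    (fun t => (LL.line_two h.C2 x z t).neg) (a := -(b * ‖z‖ ^ 2)) fun t => neg_le_neg (h.upper _ _)
  simp only [zero_smul, add_zero, one_smul] at this
  rw [inner_gradient]
  linarith

theorem bp_gr (h : BP φ V a b M κ) : Gr φ := by
  refine ⟨h.C2.continuous, |φ 0| + ‖gradient φ 0‖ + |b|, 2, by positivity, fun z => ?_⟩
  have h1 := bp_lo h 0 z
  have h2 := bp_up h 0 z
  rw [zero_add] at h1 h2
  have h3 := abs_real_inner_le_norm (gradient φ 0) z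
  have h4 := h.a_pos
  have h5 : b / 2 * ‖z‖ ^ 2 ≤ |b| * ‖z‖ ^ 2 := mul_le_mul_of_nonneg_right
    (by linarith [le_abs_self b, abs_nonneg b]) (sq_nonneg _)
  have h6 : 0 ≤ a / 2 * ‖z‖ ^ 2 := by positivity
  have h7 : |φ z| ≤ |φ 0| + ‖gradient φ 0‖ * ‖z‖ + |b| * ‖z‖ ^ 2 := by
    rw [abs_le] at h3 ⊢
    have := le_abs_self (φ 0)
    have := neg_abs_le (φ 0)
    have : 0 ≤ |b| * ‖z‖ ^ 2 := by positivity
    constructor <;> linarith
  refine h7.trans ?_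
  have p1 := norm_nonneg z
  have p2 := norm_nonneg (gradient φ 0)
  have p3 := abs_nonneg (φ 0)
  have p4 := abs_nonneg b
  nlinarith [mul_nonneg p2 p1, mul_nonneg p3 p1, mul_nonneg p4 p1, mul_nonneg p3 (mul_nonneg p1 p1),
    mul_nonneg p2 (mul_nonneg p1 p1), mul_nonneg p4 (mul_nonneg p1 p1)]

theorem bp_pd_lip (h : BP φ V a b M κ) (i : Fin n) (x y : E n) :
    |pd i φ x - pd i φ y| ≤ n * |b| * ‖x - y‖ := by
  have h1 := (bp_lip_T h i).dist_le_mul x y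
  rwa [Real.dist_eq, dist_eq_norm, Real.coe_toNNReal _ (by positivity), abs_abs] at h1

theorem bp_T_lip (h : BP φ V a b M κ) (x y : E n) :
    ‖gradient φ x - gradient φ y‖ ≤ n * (n * |b|) * ‖x - y‖ := by
  refine (norm_le_sum_abs _).trans ?_
  simp only [PiLp.sub_apply, grad_coord]
  refine (Finset.sum_le_sum fun i _ => bp_pd_lip h i x y).trans (le_of_eq ?_)
  simp only [Finset.sum_const, Finset.card_univ, Fintype.card_fin, nsmul_eq_mul]
  ring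

section lin

variable {S S₁ S₂ : E n →L[ℝ] E n} {s : ℝ}

theorem clm_mono (hS : ∀ v, s * ‖v‖ ^ 2 ≤ inner ℝ (S v) v) (x y : E n) :
    s * ‖x - y‖ ^ 2 ≤ inner ℝ (S x - S y) (x - y) := by
  rw [← map_sub]
  exact hS _

theorem clm_low (hs : 0 < s) (hS : ∀ v, s * ‖v‖ ^ 2 ≤ inner ℝ (S v) v) (v : E n) : s * ‖v‖ ≤ ‖S v‖ := by
  simpa using LIM.norm_le_of_mono hs (clm_mono hS) v 0

theorem Ex_clm (hs : 0 < s) (hS : ∀ v, s * ‖v‖ ^ 2 ≤ inner ℝ (S v) v) (f : E n → ℝ) :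
    Ex V f = Ex (fun x => V (S x)) (fun x => f (S x)) := by
  unfold Ex
  have hd := LIM.det_pos_of_coercive hs S hS
  rw [LIM.integral_comp_mul_det hs S.contDiff (clm_mono hS) (fun x => f x * Real.exp (-V x)),
    LIM.integral_comp_mul_det hs S.contDiff (clm_mono hS) (fun x => Real.exp (-V x))]
  simp only [ContinuousLinearMap.fderiv]
  rw [integral_mul_const, integral_mul_const, mul_div_mul_right _ _ hd.ne']

theorem bp_push_clm (hs : 0 < s) (hS : ∀ v, s * ‖v‖ ^ 2 ≤ inner ℝ (S v) v)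
    (h : BP φ (fun x => V (S x)) a b M κ) (f : E n → ℝ) :
    ∫ z, f (S (gradient φ z)) ∂(gQ n) = Ex V f := by
  rw [Ex_clm hs hS, bp_push h]

theorem gr_ST (h : BP φ V a b M κ) (S : E n →L[ℝ] E n) {f : E n → ℝ} (hf : Gr f) :
    Gr (fun z => f (S (gradient φ z))) :=
  bp_gr_comp h (G := fun x => f (S x)) (gr_lip hf (L := ‖S‖) fun x y => by
    rw [← map_sub]; exact S.le_opNorm _)

theorem mom_T (hs : 0 < s) (hS : ∀ v, s * ‖v‖ ^ 2 ≤ inner ℝ (S v) v)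
    (h : BP φ (fun x => V (S x)) a b M κ) :
    ∫ z, ‖gradient φ z‖ ^ 2 ∂(gQ n) ≤ Ex V (fun y => ‖y‖ ^ 2) / s ^ 2 := by
  rw [← bp_push_clm hs hS h, le_div_iff₀ (by positivity), ← integral_mul_const]
  refine gQ_mono ((PG.of_gr (bp_gr_comp h (Gr.norm.pow 2))).mul (PG.const _))
    (PG.of_gr (gr_ST h S (Gr.norm.pow 2))) (ae_of_all _ fun z => ?_)
  have h1 := clm_low hs hS (gradient φ z)
  have h2 := pow_le_pow_left₀ (by positivity) h1 2
  rw [mul_pow] at h2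
  linarith

/-- `L²` stability of the map -/
theorem stab_T {φ₁ φ₂ : E n → ℝ} {κ₁ κ₂ δ : ℝ} (hs : 0 < s)
    (hS₁ : ∀ v, s * ‖v‖ ^ 2 ≤ inner ℝ (S₁ v) v) (hS₂ : ∀ v, s * ‖v‖ ^ 2 ≤ inner ℝ (S₂ v) v)
    (h₁ : BP φ₁ (fun x => V (S₁ x)) a b M κ₁) (h₂ : BP φ₂ (fun x => V (S₂ x)) a b M κ₂)
    (hδ : ∀ v, ‖S₂ v - S₁ v‖ ^ 2 ≤ δ * ‖v‖ ^ 2) (j : Fin n) :
    ∫ z, (pd j φ₁ z - pd j φ₂ z) ^ 2 ∂(gQ n)
      ≤ (2 * (n * |b|) ^ 2 / a ^ 2 + 2) * (δ / s ^ 2 * ∫ z, ‖gradient φ₂ z‖ ^ 2 ∂(gQ n)) := by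
  have ha := h₁.a_pos
  set A : E n → E n := fun z => S₁ (gradient φ₁ z) with hA
  have hAs : Function.Surjective A :=
    (LIM.surjective_of_mono hs S₁.contDiff (clm_mono hS₁)).comp
      (LIM.surjective_of_mono ha (bp_c1 h₁) (bp_mono h₁))
  have hAl : ∀ x y, s * a * ‖x - y‖ ≤ ‖A x - A y‖ := fun x y => by
    have h1 := LIM.norm_le_of_mono ha (bp_mono h₁) x y
    have h2 := clm_low hs hS₁ (gradient φ₁ x - gradient φ₁ y)
    rw [map_sub] at h2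
    calc s * a * ‖x - y‖ = s * (a * ‖x - y‖) := by ring
      _ ≤ s * ‖gradient φ₁ x - gradient φ₁ y‖ := mul_le_mul_of_nonneg_left h1 hs.le
      _ ≤ _ := h2
  obtain ⟨g, hg⟩ := hAs.hasRightInverse
  have hg' : ∀ z, g (A z) = z := fun z => by
    have h1 := hAl (g (A z)) z
    rw [hg, sub_self, norm_zero] at h1
    have h2 : ‖g (A z) - z‖ ≤ 0 := by
      by_contra h3
      push Not at h3
      have := mul_pos (mul_pos hs ha) h3
      linarith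
    exact sub_eq_zero.1 (norm_le_zero_iff.1 h2)
  set w : E n → E n := fun z => g (S₂ (gradient φ₂ z)) with hw
  have hAw : ∀ z, S₁ (gradient φ₁ (w z)) = S₂ (gradient φ₂ z) := fun z => hg _
  have hpres : ∀ f : E n → ℝ, ∫ z, f (w z) ∂(gQ n) = ∫ z, f z ∂(gQ n) := fun f => by
    have h1 := bp_push_clm hs hS₂ h₂ (fun y => f (g y))
    have h2 := bp_push_clm hs hS₁ h₁ (fun y => f (g y))
    have h3 : (fun z => f (g (S₁ (gradient φ₁ z)))) = f := funext fun z => congrArg f (hg' z)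
    rw [h3] at h2
    rw [h2]
    exact h1
  have hwl : ∀ x y, ‖w x - w y‖ ≤ (‖S₂‖ * (n * (n * |b|)) / (s * a)) * ‖x - y‖ := fun x y => by
    have h1 := hAl (w x) (w y)
    simp only [hA, hAw] at h1
    rw [← map_sub] at h1
    have h2 := S₂.le_opNorm (gradient φ₂ x - gradient φ₂ y)
    have h3 := mul_le_mul_of_nonneg_left (bp_T_lip h₂ x y) (norm_nonneg S₂)
    rw [div_mul_eq_mul_div, le_div_iff₀ (by positivity)]
    nlinarith
  set e : E n → ℝ := fun z => δ / s ^ 2 * ‖gradient φ₂ z‖ ^ 2 with he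
  have he1 : ∀ z, ‖gradient φ₁ (w z) - gradient φ₂ z‖ ^ 2 ≤ e z := fun z => by
    have h1 := clm_low hs hS₁ (gradient φ₁ (w z) - gradient φ₂ z)
    rw [map_sub, hAw] at h1
    have h2 := pow_le_pow_left₀ (by positivity) h1 2
    have h3 := hδ (gradient φ₂ z)
    simp only [he]
    rw [div_mul_eq_mul_div, le_div_iff₀ (by positivity)]
    rw [mul_pow] at h2
    linarith
  have pe : PG e := (PG.of_gr (bp_gr_comp h₂ (Gr.norm.pow 2))).const_mul _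
  have gw : Gr (fun z => ‖z - w z‖ ^ 2) :=
    gr_lip (f := fun y => ‖y‖ ^ 2) (Gr.norm.pow 2) (g := fun z => z - w z)
      (L := 1 + ‖S₂‖ * (n * (n * |b|)) / (s * a)) fun x y => by
      have h1 : x - w x - (y - w y) = (x - y) - (w x - w y) := by abel
      rw [h1, add_mul, one_mul]
      exact (norm_sub_le _ _).trans (add_le_add le_rfl (hwl x y))
  have p1 := PG.of_gr (bp_gr h₁)
  have p2 := PG.of_gr (bp_gr h₂)
  have p1w := PG.of_gr (gr_lip (bp_gr h₁) hwl)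
  have p2w := PG.of_gr (gr_lip (bp_gr h₂) hwl)
  have k1 : ∫ z, a ^ 2 * ‖z - w z‖ ^ 2 ∂(gQ n)
      ≤ ∫ z, (2 * a * ((φ₁ z - φ₁ (w z)) + (φ₂ (w z) - φ₂ z)) + e z) ∂(gQ n) := by
    refine gQ_mono ((PG.of_gr gw).const_mul _) ((((p1.sub p1w).add (p2w.sub p2)).const_mul _).add pe)
      (ae_of_all _ fun z => ?_)
    have h1 := bp_lo h₁ (w z) (z - w z)
    have h2 := bp_lo h₂ z (w z - z)
    rw [add_sub_cancel] at h1 h2
    rw [norm_sub_rev (w z) z, ← neg_sub z (w z), inner_neg_right] at h2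
    have h3 := (abs_le.1 (abs_real_inner_le_norm (gradient φ₁ (w z) - gradient φ₂ z) (z - w z))).1
    rw [inner_sub_left] at h3
    have h4 := he1 z
    nlinarith [sq_nonneg (‖gradient φ₁ (w z) - gradient φ₂ z‖ - a * ‖z - w z‖)]
  have i1 : Integrable (fun z => φ₁ z - φ₁ (w z)) (gQ n) := (p1.sub p1w).int
  have i2 : Integrable (fun z => φ₂ (w z) - φ₂ z) (gQ n) := (p2w.sub p2).int
  rw [integral_add (((p1.sub p1w).add (p2w.sub p2)).const_mul _).int pe.int, integral_const_mul,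
    integral_const_mul, integral_add i1 i2, integral_sub p1.int p1w.int, integral_sub p2w.int p2.int,
    hpres φ₁, hpres φ₂] at k1
  have k2 : ∫ z, (pd j φ₁ z - pd j φ₂ z) ^ 2 ∂(gQ n)
      ≤ ∫ z, (2 * (n * |b|) ^ 2 * ‖z - w z‖ ^ 2 + 2 * e z) ∂(gQ n) := by
    refine gQ_mono (((bp_pl_T h₁ j).g.sub (bp_pl_T h₂ j).g).pow 2)
      (((PG.of_gr gw).const_mul _).add (pe.const_mul _)) (ae_of_all _ fun z => ?_)
    have h1 := bp_pd_lip h₁ j z (w z)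
    have h2 := abs_coord_le (gradient φ₁ (w z) - gradient φ₂ z) j
    rw [PiLp.sub_apply, grad_coord, grad_coord] at h2
    have h3 := pow_le_pow_left₀ (abs_nonneg _) h1 2
    have h4 := pow_le_pow_left₀ (abs_nonneg _) h2 2
    rw [sq_abs] at h3 h4
    rw [mul_pow] at h3
    nlinarith [he1 z, sq_nonneg ((pd j φ₁ z - pd j φ₁ (w z)) - (pd j φ₁ (w z) - pd j φ₂ z))]
  rw [integral_add ((PG.of_gr gw).const_mul _).int (pe.const_mul _).int, integral_const_mul,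
    integral_const_mul] at k2
  have k3 : ∫ z, e z ∂(gQ n) = δ / s ^ 2 * ∫ z, ‖gradient φ₂ z‖ ^ 2 ∂(gQ n) := integral_const_mul _ _
  rw [← k3]
  have k4 : ∫ z, ‖z - w z‖ ^ 2 ∂(gQ n) ≤ (∫ z, e z ∂(gQ n)) / a ^ 2 := by
    rw [le_div_iff₀ (by positivity)]
    linarith
  have k5 := mul_le_mul_of_nonneg_left k4 (by positivity : 0 ≤ 2 * (n * |b|) ^ 2)
  calc _ ≤ _ := k2
    _ ≤ 2 * (n * |b|) ^ 2 * ((∫ z, e z ∂(gQ n)) / a ^ 2) + 2 * ∫ z, e z ∂(gQ n) := by linarith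
    _ = _ := by ring

end lin

/-- interpolation: the Hessians are close in `L²` -/
theorem stab_M {φ₁ φ₂ V₁ V₂ : E n → ℝ} {κ₁ κ₂ : ℝ} (h₁ : BP φ₁ V₁ a b M κ₁) (h₂ : BP φ₂ V₂ a b M κ₂)
    (i j : Fin n) :
    (∫ z, (hess φ₁ z i j - hess φ₂ z i j) ^ 2 ∂(gQ n)) ^ 2
      ≤ (∫ z, (pd j φ₁ z - pd j φ₂ z) ^ 2 ∂(gQ n)) * (8 * b ^ 2 + 8 * M ^ 2) := by
  have hd : PL (fun z => pd j φ₁ z - pd j φ₂ z) := (bp_pl_T h₁ j).sub (bp_pl_T h₂ j)
  have hN : PL (fun z => hess φ₁ z i j - hess φ₂ z i j) := (pl_hess h₁ i j).sub (pl_hess h₂ i j)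
  have e1 : ∀ z, pd i (fun z => pd j φ₁ z - pd j φ₂ z) z = hess φ₁ z i j - hess φ₂ z i j := fun z =>
    rpd_sub (rad_pd_diff h₁.C2 j z) (rad_pd_diff h₂.C2 j z)
  have h1 := ibp2 hd hN i
  simp only [e1, ← sq] at h1
  have hg := ((PG.coord i).mul hN.g).sub (hN.d i)
  rw [h1]
  refine (cs_gQ hd.g hg).trans (mul_le_mul_of_nonneg_left ?_ (integral_nonneg fun z => sq_nonneg _))
  have h2 : ∫ z, (8 * b ^ 2 * (z i * z i) + 8 * M ^ 2) ∂(gQ n) = 8 * b ^ 2 + 8 * M ^ 2 := by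
    rw [integral_add (((PG.coord i).mul (PG.coord i)).const_mul _).int (integrable_const _), integral_const_mul,
      cov_coord]
    simp
  rw [← h2]
  refine gQ_mono (hg.pow 2) ((((PG.coord i).mul (PG.coord i)).const_mul _).add (PG.const _))
    (ae_of_all _ fun z => ?_)
  have h3 : |hess φ₁ z i j - hess φ₂ z i j| ≤ 2 * |b| :=
    (abs_sub _ _).trans (by linarith [bp_abs_hess h₁ z i j, bp_abs_hess h₂ z i j])
  have h4 : LipschitzWith (Real.toNNReal (2 * |M|)) (fun z => hess φ₁ z i j - hess φ₂ z i j) :=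
    rad_lipw fun x y => by
      have e : hess φ₁ x i j - hess φ₂ x i j - (hess φ₁ y i j - hess φ₂ y i j)
          = (hess φ₁ x i j - hess φ₁ y i j) - (hess φ₂ x i j - hess φ₂ y i j) := by ring
      rw [e]
      have := mul_le_mul_of_nonneg_right (le_abs_self M) (norm_nonneg (x - y))
      refine (abs_sub _ _).trans ?_
      linarith [h₁.lip i j x y, h₂.lip i j x y]
  have h5 := lip_pd_le h4 i z
  rw [Real.coe_toNNReal _ (by positivity)] at h5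
  have h6 := pow_le_pow_left₀ (abs_nonneg _) h3 2
  have h7 := pow_le_pow_left₀ (abs_nonneg _) h5 2
  rw [sq_abs, mul_pow, sq_abs] at h6 h7
  have h8 := mul_le_mul_of_nonneg_left h6 (sq_nonneg (z i))
  nlinarith [sq_nonneg (z i * (hess φ₁ z i j - hess φ₂ z i j)
    + pd i (fun z => hess φ₁ z i j - hess φ₂ z i j) z)]

/-- functions of the Hessian -/
theorem stab_F {φ₁ φ₂ V₁ V₂ : E n → ℝ} {κ₁ κ₂ : ℝ} (h₁ : BP φ₁ V₁ a b M κ₁) (h₂ : BP φ₂ V₂ a b M κ₂)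
    {F : ℝ → ℝ} {L B : ℝ} (hL0 : 0 ≤ L) (hB0 : 0 ≤ B)
    (hL : ∀ x ∈ Icc a b, ∀ y ∈ Icc a b, |F x - F y| ≤ L * |x - y|) (hB : ∀ x ∈ Icc a b, |F x| ≤ B)
    {D : ℝ} (hD : ∀ j, ∫ z, (pd j φ₁ z - pd j φ₂ z) ^ 2 ∂(gQ n) ≤ D) (i j : Fin n) :
    (∫ z, mf F (hess φ₁ z) i j ∂(gQ n) - ∫ z, mf F (hess φ₂ z) i j ∂(gQ n)) ^ 2
      ≤ L ^ 2 * (n * (n * √(D * (8 * b ^ 2 + 8 * M ^ 2)))) := by
  have p1 := (PL.of_bl (mbl_mf (bp_mbl h₁) (bp_dec h₁) hL0 hB0 hL hB i j)).g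
  have p2 := (PL.of_bl (mbl_mf (bp_mbl h₂) (bp_dec h₂) hL0 hB0 hL hB i j)).g
  have pN : ∀ k l, PG fun z => (hess φ₁ z k l - hess φ₂ z k l) ^ 2 := fun k l =>
    ((pl_hess h₁ k l).g.sub (pl_hess h₂ k l).g).pow 2
  rw [← integral_sub p1.int p2.int]
  refine (sq_int_le (p1.sub p2)).trans ?_
  have h1 : ∫ z, (mf F (hess φ₁ z) i j - mf F (hess φ₂ z) i j) ^ 2 ∂(gQ n)
      ≤ ∫ z, L ^ 2 * ∑ k, ∑ l, (hess φ₁ z k l - hess φ₂ z k l) ^ 2 ∂(gQ n) := by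
    refine gQ_mono ((p1.sub p2).pow 2) ((PG.sum _ fun k _ => PG.sum _ fun l _ => pN k l).const_mul _)
      (ae_of_all _ fun z => ?_)
    obtain ⟨U, m, hd, hm⟩ := bp_dec h₁ z
    obtain ⟨U', m', hd', hm'⟩ := bp_dec h₂ z
    exact (sq_le_fr (mf F (hess φ₁ z) - mf F (hess φ₂ z)) i j).trans
      (mf_lip hd hd' fun k l => hL _ (hm k) _ (hm' l))
  refine h1.trans ?_
  rw [integral_const_mul, integral_finsetSum _ fun k _ => (PG.sum _ fun l _ => pN k l).int]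
  refine mul_le_mul_of_nonneg_left ?_ (sq_nonneg _)
  have h2 : ∀ k, ∫ z, ∑ l, (hess φ₁ z k l - hess φ₂ z k l) ^ 2 ∂(gQ n)
      ≤ n * √(D * (8 * b ^ 2 + 8 * M ^ 2)) := fun k => by
    rw [integral_finsetSum _ fun l _ => (pN k l).int]
    refine (Finset.sum_le_sum fun l _ => Real.le_sqrt_of_sq_le ((stab_M h₁ h₂ k l).trans
      (mul_le_mul_of_nonneg_right (hD l) (by positivity)))).trans (le_of_eq ?_)
    simp
  refine (Finset.sum_le_sum fun k _ => h2 k).trans (le_of_eq ?_)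
  simp

end Vale.Agent.P254Z.Br
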