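import Vale.Agent.P254Z.Br.GaA
import Vale.Agent.P254Z.Br.EX
import Vale.Agent.P251.G.BrDeg

/-! P254, Brenier potential: the gauge `E F (D²φ) = 0` after a linear change of the target. -/

set_option linter.all false

open MeasureTheory Filter Set Matrix
open scoped Topology NNReal

namespace Vale.Agent.P254Z.Br

open Vale.Agent.P227.M Vale.Agent.P254 Vale.Agent.P254.S Vale.Agent.P254.S130 Vale.Agent.P254.SP620
open Vale.Agent.P254.S5.R669 (ML ML_apply)

variable {n : ℕ} {φ V : E n → ℝ} {a b M κ c C : ℝ}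

section clm

variable {S : E n →L[ℝ] E n}

theorem fderiv_clm (hV : Differentiable ℝ V) (x v : E n) :
    fderiv ℝ (fun y => V (S y)) x v = fderiv ℝ V (S x) (S v) := by
  have h := ((hV (S x)).hasFDerivAt.comp x S.hasFDerivAt).fderiv
  exact congrArg (fun L : E n →L[ℝ] ℝ => L v) h

theorem qf_clm (hV : ContDiff ℝ 2 V) (y v : E n) :
    qf (hess (fun x => V (S x)) y) v = qf (hess V (S y)) (S v) := by
  have h1 := LL.line_two (f := fun x => V (S x)) (hV.comp S.contDiff) y v 0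
  have h2 := LL.line_two hV (S y) (S v) 0
  simp only [fderiv_clm (hV.differentiable (by norm_num)), map_add, map_smul] at h1
  simpa using h1.unique h2

theorem reg_clm (hV : Reg V c C) (hC : 0 ≤ C) {s t : ℝ} (hs : 0 < s) (h1 : ∀ v, s * ‖v‖ ≤ ‖S v‖)
    (h2 : ∀ v, ‖S v‖ ^ 2 ≤ t * ‖v‖ ^ 2) : Reg (fun x => V (S x)) (c * s ^ 2) (C * t) := by
  have hc := hV.c_pos
  refine ⟨by positivity, hV.smooth.comp S.contDiff, fun y v => ?_, fun y v => ?_, fun k hk => ?_⟩
  · rw [qf_clm hV.C2]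
    refine le_trans ?_ (hV.lower _ _)
    rw [mul_assoc, ← mul_pow]
    exact mul_le_mul_of_nonneg_left (pow_le_pow_left₀ (by positivity) (h1 v) 2) hc.le
  · rw [qf_clm hV.C2, mul_assoc]
    exact (hV.upper _ _).trans (mul_le_mul_of_nonneg_left (h2 v) hC)
  · obtain ⟨B, hB⟩ := hV.bdd k hk
    refine ⟨‖S‖ ^ k * B, fun y => ?_⟩
    have e1 : iteratedFDeriv ℝ k (fun y => V (S y)) y
        = (iteratedFDeriv ℝ k V (S y)).compContinuousLinearMap fun _ => S :=
      S.iteratedFDeriv_comp_right hV.smooth y (by exact_mod_cast le_top)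
    rw [e1]
    refine (ContinuousMultilinearMap.norm_compContinuousLinearMap_le _ _).trans ?_
    rw [Finset.prod_const, Finset.card_univ, Fintype.card_fin, mul_comm]
    exact mul_le_mul_of_nonneg_left (hB _) (by positivity)

theorem sc_clm {m : ℝ} (hV : SelfConc m V) : SelfConc m (fun x => V (S x)) := fun x v => by
  simp only [map_add, map_smul]
  exact hV _ _

theorem inner_sum' (u z : E n) : inner ℝ u z = ∑ i, u i * z i := by
  simp [PiLp.inner_apply, mul_comm]

theorem pl_inner (u : E n) : PL (fun z : E n => ∑ i, u i * z i) :=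
  PL.sum _ fun i _ => (PL.coord i).const_mul _

theorem pd_inner (u z : E n) (p : Fin n) : pd p (fun z : E n => ∑ i, u i * z i) z = u p := by
  have h : (fun z : E n => ∑ i, u i * z i) = (innerSL ℝ u : E n →L[ℝ] ℝ) := funext fun z => (inner_sum' u z).symm
  unfold pd
  rw [h, ContinuousLinearMap.fderiv]
  exact inner_ei u p

theorem sq_inner_le {u : E n} (hu : ‖u‖ ^ 2 = 1) (p : Fin n → ℝ) : (∑ i, u i * p i) ^ 2 ≤ ∑ i, p i ^ 2 := by
  have h := Finset.sum_mul_sq_le_sq_mul_sq Finset.univ (fun i => u i) p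
  rwa [← norm_sq_eq_sum, hu, one_mul] at h

theorem int_qf {W : E n → Matrix (Fin n) (Fin n) ℝ} (hW : ∀ i j, PG fun z => W z i j) (u : E n) :
    ∫ z, qf (W z) u ∂(gQ n) = ∑ i, ∑ j, (∫ z, W z i j ∂(gQ n)) * u i * u j := by
  unfold qf
  rw [integral_finsetSum _ fun i _ => (PG.sum _ fun j _ => ((hW i j).mul (PG.const _)).mul (PG.const _)).int]
  refine Finset.sum_congr rfl fun i _ => ?_
  rw [integral_finsetSum _ fun j _ => (((hW i j).mul (PG.const _)).mul (PG.const _)).int]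
  refine Finset.sum_congr rfl fun j _ => ?_
  rw [integral_mul_const, integral_mul_const]

theorem pg_qf {W : E n → Matrix (Fin n) (Fin n) ℝ} (hW : ∀ i j, PG fun z => W z i j) (u : E n) :
    PG fun z => qf (W z) u :=
  PG.sum _ fun i _ => PG.sum _ fun j _ => ((hW i j).mul (PG.const _)).mul (PG.const _)

theorem half_bound {u : E n} (hu : ‖u‖ ^ 2 = 1) {p : Fin n → E n → ℝ} (hp : ∀ i, PG (p i)) :
    ∫ z, (∑ i, u i * z i) * ∑ i, u i * p i z ∂(gQ n) ≤ (n + ∫ z, ∑ i, p i z ^ 2 ∂(gQ n)) / 2 := by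
  have g1 := PG.of_gr ((Gr.norm (n := n)).pow 2)
  have g2 : PG fun z => ∑ i, p i z ^ 2 := PG.sum _ fun i _ => (hp i).pow 2
  rw [← mean_norm_sq, ← integral_add g1.int g2.int, ← integral_div]
  refine gQ_mono ((pl_inner u).g.mul (PG.sum _ fun i _ => (hp i).const_mul _))
    (((g1.add g2).const_mul (1 / 2)).congr (ae_of_all _ fun z => by ring)) (ae_of_all _ fun z => ?_)
  have h1 := sq_inner_le hu (fun i => z i)
  have h2 := sq_inner_le hu (fun i => p i z)
  rw [← norm_sq_eq_sum] at h1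
  nlinarith [sq_nonneg ((∑ i, u i * z i) - ∑ i, u i * p i z)]

theorem bd_M {s e : ℝ} (hs : 0 < s) (hS : ∀ v, s * ‖v‖ ^ 2 ≤ inner ℝ (S v) v)
    (h : BP φ (fun x => V (S x)) a b M κ) {u : E n} (hu : ‖u‖ ^ 2 = 1)
    (he : ∀ y, ∑ i, u i * S y i = e * ∑ i, u i * y i) :
    e * ∫ z, qf (hess φ z) u ∂(gQ n) ≤ (n + Ex V (fun y => ‖y‖ ^ 2)) / 2 := by
  have gT : ∀ i, PG fun z => S (gradient φ z) i := fun i => PG.of_gr (gr_ST h S (Gr.coord i))
  have h1 := half_bound hu gT
  simp only [← norm_sq_eq_sum] at h1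
  rw [bp_push_clm hs hS h (fun y => ‖y‖ ^ 2)] at h1
  refine le_trans (le_of_eq ?_) h1
  have h2 : ∀ i j, ∫ z, hess φ z i j ∂(gQ n) = ∫ z, z i * pd j φ z ∂(gQ n) := fun i j => ibp (bp_pl_T h j) i
  have h3 := int_qf (W := fun z => of fun i j => z i * pd j φ z)
    (fun i j => (PG.coord i).mul (bp_pl_T h j).g) u
  rw [int_qf (fun i j => (pl_hess h i j).g)]
  simp only [h2]
  simp only [of_apply] at h3
  rw [← h3, ← integral_const_mul]
  congr 1
  funext z
  rw [he]
  simp only [qf, of_apply, grad_coord, Finset.mul_sum, Finset.sum_mul]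
  rw [Finset.sum_comm]
  exact Finset.sum_congr rfl fun i _ => Finset.sum_congr rfl fun j _ => by ring

theorem bd_tau {s e c' C' : ℝ} (hV : Reg V c C) (hV' : Reg (fun x => V (S x)) c' C') (hs : 0 < s)
    (hS : ∀ v, s * ‖v‖ ^ 2 ≤ inner ℝ (S v) v) (h : BP φ (fun x => V (S x)) a b M κ) {u : E n}
    (hu : ‖u‖ ^ 2 = 1) (he0 : 0 ≤ e) (he : S u = e • u) :
    ∫ z, qf (tau φ z) u ∂(gQ n) ≤ e * ((n + Ex V (fun y => ∑ i, pd i V y ^ 2)) / 2) := by
  have gT : ∀ i, PG fun z => pd i V (S (gradient φ z)) := fun i => PG.of_gr (gr_ST h S (hV.gr_pd i))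
  have h1 := half_bound hu gT
  rw [bp_push_clm hs hS h (fun y => ∑ i, pd i V y ^ 2)] at h1
  refine le_trans (le_of_eq ?_) (mul_le_mul_of_nonneg_left h1 he0)
  have h2 := fun k => bp_stein hV' h (pl_inner u) k
  simp only [pd_inner] at h2
  have g1 : ∀ k, PG fun z => ∑ p, tau φ z p k * u p := fun k =>
    PG.sum _ fun p _ => (pl_tau h p k).g.mul (PG.const _)
  have g2 : ∀ k, PG fun z => (∑ i, u i * z i) * VT (fun x => V (S x)) φ k z := fun k =>
    (pl_inner u).g.mul (pl_VT hV' h k).g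
  have h3 : ∫ z, qf (tau φ z) u ∂(gQ n) = ∑ k, u k * ∫ z, ∑ p, tau φ z p k * u p ∂(gQ n) := by
    simp only [← integral_const_mul]
    rw [← integral_finsetSum _ fun k _ => ((g1 k).const_mul _).int]
    congr 1
    funext z
    simp only [qf, Finset.mul_sum]
    rw [Finset.sum_comm]
    exact Finset.sum_congr rfl fun i _ => Finset.sum_congr rfl fun j _ => by ring
  rw [h3]
  simp only [← h2, ← integral_const_mul]
  rw [← integral_finsetSum _ fun k _ => ((g2 k).const_mul _).int]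
  congr 1
  funext z
  have h4 := fderiv_clm (S := S) (hV.C2.differentiable (by norm_num)) (gradient φ z) u
  rw [he, map_smul, smul_eq_mul, fderiv_eq_sum, fderiv_eq_sum] at h4
  rw [mul_left_comm, ← h4, Finset.mul_sum]
  exact Finset.sum_congr rfl fun k _ => by unfold VT; ring

end clm

section alg

variable {A U : Matrix (Fin n) (Fin n) ℝ} {m : Fin n → ℝ}

theorem qf_dec (h : Dec A U m) (v : E n) : qf A v = ∑ k, m k * (∑ i, U i k * v i) ^ 2 := by
  rw [h.eq]
  simp only [qf, conj_entry, Finset.sum_mul, sq, Finset.mul_sum]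
  calc _ = ∑ i, ∑ k, ∑ j, U i k * m k * U j k * v i * v j := by
        refine Finset.sum_congr rfl fun i _ => ?_
        rw [Finset.sum_comm]
        refine Finset.sum_congr rfl fun k _ => Finset.sum_congr rfl fun j _ => ?_
        rw [Finset.sum_eq_single k (fun l _ hl => by simp [diagonal_apply_ne _ hl.symm]) (by simp),
          diagonal_apply_eq]
    _ = _ := by
        rw [Finset.sum_comm]
        refine Finset.sum_congr rfl fun k _ => ?_
        rw [Finset.sum_comm]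
        exact Finset.sum_congr rfl fun i _ => Finset.sum_congr rfl fun j _ => by ring

theorem qf_one (v : E n) : qf 1 v = ‖v‖ ^ 2 := by
  rw [norm_sq_eq_sum]
  simp [qf, one_apply, sq]

theorem qf_mf (h : Dec A U m) (F : ℝ → ℝ) (v : E n) :
    qf (mf F A) v = ∑ k, F (m k) * (∑ i, U i k * v i) ^ 2 := qf_dec (h.dec_mf F) v

theorem dec_norm (h : Dec A U m) (v : E n) : ∑ k, (∑ i, U i k * v i) ^ 2 = ‖v‖ ^ 2 := by
  have h1 := qf_mf h (fun _ => 1) v
  rw [h.mf_const, one_smul, qf_one] at h1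
  simpa using h1.symm

theorem dec_inv (h : Dec A U m) (hm : ∀ i, m i ≠ 0) : Dec A⁻¹ U (fun i => (m i)⁻¹) := by
  have h1 : mf (fun x => x⁻¹) A * A = 1 := by
    conv_lhs => rw [← h.mf_id]
    rw [h.mf_comp, h.mf_mul, h.mf_eq, ← h.orth']
    have : (fun i => (m i)⁻¹ * m i) = fun _ => (1 : ℝ) := funext fun i => inv_mul_cancel₀ (hm i)
    rw [this, diagonal_one, Matrix.mul_one]
  rw [Matrix.inv_eq_left_inv h1]
  exact h.dec_mf _

theorem inner_ML (A : Matrix (Fin n) (Fin n) ℝ) (v : E n) : inner ℝ (ML A v) v = qf A v := by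
  rw [inner_sum', qf]
  refine Finset.sum_congr rfl fun i _ => ?_
  simp only [ML_apply, mulVec, dotProduct, Finset.sum_mul]
  exact Finset.sum_congr rfl fun j _ => by ring

theorem norm_ML (A : Matrix (Fin n) (Fin n) ℝ) (v : E n) : ‖ML A v‖ ^ 2 ≤ fr A * ‖v‖ ^ 2 := by
  rw [norm_sq_eq_sum, norm_sq_eq_sum, fr, Finset.sum_mul]
  exact Finset.sum_le_sum fun i _ => Finset.sum_mul_sq_le_sq_mul_sq Finset.univ (fun j => A i j) (fun j => v j)

theorem fr_dec (h : Dec A U m) : fr A = ∑ k, m k ^ 2 := by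
  rw [fr_eq, h.symm]
  conv_lhs => rw [← h.mf_id]
  rw [h.mf_mul, h.mf_trace]
  simp [sq]

theorem pair_dec (h : Dec A U m) (G : Matrix (Fin n) (Fin n) ℝ) :
    ∑ i, ∑ j, G i j * A i j = ∑ k, m k * qf G (WithLp.toLp 2 fun i => U i k) := by
  rw [h.eq]
  simp only [qf, conj_entry, Finset.mul_sum]
  calc _ = ∑ i, ∑ k, ∑ j, G i j * (U i k * m k * U j k) := by
        refine Finset.sum_congr rfl fun i _ => ?_
        rw [Finset.sum_comm]
        refine Finset.sum_congr rfl fun k _ => Finset.sum_congr rfl fun j _ => ?_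
        rw [Finset.sum_eq_single k (fun l _ hl => by simp [diagonal_apply_ne _ hl.symm]) (by simp),
          diagonal_apply_eq]
    _ = _ := by
        rw [Finset.sum_comm]
        exact Finset.sum_congr rfl fun k _ => Finset.sum_congr rfl fun i _ =>
          Finset.sum_congr rfl fun j _ => by ring

theorem ML_col (h : Dec A U m) (k : Fin n) :
    ML A (WithLp.toLp 2 fun i => U i k) = m k • (WithLp.toLp 2 fun i => U i k : E n) := by
  have h1 : A * U = U * diagonal m := by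
    rw [h.eq, Matrix.mul_assoc, h.orth, Matrix.mul_one]
  ext i
  have h2 := congrFun (congrFun h1 i) k
  rw [mul_diagonal, Matrix.mul_apply] at h2
  simp only [ML_apply, mulVec, dotProduct, PiLp.smul_apply, smul_eq_mul]
  rw [h2, mul_comm]

theorem ML_row (h : Dec A U m) (k : Fin n) (y : E n) :
    ∑ i, U i k * ML A y i = m k * ∑ i, U i k * y i := by
  have h1 := fun j => congrArg (fun v : E n => v j) (ML_col h k)
  simp only [ML_apply, mulVec, dotProduct, PiLp.smul_apply, smul_eq_mul] at h1 ⊢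
  simp only [Finset.mul_sum]
  rw [Finset.sum_comm]
  refine Finset.sum_congr rfl fun j _ => ?_
  rw [← mul_assoc, ← h1, Finset.sum_mul]
  refine Finset.sum_congr rfl fun i _ => ?_
  have := congrFun (congrFun h.symm j) i
  rw [transpose_apply] at this
  rw [this]
  ring

end alg

/-- acute angle theorem -/
theorem acute {N : ℕ} {g : (Fin N → ℝ) → Fin N → ℝ} {R : ℝ} (hR : 0 < R)
    (hc : ContinuousOn g (Metric.closedBall 0 R)) (h : ∀ x, ‖x‖ = R → 0 < ∑ i, g x i * x i) :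
    ∃ x ∈ Metric.closedBall 0 R, g x = 0 := by
  by_contra hne
  have hcl : closure (Metric.ball (0 : Fin N → ℝ) R) = Metric.closedBall 0 R := closure_ball 0 hR.ne'
  have h0 := P251.G.degR_empty_zero Metric.isBounded_ball Metric.isOpen_ball (f := g) (hcl ▸ hc)
    fun x hx h => hne ⟨x, hcl ▸ hx, h⟩
  have h1 := P251.G.degR_id_sub (n := N) Metric.isBounded_ball Metric.isOpen_ball (y := 0)
    (Metric.mem_ball_self hR)
  have h2 := P251.G.degR_homotopy Metric.isOpen_ball Metric.isBounded_ball (f₀ := fun x => x - 0)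
    (f₁ := g) (by fun_prop) (hcl ▸ hc) fun x hx t ht h3 => by
      rw [frontier_ball 0 hR.ne', mem_sphere_zero_iff_norm] at hx
      have h4 := h x hx
      have h5 : 0 < ∑ i, x i * x i := by
        obtain ⟨i, hi⟩ : ∃ i, x i ≠ 0 := by
          by_contra h6
          push Not at h6
          rw [show x = 0 from funext h6, norm_zero] at hx
          exact hR.ne hx
        exact Finset.sum_pos' (fun j _ => mul_self_nonneg _) ⟨i, Finset.mem_univ _, mul_self_pos.2 hi⟩
      have h6 : (1 - t) * ∑ i, x i * x i + t * ∑ i, g x i * x i = 0 := by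
        rw [Finset.mul_sum, Finset.mul_sum, ← Finset.sum_add_distrib]
        refine Finset.sum_eq_zero fun i _ => ?_
        have h7 := congrFun h3 i
        simp only [Pi.add_apply, Pi.smul_apply, sub_zero, smul_eq_mul, Pi.zero_apply] at h7
        calc _ = ((1 - t) * x i + t * g x i) * x i := by ring
          _ = 0 := by rw [h7, zero_mul]
      rcases eq_or_lt_of_le ht.1 with h7 | h7
      · rw [← h7] at h6; linarith
      · nlinarith [mul_pos h7 h4, mul_nonneg (sub_nonneg.2 ht.2) h5.le]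
  rw [h0, h1] at h2
  exact one_ne_zero h2

theorem acuteM {G : Matrix (Fin n) (Fin n) ℝ → Matrix (Fin n) (Fin n) ℝ} {R : ℝ} (hR : 0 < R)
    (hc : ∀ i j, ContinuousOn (fun X => G X i j) {X | ∀ i j, |X i j| ≤ R})
    (h : ∀ X : Matrix (Fin n) (Fin n) ℝ, (∀ i j, |X i j| ≤ R) → R ^ 2 ≤ fr X → 0 < ∑ i, ∑ j, G X i j * X i j) :
    ∃ X : Matrix (Fin n) (Fin n) ℝ, (∀ i j, |X i j| ≤ R) ∧ G X = 0 := by
  set e : Fin n × Fin n ≃ Fin (n * n) := finProdFinEquiv with he
  set Y : (Fin (n * n) → ℝ) → Matrix (Fin n) (Fin n) ℝ := fun v => of fun i j => v (e (i, j)) with hY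
  have hYc : Continuous Y := continuous_pi fun i => continuous_pi fun j => continuous_apply _
  have hYb : ∀ v ∈ Metric.closedBall (0 : Fin (n * n) → ℝ) R, ∀ i j, |Y v i j| ≤ R := fun v hv i j =>
    (norm_le_pi_norm v _).trans (mem_closedBall_zero_iff.1 hv)
  obtain ⟨v, hv, h0⟩ := acute (g := fun v k => G (Y v) (e.symm k).1 (e.symm k).2) hR
    (continuousOn_pi.2 fun k => (hc _ _).comp hYc.continuousOn hYb) fun v hv => by
      have h1 := h (Y v) (hYb v (mem_closedBall_zero_iff.2 hv.le)) (by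
        obtain ⟨k, hk⟩ : ∃ k, R ≤ |v k| := by
          by_contra h2
          push Not at h2
          exact ((pi_norm_lt_iff hR).2 h2).ne hv
        have h3 := sq_le_fr (Y v) (e.symm k).1 (e.symm k).2
        simp only [hY, of_apply, Prod.mk.eta, Equiv.apply_symm_apply] at h3
        exact (pow_le_pow_left₀ hR.le hk 2).trans ((sq_abs _).trans_le h3))
      rw [← Finset.sum_product', Finset.univ_product_univ, ← e.symm.sum_comp] at h1
      simpa [hY] using h1
  refine ⟨Y v, hYb v hv, ?_⟩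
  ext i j
  simpa using congrFun h0 (e (i, j))

theorem tau_dec (h : BP φ V a b M κ) {z : E n} {U : Matrix (Fin n) (Fin n) ℝ} {m : Fin n → ℝ}
    (hd : Dec (hess φ z) U m) : Dec (tau φ z) U fun i => (m i)⁻¹ :=
  dec_inv hd fun i => (h.a_pos.trans_le (bp_mem h hd i).1).ne'

/-- one eigendirection of the boundary condition -/
theorem bd_dir {S U : Matrix (Fin n) (Fin n) ℝ} {x : Fin n → ℝ} {s c' C' α l K : ℝ} {F F' : ℝ → ℝ}
    (hV : Reg V c C) (hV' : Reg (fun y => V (ML S y)) c' C') (hs : 0 < s)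
    (hS : ∀ v, s * ‖v‖ ^ 2 ≤ inner ℝ (ML S v) v) (hd : Dec S U fun k => Real.exp (x k))
    (h : BP φ (fun y => V (ML S y)) a b M κ) (hF : ∀ m, 0 < m → HasDerivAt F (F' m) m)
    (hF' : ContinuousOn F' (Ioi 0)) (hl : 0 ≤ l) (h1 : ∀ m, 0 < m → α - l * m⁻¹ ≤ F m)
    (h2 : ∀ m, 0 < m → F m ≤ -α + l * m) (hK0 : 0 ≤ K) (hK1 : (n + Ex V (fun y => ‖y‖ ^ 2)) / 2 ≤ K)
    (hK2 : (n + Ex V (fun y => ∑ i, pd i V y ^ 2)) / 2 ≤ K) (k : Fin n) :
    x k * qf (of fun i j => ∫ z, mf F (hess φ z) i j ∂(gQ n)) (WithLp.toLp 2 fun i => U i k)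
      ≤ -α * |x k| + l * K := by
  set u : E n := WithLp.toLp 2 fun i => U i k with hu
  have hu1 : ‖u‖ ^ 2 = 1 := (qf_col hd k).2
  have pF : ∀ i j, PG fun z => mf F (hess φ z) i j := fun i j =>
    (PL.of_bl (bp_mbl_mf h (fun t ht => (hF t (h.a_pos.trans_le ht.1)).hasDerivWithinAt)
      (hF'.mono fun t ht => h.a_pos.trans_le ht.1) i j)).g
  have pM := pg_qf (fun i j => (pl_hess h i j).g) u
  have pT := pg_qf (fun i j => (pl_tau h i j).g) u
  have e1 : qf (of fun i j => ∫ z, mf F (hess φ z) i j ∂(gQ n)) u = ∫ z, qf (mf F (hess φ z)) u ∂(gQ n) :=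
    (int_qf pF u).symm
  rw [e1]
  have hx := Real.add_one_le_exp (x k)
  have hx' := Real.add_one_le_exp (-x k)
  have hex := Real.exp_pos (x k)
  rcases le_total 0 (x k) with h0 | h0
  · have h3 := (bd_M hs hS h hu1 (ML_row hd k)).trans hK1
    have h4 : ∫ z, qf (mf F (hess φ z)) u ∂(gQ n) ≤ ∫ z, (-α + l * qf (hess φ z) u) ∂(gQ n) := by
      refine gQ_mono (pg_qf pF u) ((PG.const _).add (pM.const_mul _)) (ae_of_all _ fun z => ?_)
      obtain ⟨W, m, hm, hm'⟩ := bp_dec h z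
      rw [qf_mf hm, qf_dec hm, ← mul_one (-α), ← hu1, ← dec_norm hm u, Finset.mul_sum, Finset.mul_sum,
        ← Finset.sum_add_distrib]
      refine Finset.sum_le_sum fun i _ => ?_
      rw [← mul_assoc, ← add_mul]
      exact mul_le_mul_of_nonneg_right (h2 _ (h.a_pos.trans_le (hm' i).1)) (sq_nonneg _)
    rw [integral_add (integrable_const _) (pM.const_mul _).int, integral_const_mul] at h4
    simp only [integral_const, probReal_univ, smul_eq_mul, one_mul] at h4
    have h5 : 0 ≤ ∫ z, qf (hess φ z) u ∂(gQ n) :=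
      integral_nonneg fun z => le_trans (by have := h.a_pos; positivity) (h.lower z u)
    have h6 : x k * ∫ z, qf (hess φ z) u ∂(gQ n) ≤ K := by nlinarith
    rw [abs_of_nonneg h0]
    nlinarith [mul_le_mul_of_nonneg_left h4 h0, mul_le_mul_of_nonneg_left h6 hl]
  · have h3 := (bd_tau hV hV' hs hS h hu1 hex.le (ML_col hd k)).trans (mul_le_mul_of_nonneg_left hK2 hex.le)
    have h4 : ∫ z, (α - l * qf (tau φ z) u) ∂(gQ n) ≤ ∫ z, qf (mf F (hess φ z)) u ∂(gQ n) := by
      refine gQ_mono ((PG.const _).sub (pT.const_mul _)) (pg_qf pF u) (ae_of_all _ fun z => ?_)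
      obtain ⟨W, m, hm, hm'⟩ := bp_dec h z
      rw [qf_mf hm, qf_dec (tau_dec h hm), ← mul_one α, ← hu1, ← dec_norm hm u, Finset.mul_sum, Finset.mul_sum,
        ← Finset.sum_sub_distrib]
      refine Finset.sum_le_sum fun i _ => ?_
      rw [← mul_assoc, ← sub_mul]
      exact mul_le_mul_of_nonneg_right (h1 _ (h.a_pos.trans_le (hm' i).1)) (sq_nonneg _)
    rw [integral_sub (integrable_const _) (pT.const_mul _).int, integral_const_mul] at h4
    simp only [integral_const, probReal_univ, smul_eq_mul, one_mul] at h4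
    have h5 : -x k * Real.exp (x k) ≤ 1 := by
      have h6 : Real.exp (-x k) * Real.exp (x k) = 1 := by rw [← Real.exp_add]; simp
      nlinarith
    have h6 : -x k * ∫ z, qf (tau φ z) u ∂(gQ n) ≤ K := by
      nlinarith [mul_le_mul_of_nonneg_left h3 (neg_nonneg.2 h0), mul_le_mul_of_nonneg_right h5 hK0]
    rw [abs_of_nonpos h0]
    nlinarith [mul_le_mul_of_nonneg_left h4 (neg_nonneg.2 h0), mul_le_mul_of_nonneg_left h6 hl]

/-- symmetric part -/
noncomputable def sy (X : Matrix (Fin n) (Fin n) ℝ) : Matrix (Fin n) (Fin n) ℝ :=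
  of fun i j => (X i j + X j i) / 2

theorem sy_dec {X : Matrix (Fin n) (Fin n) ℝ} {R : ℝ} (hR : 0 ≤ R) (hX : ∀ i j, |X i j| ≤ R) :
    ∃ U x, Dec (sy X) U x ∧ ∀ k, x k ∈ Icc (-(n * R)) (n * R) := by
  obtain ⟨U, x, hd⟩ := exists_dec (A := sy X) (by ext i j; simp [sy, add_comm])
  refine ⟨U, x, hd, fun k => abs_le.1 (abs_le_of_sq_le_sq ?_ (by positivity))⟩
  have h1 := fr_le (X := sy X) (B := R) fun i j => by
    have h2 := abs_le.1 (hX i j)
    have h3 := abs_le.1 (hX j i)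
    rw [sy, of_apply, abs_le]
    constructor <;> linarith [h2.1, h2.2, h3.1, h3.2]
  rw [fr_dec hd, Fintype.card_fin] at h1
  exact (Finset.single_le_sum (f := fun k => x k ^ 2) (fun _ _ => sq_nonneg _) (Finset.mem_univ k)).trans h1

/-- **the gauge**: after a positive definite linear change of the target, `E F (D²φ) = 0` -/
theorem gauge (hn : 0 < n) (hV : Reg V c C) {F F' : ℝ → ℝ} (hF : ∀ m, 0 < m → HasDerivAt F (F' m) m)
    (hF' : ContinuousOn F' (Ioi 0)) {α l : ℝ} (hα : 0 < α) (hl : 0 ≤ l)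
    (h1 : ∀ m, 0 < m → α - l * m⁻¹ ≤ F m) (h2 : ∀ m, 0 < m → F m ≤ -α + l * m) :
    ∃ (S : Matrix (Fin n) (Fin n) ℝ) (s c' C' : ℝ) (φ : E n → ℝ) (a b M κ : ℝ), Sᵀ = S ∧ 0 < s ∧
      (∀ v, s * ‖v‖ ^ 2 ≤ inner ℝ (ML S v) v) ∧ Reg (fun x => V (ML S x)) c' C' ∧
      BP φ (fun x => V (ML S x)) a b M κ ∧ ∀ i j, ∫ z, mf F (hess φ z) i j ∂(gQ n) = 0 := by
  obtain ⟨MV, hMV, hVs⟩ := LK.Reg.exists_selfConc hV
  have hC : 0 ≤ C := hV.c_pos.le.trans (MM.nice_le hn hV)
  set K := |(n + Ex V (fun y => ‖y‖ ^ 2)) / 2| + |(n + Ex V (fun y => ∑ i, pd i V y ^ 2)) / 2| with hK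
  have hK0 : 0 ≤ K := by positivity
  have hK1 : (n + Ex V (fun y => ‖y‖ ^ 2)) / 2 ≤ K := (le_abs_self _).trans (le_add_of_nonneg_right (abs_nonneg _))
  have hK2 : (n + Ex V (fun y => ∑ i, pd i V y ^ 2)) / 2 ≤ K :=
    (le_abs_self _).trans (le_add_of_nonneg_left (abs_nonneg _))
  set D := n * (l * K) with hD
  have hD0 : 0 ≤ D := by positivity
  set R := D / α + D + 1 with hR
  have hR0 : 0 < R := by positivity
  set s := Real.exp (-(n * R)) with hs
  have hs0 : 0 < s := Real.exp_pos _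
  set S : Matrix (Fin n) (Fin n) ℝ → Matrix (Fin n) (Fin n) ℝ := fun X => mf Real.exp (sy X) with hS
  have hco : ∀ X : Matrix (Fin n) (Fin n) ℝ, (∀ i j, |X i j| ≤ R) → ∀ v, s * ‖v‖ ^ 2 ≤ inner ℝ (ML (S X) v) v :=
    fun X hX v => by
    obtain ⟨U, x, hd, hx⟩ := sy_dec hR0.le hX
    rw [inner_ML, qf_mf hd, ← dec_norm hd v, Finset.mul_sum]
    exact Finset.sum_le_sum fun k _ => mul_le_mul_of_nonneg_right (Real.exp_le_exp.2 (hx k).1) (sq_nonneg _)
  have hreg : ∀ X : Matrix (Fin n) (Fin n) ℝ, (∀ i j, |X i j| ≤ R) →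
      Reg (fun y => V (ML (S X) y)) (c * s ^ 2) (C * (n * Real.exp (n * R) ^ 2)) := fun X hX => by
    obtain ⟨U, x, hd, hx⟩ := sy_dec hR0.le hX
    refine reg_clm hV hC hs0 (clm_low hs0 (hco X hX)) fun v => (norm_ML _ v).trans
      (mul_le_mul_of_nonneg_right ?_ (sq_nonneg _))
    rw [fr_dec (hd.dec_mf Real.exp)]
    refine (Finset.sum_le_sum fun k _ => pow_le_pow_left₀ (Real.exp_pos _).le
      (Real.exp_le_exp.2 (hx k).2) 2).trans (le_of_eq ?_)
    simp
  obtain ⟨a, b, M, hex⟩ : ∃ a b M : ℝ, ∀ X : Matrix (Fin n) (Fin n) ℝ, ∃ (φ : E n → ℝ) (κ : ℝ),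
      (∀ i j, |X i j| ≤ R) → BP φ (fun y => V (ML (S X) y)) a b M κ := by
    refine ⟨(2 * √(C * (n * Real.exp (n * R) ^ 2)))⁻¹, (√(c * s ^ 2))⁻¹,
      MQ (c * s ^ 2) (C * (n * Real.exp (n * R) ^ 2)) MV, fun X => ?_⟩
    by_cases hX : ∀ i j, |X i j| ≤ R
    · obtain ⟨φ, κ, h⟩ := exQ hn (hreg X hX) hMV (sc_clm hVs)
      exact ⟨φ, κ, fun _ => h⟩
    · exact ⟨0, 0, fun h => absurd h hX⟩
  choose φ κ hφ using hex
  have ha : 0 < a := (hφ 0 (by simp [hR0.le])).a_pos
  obtain ⟨L, B, hL0, hB0, hL, hB⟩ := lip_of_deriv (a := a) (b := b)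
    (fun t ht => (hF t (ha.trans_le ht.1)).hasDerivWithinAt) (hF'.mono fun t ht => ha.trans_le ht.1)
  obtain ⟨Le, -, -, -, hLe, -⟩ := lip_of_deriv (a := -(n * R)) (b := n * R) (F := Real.exp) (F' := Real.exp)
    (fun t _ => (Real.hasDerivAt_exp t).hasDerivWithinAt) Real.continuous_exp.continuousOn
  set G : Matrix (Fin n) (Fin n) ℝ → Matrix (Fin n) (Fin n) ℝ :=
    fun X => of fun i j => ∫ z, mf F (hess (φ X) z) i j ∂(gQ n) with hG
  have hGs : ∀ X : Matrix (Fin n) (Fin n) ℝ, (∀ i j, |X i j| ≤ R) → ∀ i j, G X j i = G X i j := fun X hX i j => by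
    simp only [hG, of_apply]
    congr 1
    funext z
    obtain ⟨U, m, hd, -⟩ := bp_dec (hφ X hX) z
    exact congrFun (congrFun (hd.mf_symm F) i) j
  have hGc : ∀ i j, ContinuousOn (fun X => G X i j) {X | ∀ i j, |X i j| ≤ R} := by
    intro i j X₀ hX₀
    set Φ : Matrix (Fin n) (Fin n) ℝ → ℝ := fun X => √(L ^ 2 * (n * (n * √((2 * (n * |b|) ^ 2 / a ^ 2 + 2) *
      (Le ^ 2 * fr (sy X - sy X₀) / s ^ 2 * (Ex V (fun y => ‖y‖ ^ 2) / s ^ 2)) * (8 * b ^ 2 + 8 * M ^ 2)))))
      with hΦ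
    have hΦc : Continuous Φ := by
      simp only [hΦ, fr, sy, Matrix.sub_apply, of_apply]
      fun_prop
    have hΦ0 : Φ X₀ = 0 := by simp [hΦ, fr]
    rw [ContinuousWithinAt, tendsto_iff_dist_tendsto_zero]
    refine squeeze_zero' (Eventually.of_forall fun _ => dist_nonneg) ?_
      (hΦ0 ▸ hΦc.continuousAt.continuousWithinAt.tendsto)
    filter_upwards [self_mem_nhdsWithin] with X hX
    rw [Real.dist_eq, abs_sub_comm]
    refine Real.abs_le_sqrt (stab_F (hφ X₀ hX₀) (hφ X hX) hL0 hB0 hL hB (fun k => ?_) i j)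
    refine (stab_T hs0 (hco X₀ hX₀) (hco X hX) (hφ X₀ hX₀) (hφ X hX) (δ := Le ^ 2 * fr (sy X - sy X₀))
      (fun v => ?_) k).trans (mul_le_mul_of_nonneg_left (mul_le_mul_of_nonneg_left
        (mom_T hs0 (hco X hX) (hφ X hX)) (by have := fr_nonneg (sy X - sy X₀); positivity)) (by positivity))
    obtain ⟨U, x, hd, hx⟩ := sy_dec hR0.le hX
    obtain ⟨U', x', hd', hx'⟩ := sy_dec hR0.le hX₀
    have e : ML (S X) v - ML (S X₀) v = ML (S X - S X₀) v := by
      simp only [ML_apply, sub_mulVec]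
      rfl
    rw [e]
    exact (norm_ML _ v).trans (mul_le_mul_of_nonneg_right
      (mf_lip hd hd' fun k l => hLe _ (hx k) _ (hx' l)) (sq_nonneg _))
  obtain ⟨X, hX, h0⟩ := acuteM (G := fun X => of fun i j => (X i j - X j i) / 2 - G X i j) hR0
    (fun i j => ContinuousOn.sub (by fun_prop) (hGc i j)) fun X hX hfr => by
      obtain ⟨U, x, hd, hx⟩ := sy_dec hR0.le hX
      have e1 : ∑ i, ∑ j, G X i j * X i j = ∑ k, x k * qf (G X) (WithLp.toLp 2 fun i => U i k) := by
        rw [← pair_dec hd]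
        have e2 : ∑ i, ∑ j, G X i j * X j i = ∑ i, ∑ j, G X i j * X i j := by
          rw [Finset.sum_comm]
          simp only [hGs X hX]
        simp only [sy, of_apply, ← mul_div_assoc, mul_add, ← Finset.sum_div, Finset.sum_add_distrib]
        rw [e2]
        ring
      have e3 : ∑ k, x k * qf (G X) (WithLp.toLp 2 fun i => U i k) ≤ -α * ∑ k, |x k| + D := by
        refine (Finset.sum_le_sum fun k _ => bd_dir hV (hreg X hX) hs0 (hco X hX) (hd.dec_mf Real.exp) (hφ X hX)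
          hF hF' hl h1 h2 hK0 hK1 hK2 k).trans (le_of_eq ?_)
        rw [Finset.sum_add_distrib, Finset.mul_sum]
        simp [hD]
      have e4 : ∑ i, ∑ j, X j i ^ 2 = fr X := Finset.sum_comm
      have e5 : ∑ i, ∑ j, (X i j - X j i) / 2 * X i j = fr X - fr (sy X) := by
        have e6 : ∀ i j, (X i j - X j i) / 2 * X i j
            = (3 / 4 * X i j ^ 2 + 1 / 4 * X j i ^ 2) - ((X i j + X j i) / 2) ^ 2 := fun i j => by ring
        simp only [e6, Finset.sum_sub_distrib, Finset.sum_add_distrib, ← Finset.mul_sum]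
        rw [e4]
        simp only [fr, sy, of_apply]
        ring
      have e7 : 0 ≤ fr X - fr (sy X) := by
        have e6 : ∀ i j, ((X i j + X j i) / 2) ^ 2 ≤ 1 / 2 * X i j ^ 2 + 1 / 2 * X j i ^ 2 := fun i j => by
          nlinarith [sq_nonneg (X i j - X j i)]
        have e8 := Finset.sum_le_sum fun i (_ : i ∈ Finset.univ) =>
          Finset.sum_le_sum fun j (_ : j ∈ Finset.univ) => e6 i j
        simp only [Finset.sum_add_distrib, ← Finset.mul_sum] at e8
        rw [e4] at e8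
        simp only [fr, sy, of_apply] at e8 ⊢
        linarith
      have e9 : fr (sy X) ≤ (∑ k, |x k|) ^ 2 := by
        rw [fr_dec hd]
        simpa only [sq_abs] using Finset.sum_sq_le_sq_sum_of_nonneg (s := Finset.univ) (f := fun k => |x k|)
          fun _ _ => abs_nonneg _
      simp only [of_apply, sub_mul, Finset.sum_sub_distrib]
      rw [e5, e1]
      by_contra h3
      have h4 : 0 ≤ ∑ k, |x k| := Finset.sum_nonneg fun _ _ => abs_nonneg _
      have h5 : ∑ k, |x k| ≤ D / α := by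
        rw [le_div_iff₀ hα]
        linarith
      have h6 := pow_le_pow_left₀ h4 h5 2
      have h7 : 0 ≤ D / α := by positivity
      nlinarith [mul_nonneg hα.le h4, mul_nonneg h7 hD0, sq_nonneg D]
  obtain ⟨U, x, hd, -⟩ := sy_dec hR0.le hX
  refine ⟨S X, s, _, _, φ X, a, b, M, κ X, hd.mf_symm _, hs0, hco X hX, hreg X hX, hφ X hX, fun i j => ?_⟩
  have h3 := congrFun (congrFun h0 i) j
  have h4 := congrFun (congrFun h0 j) i
  simp only [of_apply, Matrix.zero_apply] at h3 h4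
  have h5 := hGs X hX i j
  change G X i j = 0
  linarith

end Vale.Agent.P254Z.Br
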