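import Vale.Agent.P254Z.Br.GaB
import Vale.Agent.P254Z.Eq.Iface

/-! P254, Brenier potential: the gauge for the inverse hazard function, affine invariance of the
deficit, covariance of the image and the formula for the deficit. -/

set_option linter.all false

open MeasureTheory Filter Set Matrix
open scoped Topology NNReal

namespace Vale.Agent.P254Z.Br

open Vale.Agent.P227.M Vale.Agent.P254 Vale.Agent.P254.S Vale.Agent.P254.S130 Vale.Agent.P254.SP620
open Vale.Agent.P254.S5.R669 (ML ML_apply)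
open Vale.Agent.P254Z.Eq (Zf Am Gam chi2 Dfc Gauge)

variable {n : ℕ} {φ V : E n → ℝ} {a b M κ c C : ℝ}

theorem convex_tangent {f : ℝ → ℝ} {S : Set ℝ} {x y f' : ℝ} (hf : ConvexOn ℝ S f) (hx : x ∈ S) (hy : y ∈ S)
    (hd : HasDerivAt f f' x) : f x + f' * (y - x) ≤ f y := by
  rcases lt_trichotomy x y with h | rfl | h
  · have h1 := hf.le_slope_of_hasDerivAt hx hy h hd
    rw [slope_def_field, le_div_iff₀ (sub_pos.2 h)] at h1
    linarith
  · simp
  · have h1 := hf.slope_le_of_hasDerivAt hy hx h hd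
    rw [slope_def_field, div_le_iff₀ (sub_pos.2 h)] at h1
    linarith

theorem kap_cont : Continuous SF.kap := continuous_iff_continuousAt.2 fun z => (SF.kap_hasDerivAt z).continuousAt

theorem F1_cont : ContinuousOn (fun m => (m * SF.kap (SF.F m))⁻¹) (Ioi 0) := fun m hm =>
  ((continuousAt_id.mul (kap_cont.continuousAt.comp (SF.F_continuousAt hm))).inv₀
    (mul_pos hm (SF.kap_pos _)).ne').continuousWithinAt

/-- the gauge `E Z = 0` -/
theorem gaugeF (hn : 0 < n) (hV : Reg V c C) :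
    ∃ (S : Matrix (Fin n) (Fin n) ℝ) (s c' C' : ℝ) (φ : E n → ℝ) (a b M κ : ℝ), Sᵀ = S ∧ 0 < s ∧
      (∀ v, s * ‖v‖ ^ 2 ≤ inner ℝ (ML S v) v) ∧ Reg (fun x => V (ML S x)) c' C' ∧
      BP φ (fun x => V (ML S x)) a b M κ ∧ Gauge φ := by
  have h0 := SF.h_pos 0
  have hk : SF.kap 0 = SF.h 0 := by simp [SF.kap]
  refine gauge hn hV (fun m hm => SF.F_hasDerivAt hm) F1_cont (α := (SF.h 0)⁻¹)
    (l := 1 + ((SF.h 0)⁻¹) ^ 2) (by positivity) (by positivity) (fun m hm => ?_) fun m hm => ?_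
  · have h1 := convex_tangent SF.F_inv_convexOn (x := (SF.h 0)⁻¹) (y := m⁻¹) (inv_pos.2 h0) (inv_pos.2 hm)
      (SF.F_inv_hasDerivAt (inv_pos.2 h0))
    simp only [inv_inv, SF.F_h, hk, div_self h0.ne'] at h1
    have : 0 ≤ ((SF.h 0)⁻¹) ^ 2 * m⁻¹ := by positivity
    linarith
  · have h1 := convex_tangent SF.F_concaveOn.neg (x := SF.h 0) (y := m) h0 hm (SF.F_hasDerivAt h0).neg
    simp only [Pi.neg_apply, SF.F_h, hk] at h1
    have h2 : (SF.h 0 * SF.h 0)⁻¹ * (m - SF.h 0) = ((SF.h 0)⁻¹) ^ 2 * m - (SF.h 0)⁻¹ := by field_simp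
    linarith

/-! ### covariance -/

theorem bp_cov (h : BP φ V a b M κ) (i j : Fin n) :
    covV V i j = ∫ z, pd i φ z * pd j φ z ∂(gQ n) - (∫ z, pd i φ z ∂(gQ n)) * ∫ z, pd j φ z ∂(gQ n) := by
  unfold covV
  simp only [bp_push h, grad_coord]

theorem covV_symm (V : E n → ℝ) : (covV V)ᵀ = covV V := by
  ext i j
  simp only [covV, transpose_apply, mul_comm]

/-- `u · T` -/
noncomputable def Tu (φ : E n → ℝ) (u : E n) (z : E n) : ℝ := ∑ i, u i * pd i φ z

theorem pl_Tu (h : BP φ V a b M κ) (u : E n) : PL (Tu φ u) :=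
  PL.sum _ fun i _ => (bp_pl_T h i).const_mul _

theorem pd_Tu (h : BP φ V a b M κ) (u z : E n) (k : Fin n) : pd k (Tu φ u) z = ∑ i, hess φ z k i * u i := by
  unfold Tu
  rw [rpd_sum fun i _ => (rad_pd_diff h.C2 i z).const_mul _]
  refine Finset.sum_congr rfl fun i _ => ?_
  rw [rpd_mul (differentiableAt_const _) (rad_pd_diff h.C2 i z), rpd_const]
  simp [hess, mul_comm]

/-- the covariance is the variance of `u · T` -/
theorem qf_cov (h : BP φ V a b M κ) (u : E n) :
    qf (covV V) u = ∫ z, Tu φ u z ^ 2 ∂(gQ n) - (∫ z, Tu φ u z ∂(gQ n)) ^ 2 := by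
  have h1 := int_qf (W := fun z => of fun i j => pd i φ z * pd j φ z)
    (fun i j => (bp_pl_T h i).g.mul (bp_pl_T h j).g) u
  have h2 : ∫ z, Tu φ u z ∂(gQ n) = ∑ i, u i * ∫ z, pd i φ z ∂(gQ n) := by
    unfold Tu
    rw [integral_finsetSum _ fun i _ => ((bp_pl_T h i).g.const_mul _).int]
    simp only [integral_const_mul]
  have h3 : (fun z => Tu φ u z ^ 2) = fun z => qf (of fun i j => pd i φ z * pd j φ z) u := by
    funext z
    simp only [Tu, qf, of_apply, sq, Finset.sum_mul_sum]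
    exact Finset.sum_congr rfl fun i _ => Finset.sum_congr rfl fun j _ => by ring
  rw [h3, h1, h2, sq, Finset.sum_mul_sum, ← Finset.sum_sub_distrib, qf]
  refine Finset.sum_congr rfl fun i _ => ?_
  rw [← Finset.sum_sub_distrib]
  refine Finset.sum_congr rfl fun j _ => ?_
  rw [bp_cov h]
  simp only [of_apply]
  ring

theorem cov_low (h : BP φ V a b M κ) (u : E n) : a ^ 2 * ‖u‖ ^ 2 ≤ qf (covV V) u := by
  rcases eq_or_ne u 0 with rfl | hu
  · simp [qf]
  have hu0 : 0 < ‖u‖ ^ 2 := by positivity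
  set m := ∫ z, Tu φ u z ∂(gQ n) with hm
  have hf := pl_Tu h u
  have hf' : PL fun z => Tu φ u z - m := hf.sub (PL.const m)
  have h1 := cs_gQ (pl_inner u).g hf'.g
  have h2 : ∫ z : E n, (∑ i, u i * z i) ^ 2 ∂(gQ n) = ‖u‖ ^ 2 := by
    have h3 := int_qf (W := fun z : E n => of fun i j => z i * z j) (fun i j => (PG.coord i).mul (PG.coord j)) u
    simp only [of_apply, cov_coord] at h3
    rw [← qf_one]
    refine Eq.trans ?_ (h3.trans ?_)
    · congr 1
      funext z
      simp only [qf, of_apply, sq, Finset.sum_mul_sum]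
      exact Finset.sum_congr rfl fun i _ => Finset.sum_congr rfl fun j _ => by ring
    · simp only [qf, one_apply, eq_comm]
  have h3 : ∫ z, (Tu φ u z - m) ^ 2 ∂(gQ n) = qf (covV V) u := by
    have e : (fun z => (Tu φ u z - m) ^ 2) = fun z => (Tu φ u z ^ 2 - 2 * m * Tu φ u z) + m ^ 2 := by
      funext z; ring
    have i1 : Integrable (fun z => Tu φ u z ^ 2 - 2 * m * Tu φ u z) (gQ n) :=
      ((hf.g.pow 2).sub (hf.g.const_mul _)).int
    rw [qf_cov h, e, integral_add i1 (integrable_const _), integral_sub (hf.g.pow 2).int (hf.g.const_mul _).int,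
      integral_const_mul, ← hm]
    simp only [integral_const, probReal_univ, smul_eq_mul, one_mul]
    ring
  have h4 : ∫ z : E n, (∑ i, u i * z i) * (Tu φ u z - m) ∂(gQ n) = ∫ z, qf (hess φ z) u ∂(gQ n) := by
    have h5 : ∀ k, ∫ z : E n, z k * (Tu φ u z - m) ∂(gQ n) = ∫ z, ∑ i, hess φ z k i * u i ∂(gQ n) := fun k => by
      rw [← ibp hf' k]
      refine gQ_congr ?_
      filter_upwards [hf.diff] with z hz
      rw [rpd_sub hz (differentiableAt_const _), rpd_const, sub_zero, pd_Tu h]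
    simp only [Finset.sum_mul, mul_assoc]
    rw [integral_finsetSum _ fun k _ => (((PG.coord k).mul hf'.g).const_mul _).int]
    simp only [integral_const_mul, h5]
    simp only [← integral_const_mul]
    rw [← integral_finsetSum _ fun k _ =>
      ((PG.sum _ fun i _ => (pl_hess h k i).g.mul (PG.const _)).const_mul _).int]
    congr 1
    funext z
    simp only [qf, Finset.mul_sum]
    exact Finset.sum_congr rfl fun i _ => Finset.sum_congr rfl fun j _ => by ring
  have h5 : a * ‖u‖ ^ 2 ≤ ∫ z, qf (hess φ z) u ∂(gQ n) := by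
    have := gQ_mono (PG.const _) (pg_qf (fun i j => (pl_hess h i j).g) u) (ae_of_all _ fun z => h.lower z u)
    simpa using this
  rw [h2, h3, h4] at h1
  have h6 := pow_le_pow_left₀ (by have := h.a_pos; positivity) h5 2
  refine le_of_mul_le_mul_left ?_ hu0
  nlinarith

theorem cov_dec (h : BP φ V a b M κ) : ∃ U m, Dec (covV V) U m ∧ ∀ i, 0 < m i := by
  obtain ⟨U, m, hd⟩ := exists_dec (covV_symm V)
  refine ⟨U, m, hd, fun i => ?_⟩
  obtain ⟨e1, e2⟩ := qf_col hd i
  have h1 := cov_low h (WithLp.toLp 2 fun k => U k i)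
  rw [e1, e2] at h1
  exact lt_of_lt_of_le (by have := h.a_pos; positivity) h1

theorem cov_det_pos (h : BP φ V a b M κ) : 0 < (covV V).det := by
  obtain ⟨U, m, hd, hm⟩ := cov_dec h
  rw [dec_det hd]
  exact Finset.prod_pos fun i _ => hm i

/-- `- log det A ≥ log det Y + n - tr (Y A)`, in an orthonormal frame diagonalising `Y` -/
theorem neg_logdet_ge {A U W : Matrix (Fin n) (Fin n) ℝ} {m y : Fin n → ℝ} (hd : Dec A W m) (hm : ∀ i, 0 < m i)
    (hU : Uᵀ * U = 1) (hy : ∀ k, 0 < y k) :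
    ∑ k, (Real.log (y k) + 1 - y k * qf A (WithLp.toLp 2 fun i => U i k)) ≤ -Real.log A.det := by
  obtain ⟨P, hP⟩ : ∃ P, P = U * diagonal fun k => √(y k) := ⟨_, rfl⟩
  have hs : (Pᵀ * A * P)ᵀ = Pᵀ * A * P := by
    rw [transpose_mul, transpose_mul, transpose_transpose, hd.symm, Matrix.mul_assoc]
  obtain ⟨W', l, hl⟩ := exists_dec hs
  have hA : 0 < A.det := by
    rw [dec_det hd]
    exact Finset.prod_pos fun i _ => hm i
  have h1 : U.det * U.det = 1 := by
    have := congrArg det hU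
    rwa [det_mul, det_transpose, det_one] at this
  have h2 : ∏ i, l i = (∏ k, y k) * A.det := by
    have h3 : (∏ k, √(y k)) * ∏ k, √(y k) = ∏ k, y k := by
      rw [← Finset.prod_mul_distrib]
      exact Finset.prod_congr rfl fun k _ => Real.mul_self_sqrt (hy k).le
    rw [← dec_det hl, det_mul, det_mul, det_transpose, hP, det_mul, det_diagonal, ← h3]
    calc _ = (U.det * U.det) * ((∏ k, √(y k)) * (∏ k, √(y k)) * A.det) := by ring
      _ = _ := by rw [h1, one_mul]
  have hy' : 0 < ∏ k, y k := Finset.prod_pos fun k _ => hy k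
  have h4 : ∀ i, 0 ≤ l i := fun i => by
    rw [← (qf_col hl i).1, Loc.qf_eq, ← mulVec_mulVec, ← mulVec_mulVec, dotProduct_mulVec, vecMul_transpose]
    have := qf_dec hd (WithLp.toLp 2 (P *ᵥ fun k => W' k i))
    rw [Loc.qf_eq] at this
    refine le_of_le_of_eq ?_ this.symm
    exact Finset.sum_nonneg fun k _ => mul_nonneg (hm k).le (sq_nonneg _)
  have h5 : ∀ i, l i ≠ 0 := fun i h0 => by
    have : ∏ i, l i = 0 := Finset.prod_eq_zero (Finset.mem_univ i) h0
    rw [h2] at this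
    exact (mul_pos hy' hA).ne' this
  have h6 : ∑ i, l i = ∑ k, y k * qf A (WithLp.toLp 2 fun i => U i k) := by
    have h7 := hl.mf_trace fun x => x
    rw [hl.mf_id] at h7
    rw [← h7, Matrix.trace]
    refine Finset.sum_congr rfl fun k _ => ?_
    simp only [hP, diag_apply, Matrix.mul_apply, transpose_apply, qf, Finset.mul_sum, Finset.sum_mul,
      diagonal_apply, mul_ite, mul_zero, Finset.sum_ite_eq', Finset.mem_univ, if_true]
    rw [Finset.sum_comm]
    refine Finset.sum_congr rfl fun i _ => Finset.sum_congr rfl fun j _ => ?_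
    conv_rhs => rw [← Real.mul_self_sqrt (hy k).le]
    ring
  have h8 : Real.log (∏ i, l i) ≤ ∑ i, (l i - 1) := by
    rw [Real.log_prod fun i _ => h5 i]
    exact Finset.sum_le_sum fun i _ => Real.log_le_sub_one_of_pos (lt_of_le_of_ne (h4 i) (h5 i).symm)
  rw [h2, Real.log_mul hy'.ne' hA.ne', Real.log_prod fun k _ => (hy k).ne', Finset.sum_sub_distrib, h6] at h8
  rw [Finset.sum_sub_distrib, Finset.sum_add_distrib]
  linarith

/-! ### the deficit -/

theorem det_ML (S : Matrix (Fin n) (Fin n) ℝ) : (ML S).det = S.det := by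
  have h : ((ML S : E n →L[ℝ] E n) : E n →ₗ[ℝ] E n) = Matrix.toLpLin 2 2 S := by
    ext v i
    rfl
  rw [ContinuousLinearMap.det, h, Matrix.toLpLin_eq_toLin, LinearMap.det_toLin]

theorem dfc_ML {S : Matrix (Fin n) (Fin n) ℝ} {s c' C' : ℝ} (hs : 0 < s)
    (hS : ∀ v, s * ‖v‖ ^ 2 ≤ inner ℝ (ML S v) v) (hV : Reg V c C) (hV' : Reg (fun x => V (ML S x)) c' C')
    (h0 : (covV fun x => V (ML S x)).det ≠ 0) : Dfc V = Dfc fun x => V (ML S x) := by
  have hd := LIM.det_pos_of_coercive hs (ML S) hS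
  have hZ := hV'.Z_pos
  have h1 : entV V = entV (fun x => V (ML S x)) + Real.log S.det := by
    unfold entV
    rw [Ex_clm hs hS, LIM.integral_comp_mul_det hs (ML S).contDiff (clm_mono hS) (fun x => Real.exp (-V x))]
    simp only [ContinuousLinearMap.fderiv]
    rw [integral_mul_const, Real.log_mul hZ.ne' hd.ne', det_ML, add_assoc]
  have h3 : ∀ (f : Fin n → E n → ℝ) (r : Fin n → ℝ), (∀ k, Gr (f k)) →
      Ex (fun x => V (ML S x)) (fun x => ∑ k, r k * f k x) = ∑ k, r k * Ex (fun x => V (ML S x)) (f k) :=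
    fun f r hf => by
    unfold Ex
    simp only [Finset.sum_mul, mul_assoc]
    rw [integral_finsetSum _ fun k _ => (hV'.integrable_gr (hf k)).const_mul _, Finset.sum_div]
    simp only [integral_const_mul, mul_div_assoc]
  have h2 : covV V = S * covV (fun x => V (ML S x)) * Sᵀ := by
    ext i j
    have e1 : ∀ i, Ex V (fun x => x i) = ∑ k, S i k * Ex (fun x => V (ML S x)) (fun x => x k) := fun i => by
      rw [Ex_clm hs hS, ← h3 _ _ Gr.coord]
      rfl
    have e2 : Ex V (fun x => x i * x j)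
        = ∑ l, S j l * ∑ k, S i k * Ex (fun x => V (ML S x)) (fun x => x k * x l) := by
      simp only [← h3 _ _ fun k => (Gr.coord k).mul (Gr.coord _)]
      rw [Ex_clm hs hS, ← h3 _ _ fun l => Gr.sum _ fun k _ => ((Gr.coord k).mul (Gr.coord l)).const_mul _]
      congr 1
      funext x
      simp only [ML_apply, mulVec, dotProduct, Finset.mul_sum, Finset.sum_mul]
      exact Finset.sum_congr rfl fun l _ => Finset.sum_congr rfl fun k _ => by ring
    simp only [Matrix.mul_apply, transpose_apply, covV]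
    rw [e1, e1, e2, mul_comm, Finset.sum_mul, ← Finset.sum_sub_distrib]
    refine Finset.sum_congr rfl fun l _ => ?_
    simp only [Finset.mul_sum, Finset.sum_mul]
    rw [← Finset.sum_sub_distrib]
    exact Finset.sum_congr rfl fun k _ => by ring
  rw [det_ML] at hd
  unfold Dfc
  rw [h1, h2, det_mul, det_mul, det_transpose, Real.log_mul (mul_ne_zero hd.ne' h0) hd.ne',
    Real.log_mul hd.ne' h0]
  ring

/-- every regular potential has the deficit of a potential in gauge position -/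
theorem dfc_gauge (hn : 0 < n) (hV : Reg V c C) :
    ∃ (S : Matrix (Fin n) (Fin n) ℝ) (s c' C' : ℝ) (φ : E n → ℝ) (a b M κ : ℝ), Sᵀ = S ∧ 0 < s ∧
      (∀ v, s * ‖v‖ ^ 2 ≤ inner ℝ (ML S v) v) ∧ Reg (fun x => V (ML S x)) c' C' ∧
      BP φ (fun x => V (ML S x)) a b M κ ∧ Gauge φ ∧
      Dfc V = Dfc fun x => V (ML S x) := by
  obtain ⟨S, s, c', C', φ, a, b, M, κ, h1, h2, h3, h4, h5, h6⟩ := gaugeF hn hV
  exact ⟨S, s, c', C', φ, a, b, M, κ, h1, h2, h3, h4, h5, h6, dfc_ML h2 h3 hV h4 (cov_det_pos h5).ne'⟩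

theorem stmtGaugeF : Eq.StmtGaugeF := by
  intro n V c C hV
  rcases Nat.eq_zero_or_pos n with rfl | hn
  · have e : (fun x => V (lin 1 x)) = V := funext fun x => congrArg V (Subsingleton.elim _ _)
    refine ⟨1, c, C, by simp, ?_, _, _, _, _, _, bp_zero, fun i => i.elim0⟩
    rwa [e]
  obtain ⟨S, s, c', C', φ, a, b, M, κ, -, h2, h3, h4, h5, h6⟩ := gaugeF hn hV
  exact ⟨S, c', C', (det_ML S ▸ LIM.det_pos_of_coercive h2 (ML S) h3).ne', h4, φ, a, b, M, κ, h5, h6⟩

/-- the sharp inequality in gauge position -/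
def StmtG : Prop := ∀ (n : ℕ), 0 < n → ∀ (V φ : E n → ℝ) (c C a b M κ : ℝ), Reg V c C → BP φ V a b M κ →
  Gauge φ → 0 ≤ Dfc V

theorem stmtS_of (H : StmtG) : StmtS 0 := by
  intro n V c C hV
  rcases Nat.eq_zero_or_pos n with rfl | hn
  · have h := bp_ent (bp_zero (V := V))
    simp [h]
  obtain ⟨S, s, c', C', φ, a, b, M, κ, -, -, -, h4, h5, h6, h7⟩ := dfc_gauge hn hV
  have h8 := H n hn _ φ c' C' a b M κ h4 h5 h6
  rw [← h7, Dfc] at h8
  linarith

theorem F_deriv (h : BP φ V a b M κ) :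
    (∀ x ∈ Icc a b, HasDerivWithinAt SF.F ((x * SF.kap (SF.F x))⁻¹) (Icc a b) x) ∧
      ContinuousOn (fun m => (m * SF.kap (SF.F m))⁻¹) (Icc a b) :=
  ⟨fun t ht => (SF.F_hasDerivAt (h.a_pos.trans_le ht.1)).hasDerivWithinAt,
    F1_cont.mono fun t ht => h.a_pos.trans_le ht.1⟩

theorem mbl_Zf (h : BP φ V a b M κ) : MBL (Zf φ) := bp_mbl_mf h (F_deriv h).1 (F_deriv h).2

theorem Zf_dec (h : BP φ V a b M κ) (z : E n) :
    ∃ U m, Dec (hess φ z) U m ∧ Dec (Zf φ z) U (fun i => SF.F (m i)) ∧ (∀ i, m i ∈ Icc a b) ∧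
      ∀ i, SF.F (m i) ∈ Icc (SF.F a) (SF.F b) := by
  obtain ⟨U, m, hd, hm⟩ := bp_dec h z
  have h0 : ∀ i, 0 < m i := fun i => h.a_pos.trans_le (hm i).1
  exact ⟨U, m, hd, hd.dec_mf _, hm, fun i => ⟨SF.F_strictMonoOn.monotoneOn h.a_pos (h0 i) (hm i).1,
    SF.F_strictMonoOn.monotoneOn (h0 i) ((h0 i).trans_le (hm i).2) (hm i).2⟩⟩

theorem Zf_spec (h : BP φ V a b M κ) (z : E n) :
    ∃ U x, Dec (Zf φ z) U x ∧ ∀ i, x i ∈ Icc (SF.F a) (SF.F b) := by
  obtain ⟨U, m, -, h1, -, h2⟩ := Zf_dec h z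
  exact ⟨U, _, h1, h2⟩

/-- `M = h (Z)` -/
theorem hess_eq (h : BP φ V a b M κ) (z : E n) : hess φ z = mf SF.h (Zf φ z) := by
  obtain ⟨U, m, hd, hz, hm, -⟩ := Zf_dec h z
  rw [hz.mf_eq]
  simp only [fun i => SF.h_F (h.a_pos.trans_le (hm i).1)]
  exact hd.eq

/-- a `C¹` function of the labels is a bounded Lipschitz field -/
theorem mbl_fZ (h : BP φ V a b M κ) {f f' : ℝ → ℝ} (hf : ∀ x, HasDerivAt f (f' x) x) (hf' : Continuous f') :
    MBL fun z => mf f (Zf φ z) := by
  obtain ⟨L, B, h1, h2, h3, h4⟩ := lip_of_deriv (a := SF.F a) (b := SF.F b)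
    (fun x _ => (hf x).hasDerivWithinAt) hf'.continuousOn
  exact mbl_mf (mbl_Zf h) (Zf_spec h) h1 h2 h3 h4

/-- the formula for the deficit -/
theorem dfc_eq (h : BP φ V a b M κ) :
    2 * Dfc V = ∫ z, (mf (fun x => 2 * SF.E0 x - x ^ 2 - 1) (Zf φ z)).trace ∂(gQ n) - Real.log (covV V).det := by
  have h1 : ∀ z, (mf (fun x => 2 * SF.E0 x - x ^ 2 - 1) (Zf φ z)).trace
      = 2 * Real.log (hess φ z).det + n * (Real.log (2 * Real.pi) - 1) := fun z => by
    obtain ⟨U, m, hd, hz, hm, -⟩ := Zf_dec h z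
    have h2 : ∀ i, 2 * SF.E0 (SF.F (m i)) - SF.F (m i) ^ 2 - 1
        = 2 * Real.log (m i) + (Real.log (2 * Real.pi) - 1) := fun i => by
      have h3 := SF.log_h (SF.F (m i))
      rw [SF.h_F (h.a_pos.trans_le (hm i).1), Real.log_sqrt (by positivity)] at h3
      linarith
    rw [hz.mf_trace, bp_logdet h hd]
    simp only [h2]
    rw [Finset.sum_add_distrib, Finset.mul_sum]
    simp only [Finset.sum_const, Finset.card_univ, Fintype.card_fin, nsmul_eq_mul]
  simp only [h1]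
  rw [integral_add ((PG.of_gr (bp_gr_logdet h)).const_mul 2).int (integrable_const _), integral_const_mul, Dfc,
    bp_ent h, Real.log_mul (by positivity) (Real.exp_pos _).ne', Real.log_exp]
  simp only [integral_const, probReal_univ, smul_eq_mul, one_mul]
  ring

end Vale.Agent.P254Z.Br
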