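import Vale.Agent.P254.Bdl.B19
import Vale.Agent.P254.S.Iface

/-! P254, Brenier map of the Gaussian: invariance of the level-`k` class (`StmtInvG`). -/

set_option linter.all false

open MeasureTheory

namespace Vale.Agent.P254Z.Br

open Vale.Agent.P227.M Vale.Agent.P254 Vale.Agent.P254.S

variable {n : ℕ}

theorem stmtSC : StmtSC :=
  Vale.Agent.P227.M.HL.stmtSC_of_heat Vale.Agent.P227.M.SC.stmtHeat

theorem Reg.weaken {V : E n → ℝ} {c C c' C' : ℝ} (h : Reg V c C) (h0 : 0 < c') (h1 : c' ≤ c)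
    (h2 : C ≤ C') : Reg V c' C' where
  c_pos := h0
  smooth := h.smooth
  lower x v := (mul_le_mul_of_nonneg_right h1 (by positivity)).trans (h.lower x v)
  upper x v := (h.upper x v).trans (mul_le_mul_of_nonneg_right h2 (by positivity))
  bdd := h.bdd

theorem Q_eq : (Q : E n → ℝ) = fun x => (1 : ℝ) / 2 * ‖x‖ ^ 2 := by
  funext x; unfold Q; ring

theorem reg_Q : Reg (Q : E n → ℝ) 1 1 := by
  rw [Q_eq]
  exact (MM.Start102.nice_quad one_pos le_rfl).toReg

theorem sc_Q : SelfConc 0 (Q : E n → ℝ) := by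
  rw [Q_eq]
  exact MM.Start102.selfConc_quad zero_le_one le_rfl

theorem sc_add_Q {W : E n → ℝ} {c C κ : ℝ} (h : Reg W c C) (hκ : 0 ≤ κ) (hs : SelfConc κ W) :
    SelfConc κ (fun z => W z + Q z) := by
  have hS := LK.Reg.add h (reg_Q (n := n))
  have hq := sc_Q (n := n)
  rw [LK.selfConc_iff hS.smooth (LK.qf_nonneg_of_reg hS)]
  rw [LK.selfConc_iff h.smooth (LK.qf_nonneg_of_reg h)] at hs
  rw [LK.selfConc_iff reg_Q.smooth (LK.qf_nonneg_of_reg reg_Q)] at hq
  intro x v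
  rw [LK.iteratedFDeriv_add' h.smooth reg_Q.smooth, LK.qf_add h.smooth reg_Q.smooth]
  have h1 := hq x v
  have h2 : iteratedFDeriv ℝ 3 (Q : E n → ℝ) x (fun _ => v) = 0 := by
    have : |iteratedFDeriv ℝ 3 (Q : E n → ℝ) x (fun _ => v)| ≤ 0 := by simpa using h1
    exact abs_nonpos_iff.1 this
  have h3 : (iteratedFDeriv ℝ 3 W x + iteratedFDeriv ℝ 3 (Q : E n → ℝ) x) (fun _ => v) =
      iteratedFDeriv ℝ 3 W x (fun _ => v) := by
    rw [ContinuousMultilinearMap.add_apply, h2, add_zero]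
  rw [h3]
  refine (hs x v).trans ?_
  have h4 := LK.qf_nonneg_of_reg (reg_Q (n := n)) x v
  have h5 : √(qf (hess W x) v) ≤ √(qf (hess W x) v + qf (hess Q x) v) :=
    Real.sqrt_le_sqrt (by linarith)
  have h6 : √(qf (hess W x) v) ^ 3 ≤ √(qf (hess W x) v + qf (hess Q x) v) ^ 3 :=
    pow_le_pow_left₀ (Real.sqrt_nonneg _) h5 3
  exact mul_le_mul_of_nonneg_left h6 (by positivity)

section
variable {k a b m : ℝ} {c : E n → ℝ}

theorem reg_phi (hk : 0 < k) (hb : 0 < b) (hc : Reg c a b) : Reg (MM.phiK k c) b⁻¹ a⁻¹ := by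
  have ha := hc.c_pos
  have h1 := MC.Reg.mulK hc hk
  have h2 := LK.H570.regLL n _ _ _ h1 (by positivity)
  have h3 := LK.Reg.scale h2 (α := 1 / k) (β := k) (by positivity) hk.ne'
  refine LK.Reg.congr_const h3 ?_ ?_ <;> field_simp

theorem sc_phi (hk : 0 < k) (hb : 0 < b) (hm : 0 ≤ m) (hmk : m ^ 2 ≤ k) (hc : Reg c a b)
    (hs : SelfConc m c) : SelfConc m (MM.phiK k c) := by
  have hsk : 0 < √k := Real.sqrt_pos.2 hk
  have h1 := MC.Reg.mulK hc hk
  have h1s := LK.SelfConc.mulK hc hs hk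
  have h2 := LK.H570.regLL n _ _ _ h1 (by positivity)
  have hle : m / √k ≤ 1 := by
    rw [div_le_one hsk]
    exact Real.le_sqrt_of_sq_le hmk
  have h2s := stmtSC n _ _ _ _ h1 (by positivity) hle h1s
  have h3 := LK.SelfConc.scale h2 h2s (α := 1 / k) (β := k) (by positivity) hk.ne'
  have h4 : m / √k / √(1 / k) = m := by
    rw [Real.sqrt_div zero_le_one, Real.sqrt_one]
    field_simp
  rw [h4] at h3
  exact h3

/-- `k ψ_k` -/
noncomputable def PK (k : ℝ) (c : E n → ℝ) (x : E n) : ℝ :=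
  logLap (fun z => k * MM.phiK k c z + Q z) (k • x)

theorem reg_in (hk : 0 < k) (hb : 0 < b) (hc : Reg c a b) :
    Reg (fun z => k * MM.phiK k c z + Q z) (k * b⁻¹ + 1) (k * a⁻¹ + 1) :=
  LK.Reg.add (MC.Reg.mulK (reg_phi hk hb hc) hk) reg_Q

theorem reg_PK (hk : 0 < k) (hb : 0 < b) (hc : Reg c a b) :
    Reg (PK k c) (k ^ 2 * a / (k + a)) (k ^ 2 * b / (k + b)) := by
  have ha := hc.c_pos
  have h3 := LK.H570.regLL n _ _ _ (reg_in hk hb hc) (by positivity)
  have h4 := LK.Reg.scale h3 (α := 1) (β := k) (by positivity) hk.ne'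
  simp only [one_mul] at h4
  refine LK.Reg.congr_const h4 ?_ ?_ <;> field_simp

theorem sc_PK (hk : 0 < k) (hb : 0 < b) (hm : 0 ≤ m) (hmk : m ^ 2 ≤ k) (hc : Reg c a b)
    (hs : SelfConc m c) : SelfConc (m / √k) (PK k c) := by
  have ha := hc.c_pos
  have hsk : 0 < √k := Real.sqrt_pos.2 hk
  have h1 := reg_phi hk hb hc
  have h1s := sc_phi hk hb hm hmk hc hs
  have h2 := MC.Reg.mulK h1 hk
  have h2s := LK.SelfConc.mulK h1 h1s hk
  have h2q := sc_add_Q h2 (by positivity) h2s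
  have hin := reg_in hk hb hc
  have h3 := LK.H570.regLL n _ _ _ hin (by positivity)
  have hle : m / √k ≤ 1 := by
    rw [div_le_one hsk]
    exact Real.le_sqrt_of_sq_le hmk
  have h3s := stmtSC n _ _ _ _ hin (by positivity) hle h2q
  have h4s := LK.SelfConc.scale h3 h3s (α := 1) (β := k) (by positivity) hk.ne'
  simp only [one_mul, Real.sqrt_one, div_one] at h4s
  exact h4s

theorem TG_eq (k : ℝ) (V c : E n → ℝ) :
    TG k V c = fun x => 1 / k * (V x + PK k c x) - (V 0 + PK k c 0) / k := by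
  funext x; unfold TG psiG PK; ring

theorem TG_mem {V : E n → ℝ} {c0 C0 MV : ℝ} (hV : Reg V c0 C0) (hC0 : 0 < C0) (hMV : 0 ≤ MV)
    (hVs : SelfConc MV V) (ha2 : a ^ 2 ≤ c0) (hb : 0 < b) (hb2 : 4 * C0 ≤ b ^ 2)
    (hm : 2 / 3 * MV * √(C0 / (a / 2)) ≤ m) (hk : 0 < k) (hak : a ≤ k) (hbk : b ≤ k)
    (hmk : m ^ 2 ≤ k) (hc : ClsG k a b m c) : ClsG k a b m (TG k V c) := by
  have hc0 : 0 < c0 := hV.c_pos
  have ha : 0 < a := hc.reg.c_pos
  have hm0 : 0 ≤ m := le_trans (by positivity) hm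
  have hsk : 0 < √k := Real.sqrt_pos.2 hk
  have hQ := reg_PK hk hb hc.reg
  have hQs := sc_PK hk hb hm0 hmk hc.reg hc.sc
  have hS := LK.Reg.add hV hQ
  have hlow : k * (a / 2) ≤ k ^ 2 * a / (k + a) := by
    rw [le_div_iff₀ (by positivity)]
    have : 0 ≤ k * a * (k - a) := by
      have : 0 ≤ k - a := by linarith
      positivity
    nlinarith
  have hSs : SelfConc (m / √k) (fun x => V x + PK k c x) := by
    rw [LK.selfConc_iff hS.smooth (LK.qf_nonneg_of_reg hS)]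
    rw [LK.selfConc_iff hV.smooth (LK.qf_nonneg_of_reg hV)] at hVs
    rw [LK.selfConc_iff hQ.smooth (LK.qf_nonneg_of_reg hQ)] at hQs
    intro x v
    rw [LK.iteratedFDeriv_add' hV.smooth hQ.smooth, LK.qf_add hV.smooth hQ.smooth]
    exact LK.sum_ineq hk hm0 hMV (c0 := a / 2) (by positivity) hC0.le hm (N := ‖v‖ ^ 2)
      (by positivity) (LK.qf_nonneg_of_reg hV x v) (hV.upper x v)
      ((mul_le_mul_of_nonneg_right hlow (by positivity)).trans (hQ.lower x v)) (hVs x v) (hQs x v)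
  have hD := LK.Reg.scale hS (α := 1 / k) (β := 1) (by positivity) one_ne_zero
  have hDs := LK.SelfConc.scale hS hSs (α := 1 / k) (β := 1) (by positivity) one_ne_zero
  simp only [one_smul, one_pow, mul_one] at hD hDs
  have h4 : m / √k / √(1 / k) = m := by
    rw [Real.sqrt_div zero_le_one, Real.sqrt_one]
    field_simp
  rw [h4] at hDs
  rw [TG_eq]
  refine ⟨?_, LK.SelfConc.sub_const hD hDs _, ?_⟩
  · refine Reg.weaken (LK.Reg.sub_const hD _) ha ?_ ?_
    · have e : 1 / k * (c0 + k ^ 2 * a / (k + a)) = (c0 * (k + a) + k ^ 2 * a) / (k * (k + a)) := by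
        field_simp
      rw [e, le_div_iff₀ (by positivity)]
      have : a ^ 2 * k ≤ c0 * k := mul_le_mul_of_nonneg_right ha2 hk.le
      have : 0 ≤ c0 * a := by positivity
      nlinarith
    · have e : 1 / k * (C0 + k ^ 2 * b / (k + b)) = (C0 * (k + b) + k ^ 2 * b) / (k * (k + b)) := by
        field_simp
      rw [e, div_le_iff₀ (by positivity)]
      have h1 : 4 * C0 * k ≤ b ^ 2 * k := mul_le_mul_of_nonneg_right hb2 hk.le
      have h2 : C0 * b ≤ C0 * k := mul_le_mul_of_nonneg_left hbk hC0.le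
      have h3 : 0 ≤ C0 * k := by positivity
      nlinarith
  · show 1 / k * (V 0 + PK k c 0) - (V 0 + PK k c 0) / k = 0
    ring

end

theorem stmtInvG : StmtInvG := by
  intro n hn V c₀ C₀ hV
  obtain ⟨MV, hMV, hVs⟩ := LK.Reg.exists_selfConc hV
  have hc0 : 0 < c₀ := hV.c_pos
  have hcC := MM.nice_le hn hV
  have hC0 : 0 < C₀ := hc0.trans_le hcC
  have ha : 0 < √c₀ := Real.sqrt_pos.2 hc0
  have hb : 0 < √C₀ := Real.sqrt_pos.2 hC0
  have hab : √c₀ ≤ 2 * √C₀ := by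
    have := Real.sqrt_le_sqrt hcC
    linarith
  set m := 2 / 3 * MV * √(C₀ / (√c₀ / 2)) with hm
  have hm0 : 0 ≤ m := by positivity
  refine ⟨√c₀, 2 * √C₀, m, max 1 (max (2 * √C₀) (m ^ 2)), ha, hab, hm0, le_max_left _ _,
    fun k hk => ?_⟩
  have hk0 : 0 < k := lt_of_lt_of_le one_pos ((le_max_left _ _).trans hk)
  have hbk : 2 * √C₀ ≤ k := ((le_max_left _ _).trans (le_max_right _ _)).trans hk
  have hmk : m ^ 2 ≤ k := ((le_max_right _ _).trans (le_max_right _ _)).trans hk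
  refine ⟨⟨(MM.Start102.nice_quad ha hab).toReg, MM.Start102.selfConc_quad ha.le hm0, by simp⟩,
    fun c hc => ?_, fun c hc => ⟨?_, ?_⟩⟩
  · refine TG_mem hV hC0 hMV hVs ?_ (by positivity) ?_ le_rfl hk0 (hab.trans hbk) hbk hmk hc
    · rw [Real.sq_sqrt hc0.le]
    · rw [mul_pow, Real.sq_sqrt hC0.le]; linarith
  · exact reg_phi hk0 (by positivity) hc.reg
  · exact sc_phi hk0 (by positivity) hm0 hmk hc.reg hc.sc

end Vale.Agent.P254Z.Br
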