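import Vale.Agent.P254Z.Eq.Iface
import Vale.Agent.P254Z.Row.Energy

/-! P254, Brenier potential: the field `Z = h⁻¹ (D²φ)`, functions of `Z`, and the master
inequality for the deficit. -/

set_option linter.all false

open MeasureTheory Filter Set Matrix
open scoped Topology NNReal

namespace Vale.Agent.P254Z.Br

open Vale.Agent.P227.M Vale.Agent.P254 Vale.Agent.P254.S Vale.Agent.P254.S130 Vale.Agent.P254.SP620
open Vale.Agent.P254Z.Eq

variable {n : ℕ} {φ V : E n → ℝ} {a b M κ c C : ℝ}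

theorem kap_continuous : Continuous SF.kap :=
  continuous_iff_continuousAt.2 fun z => (SF.kap_hasDerivAt z).continuousAt

theorem b_continuous : Continuous SF.b :=
  continuous_iff_continuousAt.2 fun z => (SF.b_hasDerivAt z).continuousAt

theorem b1_continuous : Continuous SF.b1 :=
  continuous_iff_continuousAt.2 fun z => (SF.b1_hasDerivAt z).continuousAt

theorem b2_continuous : Continuous SF.b2 :=
  continuous_iff_continuousAt.2 fun z => (SF.b2_hasDerivAt z).continuousAt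

theorem F1_continuousOn : ContinuousOn SF.F1 (Ioi 0) := fun m hm => by
  have h1 : ContinuousAt (fun m => m * SF.kap (SF.F m)) m :=
    continuousAt_id.mul (kap_continuous.continuousAt.comp (SF.F_continuousAt hm))
  exact (h1.inv₀ (mul_pos hm (SF.kap_pos _)).ne').continuousWithinAt

theorem F_derivZ {a b : ℝ} (ha : 0 < a) :
    (∀ x ∈ Icc a b, HasDerivWithinAt SF.F (SF.F1 x) (Icc a b) x) ∧ ContinuousOn SF.F1 (Icc a b) :=
  ⟨fun x hx => (SF.F_hasDerivAt' (ha.trans_le hx.1)).hasDerivWithinAt,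
    F1_continuousOn.mono fun x hx => ha.trans_le hx.1⟩

theorem mbl_Z (h : BP φ V a b M κ) : MBL (Zf φ) := bp_mbl_mf h (F_derivZ h.a_pos).1 (F_derivZ h.a_pos).2

theorem mpl_Z (h : BP φ V a b M κ) : MPL (Zf φ) := MPL.of_mbl (mbl_Z h)

theorem dec_Z {z : E n} {U : Matrix (Fin n) (Fin n) ℝ} {m : Fin n → ℝ} (hd : Dec (hess φ z) U m) :
    Dec (Zf φ z) U (fun i => SF.F (m i)) := hd.dec_mf SF.F

/-- `h (Z) = D²φ` -/
theorem h_Z (h : BP φ V a b M κ) (z : E n) : mf SF.h (Zf φ z) = hess φ z := by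
  obtain ⟨U, m, hd, hm⟩ := bp_dec h z
  rw [(dec_Z hd).mf_eq, hd.eq]
  simp only [SF.h_F (h.a_pos.trans_le (hm _).1)]

theorem dec_of_Z (h : BP φ V a b M κ) {z : E n} {U : Matrix (Fin n) (Fin n) ℝ} {s : Fin n → ℝ}
    (hd : Dec (Zf φ z) U s) : Dec (hess φ z) U (fun i => SF.h (s i)) := by
  rw [← h_Z h z]
  exact hd.dec_mf SF.h

theorem Z_symm (h : BP φ V a b M κ) (z : E n) : (Zf φ z)ᵀ = Zf φ z := by
  obtain ⟨U, m, hd, -⟩ := bp_dec h z
  exact (dec_Z hd).symm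

theorem exists_dec_Z (h : BP φ V a b M κ) (z : E n) : ∃ U s, Dec (Zf φ z) U s := exists_dec (Z_symm h z)

theorem Z_mem (h : BP φ V a b M κ) {z : E n} {U : Matrix (Fin n) (Fin n) ℝ} {s : Fin n → ℝ}
    (hd : Dec (Zf φ z) U s) (i : Fin n) : s i ∈ Icc (SF.F a) (SF.F (max a b)) := by
  have hm := bp_mem h (dec_of_Z h hd) i
  have ha := h.a_pos
  have hs := SF.h_pos (s i)
  rw [← SF.F_h (s i)]
  exact ⟨SF.F_strictMonoOn.monotoneOn ha hs hm.1,
    SF.F_strictMonoOn.monotoneOn hs (ha.trans_le (le_max_left a b)) (hm.2.trans (le_max_right a b))⟩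

theorem Z_spec (h : BP φ V a b M κ) (z : E n) :
    ∃ U s, Dec (Zf φ z) U s ∧ ∀ i, s i ∈ Icc (SF.F a) (SF.F (max a b)) := by
  obtain ⟨U, s, hd⟩ := exists_dec_Z h z
  exact ⟨U, s, hd, Z_mem h hd⟩

/-- a `C¹` function of `Z` is bounded and Lipschitz -/
theorem mbl_fZf (h : BP φ V a b M κ) {f f' : ℝ → ℝ} (hf : ∀ x, HasDerivAt f (f' x) x) (hf' : Continuous f') :
    MBL (fun z => mf f (Zf φ z)) := by
  obtain ⟨L, B, h1, h2, h3, h4⟩ := lip_of_deriv (a := SF.F a) (b := SF.F (max a b))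
    (fun x _ => (hf x).hasDerivWithinAt) hf'.continuousOn
  exact mbl_mf (mbl_Z h) (Z_spec h) h1 h2 h3 h4

theorem mpl_fZ (h : BP φ V a b M κ) {f f' : ℝ → ℝ} (hf : ∀ x, HasDerivAt f (f' x) x) (hf' : Continuous f') :
    MPL (fun z => mf f (Zf φ z)) := MPL.of_mbl (mbl_fZf h hf hf')

/-- points where `D²φ`, its inverse and `Z` are differentiable -/
def GoodZ (φ : E n → ℝ) (z : E n) : Prop :=
  Good φ z ∧ ∀ i j, DifferentiableAt ℝ (fun y => Zf φ y i j) z

theorem ae_goodZ (h : BP φ V a b M κ) : ∀ᵐ z, GoodZ φ z := (bp_good h).and (mbl_ae_diff (mbl_Z h))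

theorem dM_Z (h : BP φ V a b M κ) {z : E n} (hz : GoodZ φ z) {U : Matrix (Fin n) (Fin n) ℝ}
    {m : Fin n → ℝ} (hd : Dec (hess φ z) U m) (k : Fin n) :
    dM (Zf φ) k z = DK SF.F SF.F1 U m (dM (hess φ) k z) := by
  have hs : ∀ {z : E n} {U : Matrix (Fin n) (Fin n) ℝ} {m : Fin n → ℝ}, Dec (hess φ z) U m →
      ∀ i, m i ∈ Icc a (max a b) := fun hd i =>
    ⟨(bp_mem h hd i).1, (bp_mem h hd i).2.trans (le_max_right a b)⟩
  refine dM_mf (le_max_left a b) (fun y => ?_) (F_derivZ h.a_pos).1 (F_derivZ h.a_pos).2 hz.1.1 hd (hs hd) k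
  obtain ⟨U, m, hd, -⟩ := bp_dec h y
  exact ⟨U, m, hd, hs hd⟩

/-- chain rule for `f (Z)` -/
theorem dM_fZ (h : BP φ V a b M κ) {f f' : ℝ → ℝ} (hf : ∀ x, HasDerivAt f (f' x) x) (hf' : Continuous f')
    {z : E n} (hz : GoodZ φ z) {U : Matrix (Fin n) (Fin n) ℝ} {s : Fin n → ℝ} (hd : Dec (Zf φ z) U s)
    (k : Fin n) : dM (fun y => mf f (Zf φ y)) k z = DK f f' U s (dM (Zf φ) k z) :=
  dM_mf (SF.F_strictMonoOn.monotoneOn h.a_pos (h.a_pos.trans_le (le_max_left a b)) (le_max_left a b))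
    (Z_spec h) (fun x _ => (hf x).hasDerivWithinAt) hf'.continuousOn hz.2 hd (Z_mem h hd) k

theorem dZ_symm (h : BP φ V a b M κ) (k : Fin n) (z : E n) : (dM (Zf φ) k z)ᵀ = dM (Zf φ) k z := by
  ext i j
  have e : (fun y => Zf φ y j i) = fun y => Zf φ y i j := funext fun y => congrFun (congrFun (Z_symm h y) i) j
  simp only [transpose_apply, dM, of_apply, e]

/-! ### matrix fields of polynomial growth -/

/-- entries are `PG` -/
def MPG (W : E n → Matrix (Fin n) (Fin n) ℝ) : Prop := ∀ i j, PG fun z => W z i j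

theorem MPL.mpg {W : E n → Matrix (Fin n) (Fin n) ℝ} (hW : MPL W) : MPG W := fun i j => (hW i j).g

theorem MPL.dM {W : E n → Matrix (Fin n) (Fin n) ℝ} (hW : MPL W) (k : Fin n) : MPG (dM W k) :=
  fun i j => (hW i j).d k

theorem MPG.mul {W W' : E n → Matrix (Fin n) (Fin n) ℝ} (hW : MPG W) (hW' : MPG W') :
    MPG (fun z => W z * W' z) := fun i j => by
  simp only [Matrix.mul_apply]
  exact PG.sum _ fun k _ => (hW i k).mul (hW' k j)

theorem MPG.trace {W : E n → Matrix (Fin n) (Fin n) ℝ} (hW : MPG W) : PG (fun z => (W z).trace) := by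
  simp only [Matrix.trace, diag_apply]
  exact PG.sum _ fun i _ => hW i i

theorem MPG.fr {W : E n → Matrix (Fin n) (Fin n) ℝ} (hW : MPG W) : PG (fun z => fr (W z)) :=
  PG.sum _ fun i _ => PG.sum _ fun j _ => (hW i j).pow 2

/-! ### the master inequality -/

/-- `b (Z)` -/
noncomputable def Bf (φ : E n → ℝ) (z : E n) : Matrix (Fin n) (Fin n) ℝ := mf SF.b (Zf φ z)

/-- the test field `b (Z)²` -/
noncomputable def Wf (φ : E n → ℝ) (z : E n) : Matrix (Fin n) (Fin n) ℝ := mf (fun s => SF.b s ^ 2) (Zf φ z)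

/-- the energy density of the test field -/
noncomputable def En (φ : E n → ℝ) (z : E n) : ℝ :=
  (Wf φ z * Qm φ z).trace + ∑ p, ∑ q, tau φ z p q * (dM (Wf φ) p z * dM (hess φ) q z).trace

/-- the slack density `S` -/
noncomputable def Sl (φ : E n → ℝ) (z : E n) : ℝ :=
  En φ z + ∑ k, fr (dM (Bf φ) k z) - ∑ k, fr (dM (Zf φ) k z)

theorem bsq_deriv (x : ℝ) : HasDerivAt (fun s => SF.b s ^ 2) (2 * SF.b x * SF.b1 x) x := by
  have := (SF.b_hasDerivAt x).fun_pow 2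
  simpa using this

theorem bsq_cont : Continuous fun x => 2 * SF.b x * SF.b1 x :=
  (continuous_const.mul b_continuous).mul b1_continuous

theorem mpl_B (h : BP φ V a b M κ) : MPL (Bf φ) := mpl_fZ h SF.b_hasDerivAt b1_continuous

theorem mpl_W (h : BP φ V a b M κ) : MPL (Wf φ) := mpl_fZ h bsq_deriv bsq_cont

theorem mpl_hess (h : BP φ V a b M κ) : MPL (hess φ) := pl_hess h

theorem pg_En2 (h : BP φ V a b M κ) :
    PG (fun z => ∑ p, ∑ q, tau φ z p q * (dM (Wf φ) p z * dM (hess φ) q z).trace) :=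
  PG.sum _ fun p _ => PG.sum _ fun q _ =>
    (pl_tau h p q).g.mul (((mpl_W h).dM p).mul ((mpl_hess h).dM q)).trace

theorem pg_En1 (h : BP φ V a b M κ) : PG (fun z => (Wf φ z * Qm φ z).trace) :=
  ((mpl_W h).mpg.mul (pg_Qm h)).trace

theorem pg_En (h : BP φ V a b M κ) : PG (En φ) := (pg_En1 h).add (pg_En2 h)

theorem pg_frd {W : E n → Matrix (Fin n) (Fin n) ℝ} (hW : MPL W) : PG (fun z => ∑ k, fr (dM W k z)) :=
  PG.sum _ fun k _ => (hW.dM k).fr

theorem pg_Sl (h : BP φ V a b M κ) : PG (Sl φ) :=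
  ((pg_En h).add (pg_frd (mpl_B h))).sub (pg_frd (mpl_Z h))

/-- (M3) the energy inequality at a good point, in any eigenframe of `Z` -/
theorem En_ge (h : BP φ V a b M κ) {z : E n} (hz : GoodZ φ z) {U : Matrix (Fin n) (Fin n) ℝ}
    {s : Fin n → ℝ} (hd : Dec (Zf φ z) U s) :
    ∑ k, ∑ i, ∑ j, SF.rho (s i) (s j) * (Uᵀ * dM (Zf φ) k z * U) i j ^ 2 ≤
      En φ z + ∑ k, fr (dM (Bf φ) k z) := by
  have hm := dec_of_Z h hd
  have key := Row.energy_ge hm (fun i => SF.h_pos (s i)) (P := fun k => dM (hess φ) k z)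
    (fun i j k => rad_third h.C2 hz.1.1 i j k) (fun i j k => by
      have e : (fun y => hess φ y j k) = fun y => hess φ y k j := funext fun y => hess_symm h.C2 y j k
      simp only [dM, of_apply, e])
  simp only [SF.F_h, ← dM_Z h hz hm] at key
  have e1 : ∀ k, dM (Bf φ) k z = DK SF.b SF.b1 U s (dM (Zf φ) k z) :=
    dM_fZ h SF.b_hasDerivAt b1_continuous hz hd
  have e2 : ∀ k, dM (Wf φ) k z = DK (fun s => SF.b s ^ 2) (fun s => 2 * SF.b s * SF.b1 s) U s
      (dM (Zf φ) k z) := dM_fZ h bsq_deriv bsq_cont hz hd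
  have e3 : Wf φ z = fm (fun s => SF.b s ^ 2) U s := hd.mf _
  simp only [En, e1, e2, e3]
  exact key

/-- (M3) the slack density dominates the pair kernel `ρ - 1` -/
theorem Sl_ge (h : BP φ V a b M κ) {z : E n} (hz : GoodZ φ z) {U : Matrix (Fin n) (Fin n) ℝ}
    {s : Fin n → ℝ} (hd : Dec (Zf φ z) U s) :
    ∑ k, ∑ i, ∑ j, (SF.rho (s i) (s j) - 1) * (Uᵀ * dM (Zf φ) k z * U) i j ^ 2 ≤ Sl φ z := by
  have h1 := En_ge h hz hd
  simp only [Sl, Row.fr_frame hd.orth (dM (Zf φ) _ z), sub_mul, one_mul, Finset.sum_sub_distrib]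
  linarith

theorem trace_conj_nonneg {X H : Matrix (Fin n) (Fin n) ℝ} (hH : ∀ v : E n, 0 ≤ qf H v) :
    0 ≤ (Xᵀ * H * X).trace := by
  refine Finset.sum_nonneg fun j _ => ?_
  refine (hH (WithLp.toLp 2 fun k => X k j)).trans (le_of_eq ?_)
  rw [diag_apply, Matrix.mul_apply, qf, Finset.sum_comm]
  refine Finset.sum_congr rfl fun l _ => ?_
  rw [Matrix.mul_apply, Finset.sum_mul]
  refine Finset.sum_congr rfl fun k _ => ?_
  simp only [transpose_apply]
  ring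

theorem lam_nonneg (hV : Reg V c C) (h : BP φ V a b M κ) (z : E n) : 0 ≤ (Wf φ z * Pm V φ z).trace := by
  obtain ⟨U, s, hd⟩ := exists_dec_Z h z
  have e1 : Wf φ z = Bf φ z * Bf φ z := by
    rw [Bf, hd.mf_mul]
    simp only [Wf, sq]
  have e2 : (Bf φ z)ᵀ = Bf φ z := hd.mf_symm _
  have h1 := trace_conj_nonneg (X := hess φ z * Bf φ z) (H := hess V (gradient φ z)) fun v =>
    (mul_nonneg hV.c_pos.le (sq_nonneg _)).trans (hV.lower _ v)
  rw [transpose_mul, e2, bp_symm h] at h1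
  rw [e1, Pm, Matrix.mul_assoc (Bf φ z), trace_mul_comm]
  simpa only [Matrix.mul_assoc] using h1

/-- (M2) -/
theorem int_En_le (hV : Reg V c C) (h : BP φ V a b M κ) :
    ∫ z, En φ z ∂(gQ n) ≤ ∫ z, (Wf φ z).trace ∂(gQ n) := by
  rw [bp_energy hV h (mpl_W h)]
  unfold En
  rw [integral_add (pg_En1 h).int (pg_En2 h).int]
  have : 0 ≤ ∫ z, (Wf φ z * Pm V φ z).trace ∂(gQ n) := integral_nonneg fun z => lam_nonneg hV h z
  linarith

theorem E0_deriv2 (x : ℝ) : HasDerivAt (fun s => 2 * SF.E0 s) (2 * SF.h x) x :=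
  (SF.E0_hasDerivAt x).const_mul 2

theorem mpl_E0 (h : BP φ V a b M κ) : MPL (fun z => mf (fun s => 2 * SF.E0 s) (Zf φ z)) :=
  mpl_fZ h E0_deriv2 (continuous_const.mul SF.h_continuous)

theorem fr_of_dec {A U : Matrix (Fin n) (Fin n) ℝ} {m : Fin n → ℝ} (h : Dec A U m) :
    fr A = ∑ k, m k ^ 2 := by
  rw [fr_eq, h.symm, ← h.mf_trace (fun x => x ^ 2)]
  conv_lhs => rw [← h.mf_id, h.mf_mul]
  simp only [sq]

/-- (M1) the deficit in terms of `Z` -/
theorem dfc_eqZ (h : BP φ V a b M κ) :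
    2 * Dfc V = ∫ z, (mf (fun s => 2 * SF.E0 s) (Zf φ z)).trace ∂(gQ n) - ∫ z, fr (Zf φ z) ∂(gQ n)
      - n - Real.log (covV V).det := by
  have e : ∀ z, Real.log (hess φ z).det = 1 / 2 * ((mf (fun s => 2 * SF.E0 s) (Zf φ z)).trace - fr (Zf φ z))
      - n * (1 / 2 * Real.log (2 * Real.pi)) := by
    intro z
    obtain ⟨U, s, hd⟩ := exists_dec_Z h z
    rw [bp_logdet h (dec_of_Z h hd), hd.mf_trace, fr_of_dec hd, ← Finset.sum_sub_distrib, Finset.mul_sum]
    simp only [SF.log_h, Real.log_sqrt (by positivity : (0 : ℝ) ≤ 2 * Real.pi)]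
    rw [Finset.sum_sub_distrib]
    simp only [Finset.sum_const, Finset.card_univ, Fintype.card_fin, nsmul_eq_mul]
    congr 1
    · exact Finset.sum_congr rfl fun i _ => by ring
    · ring
  have i1 := (mpl_E0 h).mpg.trace.int
  have i2 := (mpl_Z h).mpg.fr.int
  have i3 : Integrable (fun z => 1 / 2 * ((mf (fun s => 2 * SF.E0 s) (Zf φ z)).trace - fr (Zf φ z))) (gQ n) :=
    (i1.sub i2).const_mul _
  rw [Dfc, bp_ent h]
  simp only [e]
  rw [integral_sub i3 (integrable_const _), integral_const_mul, integral_sub i1 i2,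
    Real.log_mul (by positivity) (Real.exp_pos _).ne', Real.log_exp]
  simp only [integral_const, probReal_univ, smul_eq_mul, one_mul]
  ring

theorem c0_deriv (x : ℝ) :
    HasDerivAt (fun s => 2 * SF.E0 s - SF.b s ^ 2) (2 * SF.h x - 2 * SF.b x * SF.b1 x) x :=
  (E0_deriv2 x).sub (bsq_deriv x)

theorem mpl_c0 (h : BP φ V a b M κ) : MPL (fun z => mf (fun s => 2 * SF.E0 s - SF.b s ^ 2) (Zf φ z)) :=
  mpl_fZ h c0_deriv ((continuous_const.mul SF.h_continuous).sub bsq_cont)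

/-- **the master inequality** `tr C' + P + S - n - log det C ≤ 2 D` -/
theorem master (hV : Reg V c C) (h : BP φ V a b M κ) :
    (∫ z, (mf (fun s => 2 * SF.E0 s - SF.b s ^ 2) (Zf φ z)).trace ∂(gQ n)
        - ∫ z, ∑ k, fr (dM (Bf φ) k z) ∂(gQ n))
      + (∫ z, ∑ k, fr (dM (Zf φ) k z) ∂(gQ n) - ∫ z, fr (Zf φ z) ∂(gQ n))
      + ∫ z, Sl φ z ∂(gQ n) - n - Real.log (covV V).det ≤ 2 * Dfc V := by
  have h1 := int_En_le hV h
  have e : ∀ z, (mf (fun s => 2 * SF.E0 s - SF.b s ^ 2) (Zf φ z)).trace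
      = (mf (fun s => 2 * SF.E0 s) (Zf φ z)).trace - (Wf φ z).trace := by
    intro z
    obtain ⟨U, s, hd⟩ := exists_dec_Z h z
    rw [hd.mf_sub, trace_sub, Wf]
  simp only [e, Sl]
  rw [dfc_eqZ h, integral_sub (mpl_E0 h).mpg.trace.int (mpl_W h).mpg.trace.int,
    integral_sub ((pg_En h).add (pg_frd (mpl_B h))).int (pg_frd (mpl_Z h)).int,
    integral_add (pg_En h).int (pg_frd (mpl_B h)).int]
  linarith

end Vale.Agent.P254Z.Br
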